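import Vale.Agent.P067.Link.Join
import Vale.Agent.P067.Top.Chain

/-!
# Transport of fillings, and exactness from fillings
-/

namespace Vale.P067.Link

open Finset

set_option linter.unusedSectionVars false

variable {V W : Type} [DecidableEq V] [DecidableEq W]

/-- The map of chains induced by a vertex map. -/
noncomputable def mapC (f : V → W) : Chn V →ₗ[ZMod 2] Chn W :=
  Finsupp.linearCombination (ZMod 2) fun σ => Finsupp.single (σ.image f) 1

lemma mapC_eq_sum (f : V → W) (z : Chn V) :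
    mapC f z = ∑ σ ∈ z.support, z σ • Finsupp.single (σ.image f) (1 : ZMod 2) := by
  rw [mapC, Finsupp.linearCombination_apply]; rfl

lemma mapC_single (f : V → W) (σ : Finset V) :
    mapC f (Finsupp.single σ 1) = Finsupp.single (σ.image f) 1 := by
  rw [mapC, Finsupp.linearCombination_single, one_smul]

lemma mapC_mem {f : V → W} {K : Finset V → Prop} {L : Finset W → Prop} {k : ℕ}
    (hK : ∀ σ, K σ → Set.InjOn f σ ∧ L (σ.image f)) {z : Chn V} (hz : z ∈ chains K k) :
    mapC f z ∈ chains L k := by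
  rw [mapC_eq_sum]
  refine Submodule.sum_mem _ fun σ hσ => Submodule.smul_mem _ _ ?_
  obtain ⟨hc, hK'⟩ := mem_chains.1 hz σ hσ
  have h := single_mem (hK σ hK').2
  rwa [card_image_of_injOn (hK σ hK').1, hc] at h

lemma bdC_mapC {f : V → W} {z : Chn V} (hinj : ∀ σ ∈ z.support, Set.InjOn f σ) :
    bdC (mapC f z) = mapC f (bdC z) := by
  conv_rhs => rw [← z.sum_single]
  rw [mapC_eq_sum, Finsupp.sum, map_sum, map_sum, map_sum]
  refine sum_congr rfl fun σ hσ => ?_
  rw [map_smul, single_eq_smul σ (z σ), map_smul, map_smul]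
  congr 1
  rw [bdC_single, bdC_single, map_sum, sum_image (hinj σ hσ)]
  refine sum_congr rfl fun x hx => ?_
  rw [mapC_single]
  congr 1
  ext w
  simp only [mem_erase, mem_image]
  constructor
  · rintro ⟨hne, u, hu, rfl⟩
    exact ⟨u, ⟨fun h => hne (h ▸ rfl), hu⟩, rfl⟩
  · rintro ⟨u, ⟨hne, hu⟩, rfl⟩
    exact ⟨fun h => hne (hinj σ hσ hu hx h), u, hu, rfl⟩

lemma size_mapC_le (f : V → W) (z : Chn V) : size (mapC f z) ≤ size z := by
  rw [mapC_eq_sum]
  refine (size_sum _ _).trans ((Finset.sum_le_card_nsmul _ _ 1 fun σ _ => ?_).trans ?_)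
  · exact (size_smul _ _).trans (size_single_le _)
  · simp [size]

/-- Fillings are transported along a vertex map injective on the vertices involved. -/
theorem fill_map {f : V → W} {U : Set V} (hf : Set.InjOn f U) {K : Finset V → Prop}
    {L : Finset W → Prop} (hU : ∀ σ, K σ → ↑σ ⊆ U) (hKL : ∀ σ, K σ → L (σ.image f))
    (hLK : ∀ τ, L τ → ∃ σ, K σ ∧ σ.image f = τ) {m : ℕ} {Φ : ℕ → ℕ} (hΦ : Monotone Φ)
    (h : Fill K m Φ) : Fill L m Φ := by
  classical
  intro k hk z hz hb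
  rcases isEmpty_or_nonempty V with hV | hV
  · have hsub : ∀ τ, L τ → τ = ∅ := fun τ hτ => by
      obtain ⟨σ, -, rfl⟩ := hLK τ hτ
      rw [eq_empty_of_isEmpty σ, image_empty]
    rcases Nat.eq_zero_or_pos k with rfl | hk0
    · have hzσ := mem_chains.1 hz
      by_cases hne : z = 0
      · exact ⟨0, zero_mem _, by rw [hne, map_zero], by simp [size]⟩
      · obtain ⟨τ, hτ⟩ := Finsupp.support_nonempty_iff.2 hne
        obtain ⟨σ, hσK, -⟩ := hLK τ (hzσ τ hτ).2
        have hσ : σ = ∅ := eq_empty_of_isEmpty σ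
        subst hσ
        obtain ⟨w, hw, hwb, -⟩ := h 0 hk (Finsupp.single ∅ 1) (single_mem (σ := ∅) hσK)
          (by simp [bdC_single])
        have hw0 : w = 0 := Finsupp.support_eq_empty.1 (eq_empty_iff_forall_notMem.2 fun ρ hρ => by
          have := (mem_chains.1 hw ρ hρ).1
          rw [eq_empty_of_isEmpty ρ] at this
          simp at this)
        rw [hw0, map_zero] at hwb
        exact absurd hwb.symm (Finsupp.single_ne_zero.2 one_ne_zero)
    · have hz0 : z = 0 := Finsupp.support_eq_empty.1 (eq_empty_iff_forall_notMem.2 fun τ hτ => by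
        obtain ⟨hc, hτL⟩ := mem_chains.1 hz τ hτ
        rw [hsub τ hτL] at hc
        simp at hc; omega)
      exact ⟨0, zero_mem _, by rw [hz0, map_zero], by simp [size]⟩
  set g := Function.invFunOn f U with hg
  have hback : ∀ σ, K σ → (σ.image f).image g = σ := fun σ hσ => by
    rw [image_image]
    conv_rhs => rw [← image_id (s := σ)]
    exact image_congr fun x hx => Set.InjOn.leftInvOn_invFunOn hf (hU σ hσ hx)
  have hginj : ∀ τ, L τ → Set.InjOn g τ ∧ K (τ.image g) := by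
    intro τ hτ
    obtain ⟨σ, hσ, rfl⟩ := hLK τ hτ
    refine ⟨?_, by rwa [hback σ hσ]⟩
    rw [coe_image]
    rintro _ ⟨a, ha, rfl⟩ _ ⟨b, hb, rfl⟩ e
    rw [hg, Set.InjOn.leftInvOn_invFunOn hf (hU σ hσ ha),
      Set.InjOn.leftInvOn_invFunOn hf (hU σ hσ hb)] at e
    rw [e]
  have hfwd : ∀ σ, K σ → Set.InjOn f σ ∧ L (σ.image f) := fun σ hσ =>
    ⟨hf.mono (hU σ hσ), hKL σ hσ⟩
  obtain ⟨w, hw, hwb, hws⟩ := h k hk (mapC g z) (mapC_mem hginj hz)
    (by rw [bdC_mapC (fun τ hτ => (hginj τ (mem_chains.1 hz τ hτ).2).1), hb, map_zero])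
  refine ⟨mapC f w, mapC_mem hfwd hw, ?_,
    ((size_mapC_le f w).trans hws).trans (hΦ (size_mapC_le g z))⟩
  rw [bdC_mapC (fun σ hσ => (hfwd σ (mem_chains.1 hw σ hσ).2).1), hwb]
  conv_rhs => rw [← z.sum_single]
  conv_lhs => arg 2; rw [← z.sum_single]
  rw [Finsupp.sum, map_sum, map_sum]
  refine sum_congr rfl fun τ hτ => ?_
  obtain ⟨σ, hσ, e⟩ := hLK τ (mem_chains.1 hz τ hτ).2
  rw [single_eq_smul, map_smul, map_smul]
  congr 1
  rw [mapC_single, mapC_single, ← e, hback σ hσ]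

/-- Fillings pulled back along a vertex map injective on the vertices involved. -/
theorem fill_comap {f : V → W} [Nonempty V] {U : Set V} (hf : Set.InjOn f U)
    {K : Finset V → Prop} {L : Finset W → Prop} (hU : ∀ σ, K σ → ↑σ ⊆ U)
    (hKL : ∀ σ, K σ → L (σ.image f)) (hLK : ∀ τ, L τ → ∃ σ, K σ ∧ σ.image f = τ)
    {m : ℕ} {Φ : ℕ → ℕ} (hΦ : Monotone Φ) (h : Fill L m Φ) : Fill K m Φ := by
  classical
  have hback : ∀ σ, K σ → (σ.image f).image (Function.invFunOn f U) = σ := fun σ hσ => by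
    rw [image_image]
    conv_rhs => rw [← image_id (s := σ)]
    exact image_congr fun x hx => Set.InjOn.leftInvOn_invFunOn hf (hU σ hσ hx)
  refine fill_map (f := Function.invFunOn f U) (U := f '' U) ?_ ?_ ?_ ?_ hΦ h
  · rintro _ ⟨a, ha, rfl⟩ _ ⟨b, hb, rfl⟩ e
    rw [Set.InjOn.leftInvOn_invFunOn hf ha, Set.InjOn.leftInvOn_invFunOn hf hb] at e
    rw [e]
  · intro τ hτ
    obtain ⟨σ, hσ, rfl⟩ := hLK τ hτ
    rw [coe_image]
    exact Set.image_mono (hU σ hσ)
  · intro τ hτ
    obtain ⟨σ, hσ, rfl⟩ := hLK τ hτ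
    rwa [hback σ hσ]
  · exact fun σ hσ => ⟨σ.image f, hKL σ hσ, hback σ hσ⟩

open Vale.Agent.P067 in
/-- Fillings give exactness. -/
theorem Fill.exact {P : Set (Finset V)} (hP : Top.Down P) {m : ℕ} {Φ : ℕ → ℕ}
    (h : Fill (fun σ => σ ∈ P) m Φ) {k : ℕ} (hk : k < m) : Top.Exact P k := by
  classical
  have hdec : (inferInstance : DecidableEq V) = (fun a b => Classical.propDecidable (a = b)) :=
    Subsingleton.elim _ _
  subst_eqs
  have hbd : ∀ {j : ℕ} {x : Chn V}, x ∈ chains (fun σ => σ ∈ P) j →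
      Top.bdP P x = bdC x := by
    intro j x hx
    conv_lhs => rw [← x.sum_single]
    conv_rhs => rw [← x.sum_single]
    simp only [Finsupp.sum, map_sum]
    refine sum_congr rfl fun σ hσ => ?_
    rw [single_eq_smul, map_smul, map_smul]
    congr 1
    rw [Top.bdP_basic, bdC_single]
    exact sum_congr rfl fun v _ => by
      rw [if_pos (hP σ (mem_chains.1 hx σ hσ).2 _ (erase_subset _ _))]
  have hsub : ∀ {j : ℕ} {x : Chn V},
      x ∈ Top.piece P j ↔ x ∈ chains (fun σ => σ ∈ P) j := by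
    intro j x
    rw [mem_chains, Top.piece, Finsupp.mem_supported]
    exact ⟨fun hx σ hσ => ⟨(hx hσ).2, (hx hσ).1⟩, fun hx σ hσ => ⟨(hx σ hσ).2, (hx σ hσ).1⟩⟩
  intro z hz hc
  obtain ⟨w, hw, e, -⟩ := h k hk z (hsub.1 hz) (by rw [← hbd (hsub.1 hz), hc])
  exact ⟨w, hsub.2 hw, by rw [hbd hw, e]⟩

end Vale.P067.Link
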