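import Vale.Agent.P067.Link.Hyp
import Vale.Agent.P067.Link.Transport

/-!
# The finite quotient of a symmetric complex

A group `U` acts on a complex, transitively on top faces, and a normal subgroup `Γ` of finite index
moves no vertex inside the closed star of a vertex. The orbit complex is a finite complex with the
same links, with a finite group transitive on its top faces.
-/

namespace Vale.P067.Link

open Finset

set_option linter.unusedSectionVars false

variable {V U : Type} [Group U] [MulAction U V] [DecidableEq V]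

/-- A symmetric complex with a subgroup of deck transformations. -/
structure Cover (V U : Type) [Group U] [MulAction U V] [DecidableEq V] (n : ℕ) where
  X : Set (Finset V)
  col : V → ℕ
  Γ : Subgroup U
  normal : Γ.Normal
  finiteIndex : Finite (U ⧸ Γ)
  down : ∀ σ ∈ X, ∀ τ ⊆ σ, τ ∈ X
  inv : ∀ (g : U), ∀ σ ∈ X, σ.image (g • ·) ∈ X
  col_inv : ∀ (g : U) (v : V), col (g • v) = col v
  col_inj : ∀ σ ∈ X, Set.InjOn col (σ : Set V)
  pure : ∀ σ ∈ X, ∃ t ∈ X, σ ⊆ t ∧ t.card = n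
  trans : ∀ t ∈ X, ∀ t' ∈ X, t.card = n → t'.card = n → ∃ g : U, t.image (g • ·) = t'
  star : ∀ γ ∈ Γ, ∀ v w : V, ({v, w} : Finset V) ∈ X → ({v, γ • w} : Finset V) ∈ X → γ • w = w
  base : ∃ t ∈ X, t.card = n

namespace Cover

variable {n : ℕ} (C : Cover V U n)

/-- The vertices of the quotient. -/
abbrev Orb : Type := Quotient (MulAction.orbitRel C.Γ V)

/-- The projection. -/
def proj (v : V) : C.Orb := Quotient.mk (MulAction.orbitRel C.Γ V) v

lemma proj_eq {v w : V} : C.proj v = C.proj w ↔ ∃ γ ∈ C.Γ, γ • w = v := by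
  rw [proj, proj, Quotient.eq, MulAction.orbitRel_apply]
  exact ⟨fun ⟨γ, h⟩ => ⟨γ.1, γ.2, h⟩, fun ⟨γ, hγ, h⟩ => ⟨⟨γ, hγ⟩, h⟩⟩

lemma proj_surjective : Function.Surjective C.proj := Quotient.mk_surjective

/-- The colour of a vertex of the quotient. -/
def colQ : C.Orb → ℕ := Quotient.lift C.col fun _ w h => by
  obtain ⟨γ, rfl⟩ := h
  exact C.col_inv γ.1 w

lemma colQ_proj (v : V) : C.colQ (C.proj v) = C.col v := rfl

lemma injOn {σ : Finset V} (hσ : σ ∈ C.X) : Set.InjOn C.proj (σ : Set V) := fun v hv w hw h =>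
  C.col_inj σ hσ hv hw (congrArg C.colQ h)

/-- The action on the quotient. -/
def smulQ (g : U) : C.Orb → C.Orb := Quotient.map (g • ·) fun _ w h => by
  obtain ⟨γ, rfl⟩ := h
  refine ⟨⟨g * γ.1 * g⁻¹, C.normal.conj_mem _ γ.2 g⟩, ?_⟩
  show (g * γ.1 * g⁻¹) • g • w = g • γ.1 • w
  rw [smul_smul, inv_mul_cancel_right, mul_smul]

lemma smulQ_proj (g : U) (v : V) : C.smulQ g (C.proj v) = C.proj (g • v) := rfl

/-- The action on the quotient by permutations. -/
def permQ : U →* Equiv.Perm C.Orb where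
  toFun g :=
    { toFun := C.smulQ g
      invFun := C.smulQ g⁻¹
      left_inv := fun w => by
        obtain ⟨v, rfl⟩ := C.proj_surjective w
        rw [smulQ_proj, smulQ_proj, inv_smul_smul]
      right_inv := fun w => by
        obtain ⟨v, rfl⟩ := C.proj_surjective w
        rw [smulQ_proj, smulQ_proj, smul_inv_smul] }
  map_one' := Equiv.ext fun w => by
    obtain ⟨v, rfl⟩ := C.proj_surjective w
    exact (C.smulQ_proj 1 v).trans (by rw [one_smul]; rfl)
  map_mul' g h := Equiv.ext fun w => by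
    obtain ⟨v, rfl⟩ := C.proj_surjective w
    show C.smulQ (g * h) (C.proj v) = C.smulQ g (C.smulQ h (C.proj v))
    rw [smulQ_proj, smulQ_proj, smulQ_proj, mul_smul]

lemma finite_range : Finite C.permQ.range := by
  have := C.finiteIndex
  have := C.normal
  have hle : C.Γ ≤ C.permQ.ker := fun γ hγ => Equiv.ext fun w => by
    obtain ⟨v, rfl⟩ := C.proj_surjective w
    exact (C.proj_eq).2 ⟨γ, hγ, rfl⟩
  refine Finite.of_surjective (fun q : U ⧸ C.Γ => (⟨QuotientGroup.lift C.Γ C.permQ hle q, ?_⟩ :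
    C.permQ.range)) ?_
  · obtain ⟨g, rfl⟩ := QuotientGroup.mk_surjective q
    exact ⟨g, rfl⟩
  · rintro ⟨_, g, rfl⟩
    exact ⟨g, rfl⟩

variable [DecidableEq C.Orb]

lemma image_smul (g : U) (σ : Finset V) :
    (σ.image (g • ·)).image C.proj = (σ.image C.proj).image (C.permQ g) := by
  rw [image_image, image_image]
  rfl

lemma finite_tops : {r : Finset C.Orb | ∃ t ∈ C.X, t.card = n ∧ t.image C.proj = r}.Finite := by
  have := C.finite_range
  obtain ⟨t₀, h₀, hc₀⟩ := C.base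
  refine (Set.finite_range fun p : C.permQ.range => (t₀.image C.proj).image p.1).subset ?_
  rintro _ ⟨t, ht, hc, rfl⟩
  obtain ⟨g, rfl⟩ := C.trans t₀ h₀ t ht hc₀ hc
  exact ⟨⟨C.permQ g, g, rfl⟩, (C.image_smul g t₀).symm⟩

/-- The top faces of the quotient. -/
noncomputable def tops : Finset (Finset C.Orb) := C.finite_tops.toFinset

lemma mem_tops {r : Finset C.Orb} :
    r ∈ C.tops ↔ ∃ t ∈ C.X, t.card = n ∧ t.image C.proj = r :=
  C.finite_tops.mem_toFinset

lemma uniform : Local.Uniform C.tops n := fun r hr => by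
  obtain ⟨t, ht, hc, rfl⟩ := C.mem_tops.1 hr
  rw [card_image_of_injOn (C.injOn ht), hc]

lemma colQ_injOn : ∀ r ∈ C.tops, Set.InjOn C.colQ (r : Set C.Orb) := fun r hr => by
  obtain ⟨t, ht, -, rfl⟩ := C.mem_tops.1 hr
  intro a ha b hb h
  rw [coe_image] at ha hb
  obtain ⟨v, hv, rfl⟩ := ha
  obtain ⟨w, hw, rfl⟩ := hb
  rw [C.col_inj t ht hv hw h]

lemma exists_lift {a : ℕ} {r : Finset C.Orb} (hr : r ∈ faces C.tops a) :
    ∃ σ ∈ C.X, σ.card = a ∧ σ.image C.proj = r := by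
  obtain ⟨r', hr', hsub, hc⟩ := Local.mem_faces.1 hr
  obtain ⟨t, ht, -, rfl⟩ := C.mem_tops.1 hr'
  have e : (t.filter fun v => C.proj v ∈ r).image C.proj = r := by
    ext x
    simp only [mem_image, mem_filter]
    refine ⟨?_, fun hx => ?_⟩
    · rintro ⟨v, ⟨-, hv⟩, rfl⟩; exact hv
    · obtain ⟨v, hv, rfl⟩ := mem_image.1 (hsub hx)
      exact ⟨v, ⟨hv, hx⟩, rfl⟩
  refine ⟨_, C.down t ht _ (filter_subset _ _), ?_, e⟩
  rw [← card_image_of_injOn ((C.injOn ht).mono (coe_subset.2 (filter_subset _ _))), e, hc]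

lemma inT_proj {σ : Finset V} (hσ : σ ∈ C.X) : InT C.tops (σ.image C.proj) := by
  obtain ⟨t, ht, hsub, hc⟩ := C.pure σ hσ
  exact ⟨_, C.mem_tops.2 ⟨t, ht, hc, rfl⟩, image_subset_image hsub⟩

lemma mem_faces_proj {σ : Finset V} (hσ : σ ∈ C.X) :
    σ.image C.proj ∈ faces C.tops σ.card := by
  obtain ⟨r, hr, hsub⟩ := C.inT_proj hσ
  exact Local.mem_faces.2 ⟨r, hr, hsub, card_image_of_injOn (C.injOn hσ)⟩

lemma tops_nonempty : C.tops.Nonempty := by
  obtain ⟨t, ht, hc⟩ := C.base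
  exact ⟨_, C.mem_tops.2 ⟨t, ht, hc, rfl⟩⟩

/-- A top face over a lift of a face lifts to a top face over that lift. -/
lemma lift_top {R : Finset V} (hR : R ∈ C.X) (hne : R.Nonempty) {t : Finset V} (ht : t ∈ C.X)
    (hc : t.card = n) (hsub : R.image C.proj ⊆ t.image C.proj) :
    ∃ t' ∈ C.X, t'.card = n ∧ R ⊆ t' ∧ t'.image C.proj = t.image C.proj := by
  obtain ⟨u, hu⟩ := hne
  obtain ⟨u', hu', hu''⟩ := mem_image.1 (hsub (mem_image_of_mem _ hu))
  obtain ⟨γ, hγ, rfl⟩ := C.proj_eq.1 hu''.symm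
  have himg : (t.image (γ • ·)).image C.proj = t.image C.proj := by
    rw [image_image]
    exact image_congr fun v _ => C.proj_eq.2 ⟨γ, hγ, rfl⟩
  refine ⟨_, C.inv γ t ht, by rw [card_image_of_injective _ (MulAction.injective γ), hc],
    fun v hv => ?_, himg⟩
  have hv' := hsub (mem_image_of_mem C.proj hv)
  rw [← himg] at hv'
  obtain ⟨w, hw, hwv⟩ := mem_image.1 hv'
  obtain ⟨δ, hδ, rfl⟩ := C.proj_eq.1 hwv.symm
  have h1 : ({γ • u', w} : Finset V) ∈ C.X := C.down _ (C.inv γ t ht) _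
    (by simp [insert_subset_iff, mem_image_of_mem _ hu', hw])
  have h2 : ({γ • u', δ • w} : Finset V) ∈ C.X := C.down _ hR _
    (by simp [insert_subset_iff, hu, hv])
  rwa [C.star δ hδ _ w h1 h2]

/-- The projection is injective on the link of a face. -/
lemma injOn_link {R : Finset V} (hne : R.Nonempty) :
    Set.InjOn C.proj {v | v ∉ R ∧ insert v R ∈ C.X} := by
  rintro v ⟨-, hv⟩ w ⟨-, hw⟩ h
  obtain ⟨u, hu⟩ := hne
  obtain ⟨γ, hγ, rfl⟩ := C.proj_eq.1 h
  refine C.star γ hγ u w (C.down _ hw _ ?_) (C.down _ hv _ ?_)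
  · simp [insert_subset_iff, hu]
  · simp [insert_subset_iff, hu]

/-- The top faces of a link. -/
lemma mem_link {R : Finset V} (hR : R ∈ C.X) (hne : R.Nonempty) {r : Finset C.Orb} :
    r ∈ Local.link C.tops (R.image C.proj) ↔
      ∃ τ, Disjoint R τ ∧ R ∪ τ ∈ C.X ∧ R.card + τ.card = n ∧ τ.image C.proj = r := by
  rw [Local.mem_link]
  constructor
  · rintro ⟨r', hr', hsub, rfl⟩
    obtain ⟨t, ht, hc, rfl⟩ := C.mem_tops.1 hr'
    obtain ⟨t', ht', hc', hRt, he⟩ := C.lift_top hR hne ht hc hsub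
    refine ⟨t' \ R, disjoint_sdiff, by rwa [union_sdiff_of_subset hRt], ?_, ?_⟩
    · rw [card_sdiff_of_subset hRt, hc']
      have := card_le_card hRt
      omega
    · rw [image_sdiff_of_injOn (C.injOn ht') hRt, he]
  · rintro ⟨τ, hd, hx, hc, rfl⟩
    refine ⟨_, C.mem_tops.2 ⟨_, hx, by rw [card_union_of_disjoint hd, hc], rfl⟩,
      image_subset_image subset_union_left, ?_⟩
    rw [← image_sdiff_of_injOn (C.injOn hx) subset_union_left, union_sdiff_cancel_left hd]

/-- The faces of a link. -/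
lemma inT_link {R : Finset V} (hR : R ∈ C.X) (hne : R.Nonempty) {r : Finset C.Orb} :
    InT (Local.link C.tops (R.image C.proj)) r ↔
      ∃ τ, Disjoint R τ ∧ R ∪ τ ∈ C.X ∧ τ.image C.proj = r := by
  constructor
  · rintro ⟨r', hr', hsub⟩
    obtain ⟨τ, hd, hx, -, rfl⟩ := (C.mem_link hR hne).1 hr'
    refine ⟨τ.filter fun v => C.proj v ∈ r, hd.mono_right (filter_subset _ _),
      C.down _ hx _ (union_subset_union_right (filter_subset _ _)), ?_⟩
    ext x
    simp only [mem_image, mem_filter]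
    refine ⟨?_, fun h => ?_⟩
    · rintro ⟨v, ⟨-, hv⟩, rfl⟩; exact hv
    · obtain ⟨v, hv, rfl⟩ := mem_image.1 (hsub h)
      exact ⟨v, ⟨hv, h⟩, rfl⟩
  · rintro ⟨τ, hd, hx, rfl⟩
    obtain ⟨t, ht, hsub, hc⟩ := C.pure _ hx
    have hRt := subset_union_left.trans hsub
    refine ⟨(t \ R).image C.proj, (C.mem_link hR hne).2 ⟨_, disjoint_sdiff,
      by rwa [union_sdiff_of_subset hRt], ?_, rfl⟩, image_subset_image fun v hv =>
        mem_sdiff.2 ⟨hsub (mem_union_right _ hv), disjoint_right.1 hd hv⟩⟩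
    rw [card_sdiff_of_subset hRt, hc]
    have := card_le_card hRt
    omega

/-- Fillings descend to the links of the quotient. -/
theorem fill_link {R : Finset V} (hR : R ∈ C.X) (hne : R.Nonempty) {m : ℕ} {Φ : ℕ → ℕ}
    (hΦ : Monotone Φ) (h : Fill (fun τ => Disjoint R τ ∧ R ∪ τ ∈ C.X) m Φ) :
    Fill (InT (Local.link C.tops (R.image C.proj))) m Φ := by
  refine fill_map (f := C.proj) (C.injOn_link hne) ?_
    (fun σ hσ => (C.inT_link hR hne).2 ⟨σ, hσ.1, hσ.2, rfl⟩) ?_ hΦ h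
  · intro σ hσ v hv
    exact ⟨disjoint_right.1 hσ.1 hv,
      C.down _ hσ.2 _ (insert_subset (mem_union_right _ hv) subset_union_left)⟩
  · intro r hr
    obtain ⟨τ, hd, hx, e⟩ := (C.inT_link hR hne).1 hr
    exact ⟨τ, ⟨hd, hx⟩, e⟩

/-- **Link expansion of the quotient.** -/
theorem linkExpansion_quot (d N : ℕ) (hN : d + 2 ≤ N) {Φ : ℕ → ℕ} (hΦ : Monotone Φ) :
    ∃ β : ℝ, 0 < β ∧ ∀ {V U : Type} [Group U] [MulAction U V] [DecidableEq V] (C : Cover V U N)
      [DecidableEq C.Orb],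
      (∀ R ∈ C.X, R.Nonempty → Fill (fun τ => Disjoint R τ ∧ R ∪ τ ∈ C.X) (N - R.card) Φ) →
      Local.LinkExpansion C.tops d β := by
  obtain ⟨β, hβ, h⟩ := linkExpansion_of_fill d N hN hΦ
  refine ⟨β, hβ, ?_⟩
  intro V U _ _ _ C _ hfill
  have := C.finite_range
  let := Fintype.ofFinite C.permQ.range
  refine h (G := C.permQ.range) C.tops C.colQ C.uniform C.colQ_injOn ?_ ?_ ?_ ?_
  · rintro ⟨_, g, rfl⟩ w
    obtain ⟨v, rfl⟩ := C.proj_surjective w
    exact C.col_inv g v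
  · rintro ⟨_, g, rfl⟩ r hr
    obtain ⟨t, ht, hc, rfl⟩ := C.mem_tops.1 hr
    exact C.mem_tops.2 ⟨_, C.inv g t ht,
      by rw [card_image_of_injective _ (MulAction.injective g), hc], C.image_smul g t⟩
  · intro r hr r' hr'
    obtain ⟨t, ht, hc, rfl⟩ := C.mem_tops.1 hr
    obtain ⟨t', ht', hc', rfl⟩ := C.mem_tops.1 hr'
    obtain ⟨g, rfl⟩ := C.trans t ht t' ht' hc hc'
    exact ⟨⟨_, g, rfl⟩, (C.image_smul g t).symm⟩
  · intro a k ha hak σ hσ
    obtain ⟨R, hR, hRc, rfl⟩ := C.exists_lift hσ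
    have hne : R.Nonempty := card_pos.1 (by omega)
    exact (C.fill_link hR hne hΦ (hfill R hR hne)).mono_range (by omega)

/-- Vertices of the quotient lie in boundedly many top faces. -/
lemma card_star_le {Q : ℕ} (hQ : ∀ v, {v} ∈ C.X → ∃ S : Finset (Finset V), S.card ≤ Q ∧
      ∀ t ∈ C.X, t.card = n → v ∈ t → t ∈ S) (w : C.Orb) :
    (Vale.P067.star C.tops {w}).card ≤ Q := by
  rcases (Vale.P067.star C.tops {w}).eq_empty_or_nonempty with h | ⟨r, hr⟩
  · simp [h]
  simp only [Vale.P067.star, mem_filter, singleton_subset_iff] at hr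
  obtain ⟨t, ht, -, rfl⟩ := C.mem_tops.1 hr.1
  obtain ⟨v, hv, rfl⟩ := mem_image.1 hr.2
  obtain ⟨S, hS, hS'⟩ := hQ v (C.down t ht _ (singleton_subset_iff.2 hv))
  refine (card_le_card fun r' hr' => ?_).trans ((card_image_le (f := image C.proj)).trans hS)
  simp only [Vale.P067.star, mem_filter, singleton_subset_iff] at hr'
  obtain ⟨t', ht', hc', rfl⟩ := C.mem_tops.1 hr'.1
  obtain ⟨t'', h1, h2, h3, h4⟩ := C.lift_top (C.down t ht _ (singleton_subset_iff.2 hv))
    (singleton_nonempty v) ht' hc' (by rw [image_singleton, singleton_subset_iff]; exact hr'.2)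
  exact mem_image.2 ⟨t'', hS' t'' h1 h2 (singleton_subset_iff.1 h3), h4⟩

/-- The quotient has at least `[U : Γ] / B` vertices. -/
lemma card_vertices {v₀ : V} (h₀ : {v₀} ∈ C.X) {B : ℕ} [Finite (MulAction.stabilizer U v₀)]
    (hB : Nat.card (MulAction.stabilizer U v₀) ≤ B) :
    Nat.card (U ⧸ C.Γ) ≤ B * (faces C.tops 1).card := by
  classical
  have := C.finiteIndex
  have := C.normal
  let := Fintype.ofFinite (U ⧸ C.Γ)
  let := Fintype.ofFinite (MulAction.stabilizer U v₀)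
  let f : U ⧸ C.Γ → Finset C.Orb := fun q => {C.proj (q.out • v₀)}
  have hf : univ.image f ⊆ faces C.tops 1 := fun r hr => by
    obtain ⟨q, -, rfl⟩ := mem_image.1 hr
    have := C.mem_faces_proj (C.inv q.out _ h₀)
    simpa [f, image_singleton] using this
  rw [Nat.card_eq_fintype_card, ← card_univ]
  refine (card_le_mul_card_image univ B fun r hr => ?_).trans (Nat.mul_le_mul_left B (card_le_card hf))
  obtain ⟨q₀, -, rfl⟩ := mem_image.1 hr
  refine (card_le_card (t := univ.image fun h : MulAction.stabilizer U v₀ =>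
    ((q₀.out * h.1 : U) : U ⧸ C.Γ)) fun q hq => ?_).trans (card_image_le.trans (by
      rwa [card_univ, ← Nat.card_eq_fintype_card]))
  obtain ⟨γ, hγ, he⟩ := C.proj_eq.1 (singleton_injective ((mem_filter.1 hq).2)).symm
  refine mem_image.2 ⟨⟨q₀.out⁻¹ * (γ * q.out), ?_⟩, mem_univ _, ?_⟩
  · rw [MulAction.mem_stabilizer_iff, mul_smul, mul_smul, he, inv_smul_smul]
  · show ((q₀.out * (q₀.out⁻¹ * (γ * q.out)) : U) : U ⧸ C.Γ) = q
    rw [mul_inv_cancel_left, QuotientGroup.mk_mul, (QuotientGroup.eq_one_iff γ).2 hγ, one_mul,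
      QuotientGroup.out_eq']

end Cover

/-- Vanishing in degree zero gives connectivity. -/
theorem connected_of_cobound {W : Type} [DecidableEq W] {T : Finset (Finset W)}
    (h : ∀ f : Finset W → ZMod 2, IsCocycle T 0 f → IsCobound T 0 f) : Local.Connected T := by
  classical
  intro f hf s hs t ht u hu w hw
  obtain ⟨χ, hχ⟩ : ∃ χ : W → ZMod 2, ∀ x, χ x = if f x = f u then 1 else 0 := ⟨_, fun _ => rfl⟩
  obtain ⟨g, hg⟩ := h (fun σ => ∑ x ∈ σ, χ x) fun τ hτ => by
    obtain ⟨r, hr, hsub, hc⟩ := Local.mem_faces.1 hτ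
    obtain ⟨a, b, hab, rfl⟩ := card_eq_two.1 hc
    have e : f a = f b := hf r hr a (hsub (by simp)) b (hsub (by simp))
    rw [delta, powersetCard_one, sum_map]
    simp only [Function.Embedding.coeFn_mk, sum_singleton, sum_pair hab, hχ, e,
      CharTwo.add_self_eq_zero]
  have h1 := hg {u} (Local.mem_faces.2 ⟨s, hs, singleton_subset_iff.2 hu, card_singleton u⟩)
  have h2 := hg {w} (Local.mem_faces.2 ⟨t, ht, singleton_subset_iff.2 hw, card_singleton w⟩)
  simp [delta] at h1 h2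
  rw [← h1, hχ, hχ, if_pos rfl] at h2
  by_contra hne
  rw [if_neg (fun e => hne e.symm)] at h2
  exact zero_ne_one h2

end Vale.P067.Link
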