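import Vale.Agent.P067.Link.Codim2
import Vale.Agent.P067.Link.Quot
import Vale.Agent.P067.Local.Global

/-!
# Coboundary expanders from the covers by the opposition complex

For a large field every finite quotient of `X~` with vanishing cohomology in degrees below `d`
gives a `d`-dimensional coboundary expander, with constants independent of the quotient.
-/

namespace Vale.P067.Link

open Finset
open Vale.Agent.P067.Top Vale.Agent.P067.Top.Lat

/-- A smaller error is a stronger mixing bound. -/
lemma mix_mono {V : Type} [DecidableEq V] {T : Finset (Finset V)} {C l l' : ℝ}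
    (h : Local.Mix T C l) (hl : l ≤ l') : Local.Mix T C l' := fun g h' hg hh =>
  (h g h' hg hh).trans (by gcongr)

/-- Two vertices joined by edges. -/
def Joined {V : Type} (T : Finset (Finset V)) : V → V → Prop :=
  Relation.ReflTransGen fun a b => ∃ t ∈ T, a ∈ t ∧ b ∈ t

/-- Connectivity as a relation. -/
lemma joined_of_connected {V : Type} [DecidableEq V] {T : Finset (Finset V)}
    (h : Local.Connected T) : ∀ s ∈ T, ∀ t ∈ T, ∀ u ∈ s, ∀ w ∈ t, Joined T u w := by
  classical
  intro s hs t ht u hu w hw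
  have := h (fun x => if Joined T u x then (1 : ℝ) else 0) (fun r hr a ha b hb => by
    have e : Joined T u a ↔ Joined T u b := ⟨fun h => h.tail ⟨r, hr, ha, hb⟩,
      fun h => h.tail ⟨r, hr, hb, ha⟩⟩
    simp [e]) s hs t ht u hu w hw
  by_contra hne
  simp [hne, show Joined T u u from Relation.ReflTransGen.refl] at this

/-- **The expanders from the covers.** -/
theorem expanders_of_covers (d n : ℕ) [NeZero n] (hd : 1 ≤ d) (hn : d + 2 ≤ n) :
    ∃ q₀ : ℕ, ∀ (F : Type) [Field F] [Fintype F] [DecidableEq F], q₀ ≤ Fintype.card F →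
      ∃ D : ℕ, ∃ ε : ℝ, 0 < ε ∧ ∀ (U : Type) [Group U] [MulAction U (posModel F n).Vert]
        [DecidableEq (posModel F n).Vert] (C : Cover (posModel F n).Vert U n) [DecidableEq C.Orb],
        C.X = (posModel F n).good →
        (∀ i < d, ∀ f : Finset C.Orb → ZMod 2, IsCocycle C.tops i f → IsCobound C.tops i f) →
        (Local.skeleton C.tops d).Nonempty ∧
        (∀ t ∈ Local.skeleton C.tops d, t.card = d + 1) ∧
        faces (Local.skeleton C.tops d) 1 = faces C.tops 1 ∧
        (∀ v, (Vale.P067.star (Local.skeleton C.tops d) {v}).card ≤ D) ∧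
        (∀ s ∈ Local.skeleton C.tops d, ∀ t ∈ Local.skeleton C.tops d, ∀ u ∈ s, ∀ w ∈ t,
          Joined (Local.skeleton C.tops d) u w) ∧
        IsCoboundaryExpander (Local.skeleton C.tops d) d ε := by
  obtain ⟨Φ, hΦ, hlink⟩ := fill_link_good n
  obtain ⟨β, hβ, hexp⟩ := Cover.linkExpansion_quot d n hn hΦ
  obtain ⟨l0, hl0, hloc⟩ := Local.cosystolic_of_local d n hn 2 β hβ
  set δ : ℝ := min (1 / (2 * (n : ℝ))) (l0 ^ 2 / 72) with hδ
  have hnpos : (0 : ℝ) < n := by exact_mod_cast NeZero.pos n
  have hδpos : 0 < δ := lt_min (by positivity) (by positivity)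
  refine ⟨max (2 ^ n) ⌈1 / δ ^ 2⌉₊, fun F _ _ _ hq => ?_⟩
  set q := Fintype.card F with hqdef
  set l : ℝ := 1 / Real.sqrt q with hl
  have hlpos : 0 < l := by
    have : (0 : ℝ) < q := by rw [hqdef]; exact_mod_cast Fintype.card_pos
    rw [hl]; positivity
  have hlδ : l ≤ δ := by
    have h1 : 1 / δ ^ 2 ≤ (q : ℝ) :=
      (Nat.le_ceil _).trans (by exact_mod_cast (le_max_right _ _).trans hq)
    have h2 : 1 / δ ≤ Real.sqrt q := Real.le_sqrt_of_sq_le (by rwa [div_pow, one_pow])
    rw [hl, div_le_iff₀ (lt_of_lt_of_le (by positivity) h2)]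
    rwa [div_le_iff₀ hδpos, mul_comm] at h2
  have hlN : (n : ℝ) * l ≤ 1 / 2 := by
    have h := mul_le_mul_of_nonneg_left (hlδ.trans (min_le_left _ _)) hnpos.le
    refine h.trans (le_of_eq ?_)
    field_simp
  have hlhalf : l ≤ 1 / 2 := by
    refine le_trans ?_ hlN
    exact le_mul_of_one_le_left hlpos.le (by exact_mod_cast NeZero.pos n)
  have hll0 : 6 * Real.sqrt (2 * l) ≤ l0 := by
    have h1 : 2 * l ≤ (l0 / 6) ^ 2 := by
      have := hlδ.trans (min_le_right _ _)
      rw [div_pow]; linarith
    have h2 := Real.sqrt_le_sqrt h1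
    rw [Real.sqrt_sq (by positivity)] at h2
    linarith
  set Q : ℕ := 2 ^ (2 ^ q ^ n + 1) with hQdef
  obtain ⟨ε, hε, hcosys⟩ := hloc Q
  refine ⟨Q * 2 ^ n, ε, hε, ?_⟩
  intro U _ _ _ C _ hX hvan
  classical
  have hqn : 2 ^ n ≤ q := (le_max_left _ _).trans hq
  have hfill : ∀ R ∈ C.X, R.Nonempty →
      Fill (fun τ => Disjoint R τ ∧ R ∪ τ ∈ C.X) (n - R.card) Φ := by
    intro R hR hne
    rw [hX] at hR ⊢
    exact hlink F hqn R hR hne
  have hT := C.uniform
  have hQ : ∀ w, (Vale.P067.star C.tops {w}).card ≤ Q := C.card_star_le fun v hv => by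
    rw [hX] at hv
    have := finite_gapVert hv.1 (mem_singleton_self v)
    let := Fintype.ofFinite {w // w ∈ (posModel F n).gapVert {v} v}
    set N : Finset (posModel F n).Vert := insert v (univ.image
      fun w : {w // w ∈ (posModel F n).gapVert {v} v} => w.1)
    refine ⟨N.powerset, ?_, fun t ht _ hvt => mem_powerset.2 fun w hw => ?_⟩
    · rw [card_powerset, hQdef]
      refine Nat.pow_le_pow_right (by norm_num) ((card_insert_le _ _).trans (Nat.succ_le_succ ?_))
      refine card_image_le.trans ?_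
      rw [card_univ, ← Nat.card_eq_fintype_card]
      exact card_gapVert_le hv.1 (mem_singleton_self v)
    · rcases eq_or_ne w v with rfl | hne
      · exact mem_insert_self _ _
      rw [hX] at ht
      have h2 : Disjoint {v} ({w} : Finset (posModel F n).Vert) ∧
          {v} ∪ {w} ∈ (posModel F n).good := ⟨disjoint_singleton.2 hne.symm,
        (posModel F n).down_good _ ht _ (union_subset (singleton_subset_iff.2 hvt)
          (singleton_subset_iff.2 hw))⟩
      obtain ⟨r, hr, hg⟩ := ((link_iff hv (singleton_nonempty v) {w}).1 h2).1 w (mem_singleton_self w)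
      rw [mem_singleton] at hr
      subst hr
      exact mem_insert_of_mem (mem_image.2 ⟨⟨w, hg⟩, mem_univ _, rfl⟩)
  have hlink0 : Local.link C.tops ∅ = C.tops := by
    ext r
    rw [Local.mem_link]
    exact ⟨by rintro ⟨t, ht, -, rfl⟩; simpa using ht, fun h => ⟨r, h, empty_subset _, sdiff_empty⟩⟩
  have hcon0 : Local.Connected C.tops := connected_of_cobound (hvan 0 (by omega))
  have hcon : ∀ a, a + 3 ≤ n → ∀ σ ∈ faces C.tops a, Local.Connected (Local.link C.tops σ) := by
    intro a ha σ hσ
    obtain ⟨R, hR, hc, rfl⟩ := C.exists_lift hσ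
    rcases R.eq_empty_or_nonempty with rfl | hne
    · rw [image_empty, hlink0]; exact hcon0
    · exact connected_of_fill ((C.fill_link hR hne hΦ (hfill R hR hne)).mono_range (by omega))
  have htop : ∀ a, a + 2 = n → ∀ σ ∈ faces C.tops a, Local.OneSided (Local.link C.tops σ) l := by
    intro a ha σ hσ
    obtain ⟨R, hR, hc, rfl⟩ := C.exists_lift hσ
    have hne : R.Nonempty := card_pos.1 (by omega)
    have hR' : R ∈ (posModel F n).good := hX ▸ hR
    refine oneSided_link_good hR' hne (by omega) C.proj (hX ▸ C.injOn_link hne) _ fun t => ?_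
    rw [C.mem_link hR hne, hX]
    exact exists_congr fun τ => and_congr_right fun _ => and_congr_right fun _ =>
      and_congr_left fun _ => by omega
  have hmix := Local.mix_all hT hlpos.le hlhalf hlN hcon htop
  have hsys := hcosys C.Orb C.tops C.tops_nonempty hT hQ (hexp C hfill)
    (fun a ha σ hσ => mix_mono (hmix a (by omega) σ hσ) hll0)
  have hfaces : ∀ k ≤ d + 1, faces (Local.skeleton C.tops d) k = faces C.tops k := fun k hk =>
    Local.faces_skeleton hT hk (by omega)
  have hvan' : ∀ i < d, ∀ f : Finset C.Orb → ZMod 2, IsCocycle (Local.skeleton C.tops d) i f →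
      IsCobound (Local.skeleton C.tops d) i f := by
    intro i hi f hf
    simp only [IsCocycle, IsCobound, hfaces (i + 2) (by omega), hfaces (i + 1) (by omega)] at hf ⊢
    exact hvan i hi f hf
  refine ⟨?_, fun t ht => (Local.skeleton_uniform _ _) t ht, hfaces 1 (by omega), fun v => ?_, ?_,
    Local.coboundaryExpander_of_cosystolic hsys hvan'⟩
  · obtain ⟨t, ht⟩ := C.tops_nonempty
    obtain ⟨u, hu, huc⟩ := exists_subset_card_eq (show d + 1 ≤ t.card by rw [hT t ht]; omega)
    exact ⟨u, Local.mem_faces.2 ⟨t, ht, hu, huc⟩⟩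
  · refine (card_le_card (t := (Vale.P067.star C.tops {v}).biUnion fun t => t.powerset) ?_).trans
      ((card_biUnion_le_card_mul _ _ _ fun t ht => ?_).trans (Nat.mul_le_mul_right _ (hQ v)))
    · intro u hu
      simp only [Vale.P067.star, mem_filter, singleton_subset_iff] at hu
      obtain ⟨t, ht, hut, -⟩ := Local.mem_faces.1 hu.1
      exact mem_biUnion.2 ⟨t, mem_filter.2 ⟨ht, singleton_subset_iff.2 (hut hu.2)⟩,
        mem_powerset.2 hut⟩
    · rw [card_powerset, hT t (mem_filter.1 ht).1]
  · exact joined_of_connected (connected_of_cobound (hvan' 0 (by omega)))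

end Vale.P067.Link
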