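import Vale.Agent.P067.Link.Opp
import Vale.Agent.P067.Link.Transport
import Vale.Agent.P067.Top.BuildingAcyclic

/-!
# The gaps of the building are opposition complexes

For lattices `c < c' ≤ t c` the fillers of the gap are the subspaces of `c'/c` opposite to the flag
cut out by the lowest positions, so their complex has bounded fillings.
-/

namespace Vale.P067.Link

open Finset Module
open Vale.Agent.P067.Top Vale.Agent.P067.Top.Lat

variable {F : Type} [Field F]

section General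

variable {V : Type} [AddCommGroup V] [Module F V]

/-- The space `c'/c`. -/
abbrev Gap (c c' : Submodule F V) : Type := ↥c' ⧸ c.comap c'.subtype

/-- The image in `c'/c`. -/
noncomputable def toGap (c c' Y : Submodule F V) : Submodule F (Gap c c') :=
  (Y.comap c'.subtype).map (c.comap c'.subtype).mkQ

/-- The space between `c` and `c'` with given image. -/
noncomputable def ofGap (c c' : Submodule F V) (U : Submodule F (Gap c c')) :
    Submodule F V :=
  (U.comap (c.comap c'.subtype).mkQ).map c'.subtype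

lemma mem_toGap {c c' Y : Submodule F V} (h : c ≤ Y) (x : ↥c') :
    (c.comap c'.subtype).mkQ x ∈ toGap c c' Y ↔ (x : V) ∈ Y := by
  constructor
  · rintro ⟨y, hy, e⟩
    have := (Submodule.Quotient.eq _).1 e
    have h2 : (y : V) - x ∈ Y := h this
    simpa using Y.sub_mem (show (y : V) ∈ Y from hy) h2
  · exact fun hx => Submodule.mem_map_of_mem (show x ∈ Y.comap c'.subtype from hx)

lemma toGap_mono (c c' : Submodule F V) {Y Z : Submodule F V} (h : Y ≤ Z) :
    toGap c c' Y ≤ toGap c c' Z :=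
  Submodule.map_mono (Submodule.comap_mono h)

lemma le_of_toGap_le {c c' Y Z : Submodule F V} (hY : c ≤ Y) (hY' : Y ≤ c') (hZ : c ≤ Z)
    (h : toGap c c' Y ≤ toGap c c' Z) : Y ≤ Z := fun v hv =>
  (mem_toGap hZ ⟨v, hY' hv⟩).1 (h ((mem_toGap hY ⟨v, hY' hv⟩).2 hv))

lemma toGap_bot (c c' : Submodule F V) : toGap c c' c = ⊥ := by
  rw [toGap, Submodule.mkQ_map_self]

lemma toGap_top (c c' : Submodule F V) : toGap c c' c' = ⊤ := by
  rw [toGap, show c'.comap c'.subtype = ⊤ from Submodule.comap_subtype_self _, Submodule.map_top,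
    Submodule.range_mkQ]

lemma le_ofGap {c c' : Submodule F V} (h : c ≤ c') (U : Submodule F (Gap c c')) :
    c ≤ ofGap c c' U := fun v hv =>
  ⟨⟨v, h hv⟩, by
    show (c.comap c'.subtype).mkQ ⟨v, h hv⟩ ∈ U
    rw [Submodule.mkQ_apply, (Submodule.Quotient.mk_eq_zero _).2 (show (⟨v, h hv⟩ : ↥c') ∈
      c.comap c'.subtype from hv)]
    exact U.zero_mem, rfl⟩

lemma ofGap_le (c c' : Submodule F V) (U : Submodule F (Gap c c')) : ofGap c c' U ≤ c' := by
  rintro _ ⟨x, -, rfl⟩
  exact x.2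

lemma toGap_ofGap {c c' : Submodule F V} (h : c ≤ c') (U : Submodule F (Gap c c')) :
    toGap c c' (ofGap c c' U) = U := by
  refine Submodule.ext fun q => ?_
  obtain ⟨x, rfl⟩ := Submodule.mkQ_surjective _ q
  rw [mem_toGap (le_ofGap h U)]
  constructor
  · rintro ⟨y, hy, e⟩
    exact (Subtype.ext e : y = x) ▸ hy
  · exact fun hx => ⟨x, hx, rfl⟩

/-- The dimension of the image, computed in a window `W`. -/
lemma finrank_toGap_window {c c' Y W : Submodule F V} (h1 : c ≤ Y) (h2 : Y ≤ c')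
    (hW : ∀ v ∈ Y, ∃ u ∈ c, v - u ∈ W) [FiniteDimensional F (Y ⊓ W : Submodule F V)] :
    finrank F (toGap c c' Y) + finrank F (c ⊓ W : Submodule F V)
      = finrank F (Y ⊓ W : Submodule F V) ∧ FiniteDimensional F (toGap c c' Y) := by
  let φ : (Y ⊓ W : Submodule F V) →ₗ[F] Gap c c' :=
    (c.comap c'.subtype).mkQ.comp (Submodule.inclusion (inf_le_left.trans h2))
  have hrange : LinearMap.range φ = toGap c c' Y := by
    refine le_antisymm ?_ ?_
    · rintro _ ⟨v, rfl⟩
      exact (mem_toGap h1 _).2 v.2.1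
    · rintro _ ⟨x, hx, rfl⟩
      obtain ⟨u, hu, hxu⟩ := hW (x : V) hx
      refine ⟨⟨_, ⟨Y.sub_mem hx (h1 hu), hxu⟩⟩, (Submodule.Quotient.eq _).2 ?_⟩
      show (x : V) - u - (x : V) ∈ c
      simpa using c.neg_mem hu
  have hker : finrank F (LinearMap.ker φ) = finrank F (c ⊓ W : Submodule F V) := by
    have hle : (c ⊓ W : Submodule F V) ≤ Y ⊓ W := inf_le_inf_right _ h1
    have e : LinearMap.ker φ = (c ⊓ W : Submodule F V).comap
        (Y ⊓ W : Submodule F V).subtype := by
      ext v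
      simp only [LinearMap.mem_ker, φ, LinearMap.comp_apply, Submodule.mkQ_apply,
        Submodule.Quotient.mk_eq_zero, Submodule.mem_comap]
      exact ⟨fun h => ⟨h, v.2.2⟩, fun h => h.1⟩
    rw [e]
    exact (Submodule.comapSubtypeEquivOfLe hle).finrank_eq
  have hr := LinearMap.finrank_range_add_finrank_ker φ
  rw [hker, hrange] at hr
  refine ⟨hr, ?_⟩
  rw [← hrange]
  infer_instance

end General

/-- The dimension of the image is the increase of the index. -/
lemma finrank_toGap {c c' Y : Submodule F (K F)} {a b : ℤ} (hc : Bdd c a b) (hc' : Bdd c' a b)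
    (h1 : c ≤ Y) (h2 : Y ≤ c') :
    (finrank F (toGap c c' Y) : ℤ) = ind Y - ind c ∧ FiniteDimensional F (toGap c c' Y) := by
  have hY : Bdd Y a b := ⟨hc.1.trans h1, h2.trans hc'.2⟩
  obtain ⟨rY, fY⟩ := finrank_inf_M hY.2 a
  obtain ⟨rc, -⟩ := finrank_inf_M hc.2 a
  have hW : ∀ v ∈ Y, ∃ u ∈ c, v - u ∈ M F a := fun v _ =>
    ⟨v.filter (fun z => z < a),
      hc.1 (mem_N.2 fun z hz => Finsupp.filter_apply_neg _ _ (by omega)),
      mem_M.2 fun z hz => by simp [Finsupp.filter_apply_pos (fun z => z < a) v hz]⟩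
  have := fY
  obtain ⟨hr, hf⟩ := finrank_toGap_window (W := M F a) h1 h2 hW
  refine ⟨?_, hf⟩
  rw [rc, rY] at hr
  rw [ind_eq hY, ind_eq hc]
  omega

/-- **The dictionary of a gap**: its fillers are the subspaces opposite to one flag. -/
theorem exists_gapFlag {n : ℕ} [NeZero n] (c c' : Lat F n) (hlt : c < c') (hT : c' ≤ shLat 1 c) :
    ∃ (g : ℕ) (G : ℕ → Submodule F (Gap c.1 c'.1)),
      (g : ℤ) = ind c'.1 - ind c.1 ∧ g ≤ n ∧ finrank F (Gap c.1 c'.1) = g ∧
      FiniteDimensional F (Gap c.1 c'.1) ∧ IsFlag (⊥ : Submodule F (Gap c.1 c'.1)) ⊤ g G ∧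
      ∀ e : Lat F n, c.1 ≤ e.1 → e.1 ≤ c'.1 →
        ((posModel F n).Fills c c' e ↔
          Opp (⊥ : Submodule F (Gap c.1 c'.1)) ⊤ (fun _ : Unit => G) (toGap c.1 c'.1 e.1)) := by
  classical
  obtain ⟨a, b, hc, hc'⟩ := c.2.common c'.2
  have hcc : c.1 ≤ c'.1 := hlt.le
  have hab := hc.le
  set S : Set ℤ := minSet c'.1 \ minSet c.1 with hS
  set g : ℕ := cnt S a b with hg
  have hind : ind c'.1 = ind c.1 + g := ind_add_cnt hc hc' hcc
  have hgn : g ≤ n := by
    have h := ind_mono c'.2 (shLat 1 c).2 (show c'.1 ≤ (shLat 1 c).1 from hT)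
    have e : ind (shLat 1 c).1 = ind c.1 + (1 : ℤ) * n := ind_shL c.2 _
    omega
  obtain ⟨hrk, hfin⟩ := finrank_toGap hc hc' hcc le_rfl
  rw [toGap_top, finrank_top] at hrk
  have : FiniteDimensional F (Gap c.1 c'.1) := by
    rw [toGap_top] at hfin
    exact Module.Finite.equiv Submodule.topEquiv
  have hgq : finrank F (Gap c.1 c'.1) = g := by omega
  -- the thresholds of the flag
  have hex : ∀ k, k ≤ g → ∃ m : ℕ, k ≤ cnt S (b - m) b := fun k hk =>
    ⟨(b - a).toNat, by rwa [show b - ((b - a).toNat : ℤ) = a by omega, ← hg]⟩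
  let z : ℕ → ℤ := fun k => if h : k ≤ g then b - (Nat.find (hex k h) : ℕ) else a
  have hz : ∀ k, k ≤ g → a ≤ z k ∧ z k ≤ b ∧ cnt S (z k) b = k := by
    intro k hk
    simp only [z, dif_pos hk]
    have h1 := Nat.find_spec (hex k hk)
    have hle : Nat.find (hex k hk) ≤ (b - a).toNat := Nat.find_le
      (by rwa [show b - ((b - a).toNat : ℤ) = a by omega, ← hg])
    refine ⟨by omega, by omega, le_antisymm ?_ h1⟩
    rcases Nat.eq_zero_or_pos (Nat.find (hex k hk)) with h0 | h0
    · rw [h0, Nat.cast_zero, sub_zero, cnt_empty fun x hx hx' => absurd hx' (by omega)]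
      exact Nat.zero_le _
    · have h2 : cnt S (b - ((Nat.find (hex k hk) - 1 : ℕ) : ℤ)) b < k :=
        not_le.1 (Nat.find_min (hex k hk) (by omega))
      rw [cnt_add S (show b - (Nat.find (hex k hk) : ℤ) ≤ b - ((Nat.find (hex k hk) - 1 : ℕ) : ℤ) by omega)
        (by omega : b - ((Nat.find (hex k hk) - 1 : ℕ) : ℤ) ≤ b)]
      have h3 : cnt S (b - (Nat.find (hex k hk) : ℤ)) (b - ((Nat.find (hex k hk) - 1 : ℕ) : ℤ)) ≤ 1 := by
        refine (card_le_card fun x hx => (by simp only [cnt, mem_filter] at hx; exact hx.1)).trans ?_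
        rw [Int.card_Ico]; omega
      omega
  have hzanti : ∀ k l, k ≤ l → l ≤ g → z l ≤ z k := fun k l hkl hl => by
    simp only [z, dif_pos hl, dif_pos (hkl.trans hl)]
    have : Nat.find (hex k (hkl.trans hl)) ≤ Nat.find (hex l hl) :=
      Nat.find_le (hkl.trans (Nat.find_spec (hex l hl)))
    omega
  set G : ℕ → Submodule F (Gap c.1 c'.1) := fun k => toGap c.1 c'.1 (highPart c.1 c'.1 (z k)) with hG
  have hhp : ∀ x : ℤ, c.1 ≤ highPart c.1 c'.1 x ∧ highPart c.1 c'.1 x ≤ c'.1 := fun x =>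
    ⟨le_sup_left, sup_le hcc inf_le_left⟩
  have hGrk : ∀ k, k ≤ g → finrank F (G k) = k := by
    intro k hk
    obtain ⟨h1, h2, h3⟩ := hz k hk
    have hr := (finrank_toGap hc hc' (hhp (z k)).1 (hhp (z k)).2).1
    rw [ind_add_cnt hc ⟨hc.1.trans (hhp (z k)).1, (hhp (z k)).2.trans hc'.2⟩ (hhp (z k)).1] at hr
    have e : cnt (minSet (highPart c.1 c'.1 (z k)) \ minSet c.1) a b = k := by
      rw [cnt_add _ h1 h2, cnt_empty, zero_add]
      · refine Eq.trans ?_ h3
        refine congrArg card ?_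
        ext x
        simp only [mem_filter, mem_Ico, Set.mem_sdiff, minSet_highPart hcc, hS]
        tauto
      · intro x _ hx
        simp only [Set.mem_sdiff, minSet_highPart hcc]
        rintro ⟨h | h, hn⟩
        · exact hn h
        · exact absurd hx (by omega)
    show finrank F (toGap c.1 c'.1 (highPart c.1 c'.1 (z k))) = k
    omega
  have hflag : IsFlag (⊥ : Submodule F (Gap c.1 c'.1)) ⊤ g G := by
    refine ⟨fun k hk => ⟨bot_le, le_top, by rw [finrank_bot, hGrk k hk, zero_add]⟩,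
      fun k l hkl hl => toGap_mono _ _ ?_⟩
    exact sup_le_sup_left (inf_le_inf_left _ (M_anti (hzanti k l hkl hl))) _
  -- fillers = opposite subspaces
  have hiff : ∀ e : Lat F n, c.1 ≤ e.1 → e.1 ≤ c'.1 →
      ((posModel F n).Fills c c' e ↔
        Opp (⊥ : Submodule F (Gap c.1 c'.1)) ⊤ (fun _ : Unit => G) (toGap c.1 c'.1 e.1)) := by
    intro e h1 h2
    obtain ⟨hr, -⟩ := finrank_toGap hc hc' h1 h2
    have hstrict : ((posModel F n).Fills c c' e → c < e ∧ e < c') := fun h => ⟨h.1, h.2.1⟩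
    set d := finrank F (toGap c.1 c'.1 e.1) with hd
    have hdg : d ≤ g := hgq ▸ Submodule.finrank_le _
    obtain ⟨z1, z2, z3⟩ := hz (g - d) (by omega)
    have hsplit := cnt_add S z1 z2
    have hcond : ∀ (hce : c < e) (hec : e < c'), (posModel F n).Fills c c' e ↔
        toGap c.1 c'.1 e.1 ⊔ G (g - d) = ⊤ := by
      intro hce hec
      rw [fills_iff hce hec hc hc' z1 z2 (by rw [← hS]; omega)]
      have hdim := Submodule.finrank_sup_add_finrank_inf_eq (toGap c.1 c'.1 e.1) (G (g - d))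
      rw [hGrk (g - d) (by omega), ← hd] at hdim
      constructor
      · intro h
        have hbot : toGap c.1 c'.1 e.1 ⊓ G (g - d) = ⊥ := by
          rw [eq_bot_iff]
          intro q hq
          obtain ⟨x, rfl⟩ := Submodule.mkQ_surjective _ q
          rw [Submodule.mkQ_apply, Submodule.mem_bot, Submodule.Quotient.mk_eq_zero]
          exact h ⟨(mem_toGap h1 x).1 hq.1, (mem_toGap (hhp _).1 x).1 hq.2⟩
        rw [hbot, finrank_bot] at hdim
        exact Submodule.eq_top_of_finrank_eq (by omega)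
      · intro h v hv
        rw [h, finrank_top] at hdim
        have hbot : toGap c.1 c'.1 e.1 ⊓ G (g - d) = ⊥ :=
          Submodule.finrank_eq_zero.1 (by omega)
        have hmem : (c.1.comap c'.1.subtype).mkQ ⟨v, h2 hv.1⟩ ∈
            toGap c.1 c'.1 e.1 ⊓ G (g - d) :=
          ⟨(mem_toGap h1 _).2 hv.1, (mem_toGap (hhp _).1 _).2 hv.2⟩
        rw [hbot, Submodule.mem_bot, Submodule.mkQ_apply, Submodule.Quotient.mk_eq_zero] at hmem
        exact hmem
    constructor
    · intro h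
      obtain ⟨hce, hec⟩ := hstrict h
      refine ⟨lt_of_le_of_ne bot_le fun e0 => ?_, lt_of_le_of_ne le_top fun e0 => ?_, fun _ => ?_⟩
      · exact not_le_of_gt hce (le_of_toGap_le h1 h2 le_rfl (by rw [← e0]; exact bot_le))
      · exact not_le_of_gt hec (le_of_toGap_le hcc le_rfl h1 (by rw [e0]; exact le_top))
      · rw [finrank_top, hgq]
        exact (hcond hce hec).1 h
    · rintro ⟨hb0, ht0, hop⟩
      have hce : c < e := lt_of_le_of_ne h1 fun e0 => by
        rw [← e0, toGap_bot] at hb0; exact lt_irrefl _ hb0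
      have hec : e < c' := lt_of_le_of_ne h2 fun e0 => by
        rw [e0, toGap_top] at ht0; exact lt_irrefl _ ht0
      have := hop ()
      rw [finrank_top, hgq] at this
      exact (hcond hce hec).2 this
  exact ⟨g, G, by omega, hgn, hgq, inferInstance, hflag, hiff⟩

/-- **The gaps have bounded fillings.** -/
theorem fill_gap (n : ℕ) [NeZero n] : ∃ Φ : ℕ → ℕ, Monotone Φ ∧
    ∀ (F : Type) [Field F] [Fintype F] [DecidableEq (posModel F n).Lam], 2 ^ n ≤ Fintype.card F →
      ∀ c c' : Lat F n, c < c' → c' ≤ shLat 1 c →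
        Fill (fun τ => τ ∈ (posModel F n).gap c c') ((ind c'.1 - ind c.1).toNat - 1) Φ := by
  choose Φ hΦ hfill using opp_fill
  refine ⟨fun x => ∑ g ∈ range (n + 1), Φ g x, fun x y h => sum_le_sum fun g _ => hΦ g h, ?_⟩
  intro F _ _ _ hq c c' hlt hT
  classical
  have hcc : c.1 ≤ c'.1 := hlt.le
  obtain ⟨g, G, hind, hgn, hgq, hfin, hflag, hiff⟩ := exists_gapFlag c c' hlt hT
  have : Nonempty (posModel F n).Lam := ⟨c⟩
  have hF := hfill g F (Gap c.1 c'.1) ⊥ ⊤ bot_le (by rw [finrank_bot, finrank_top, hgq, zero_add])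
    Unit (fun _ => G) (fun _ => hflag)
    (by rw [Fintype.card_unit, one_mul]; exact (Nat.pow_le_pow_right (by norm_num) hgn).trans hq)
  have hres := fill_comap (V := (posModel F n).Lam) (f := fun e : Lat F n => toGap c.1 c'.1 e.1)
    (U := {e : Lat F n | c.1 ≤ e.1 ∧ e.1 ≤ c'.1})
    (K := fun τ => τ ∈ (posModel F n).gap c c')
    (L := OppFace (⊥ : Submodule F (Gap c.1 c'.1)) ⊤ (fun _ : Unit => G))
    ?_ ?_ ?_ ?_ (hΦ g) hF
  · rw [show (ind c'.1 - ind c.1).toNat = g by omega]
    refine hres.mono fun x => ?_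
    exact single_le_sum (f := fun g => Φ g x) (fun _ _ => Nat.zero_le _) (mem_range.2 (by omega))
  · intro e he e' he' h
    exact Subtype.ext (le_antisymm (le_of_toGap_le he.1 he.2 he'.1 h.le)
      (le_of_toGap_le he'.1 he'.2 he.1 h.ge))
  · exact fun τ hτ e he => ⟨(hτ.2 e he).1.le, (hτ.2 e he).2.1.le⟩
  · intro τ hτ
    refine ⟨?_, ?_⟩
    · intro U hU
      obtain ⟨e, he, rfl⟩ := mem_image.1 hU
      exact (hiff e (hτ.2 e he).1.le (hτ.2 e he).2.1.le).1 (hτ.2 e he)
    · intro U hU U' hU'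
      obtain ⟨e, he, rfl⟩ := mem_image.1 hU
      obtain ⟨e', he', rfl⟩ := mem_image.1 hU'
      rcases eq_or_ne e e' with rfl | hne
      · exact Or.inl le_rfl
      · exact (hτ.1 he he' hne).imp (toGap_mono _ _) (toGap_mono _ _)
  · intro τ hτ
    have hlat : ∀ U, IsLat n (ofGap c.1 c'.1 U) := fun U =>
      isLat_between c.2 c'.2 (by
        have h : c'.1 ≤ shL ((1 : ℤ) * n) c.1 := hT
        rwa [one_mul] at h) (le_ofGap hcc U) (ofGap_le _ _ U)
    let back : Submodule F (Gap c.1 c'.1) → Lat F n := fun U => ⟨ofGap c.1 c'.1 U, hlat U⟩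
    have hback : ∀ U, toGap c.1 c'.1 (back U).1 = U := fun U => toGap_ofGap hcc U
    refine ⟨τ.image back, ⟨?_, ?_⟩, ?_⟩
    · intro x hx y hy hne
      obtain ⟨U, hU, rfl⟩ := mem_image.1 hx
      obtain ⟨U', hU', rfl⟩ := mem_image.1 hy
      exact (hτ.2 U hU U' hU').imp
        (fun h => le_of_toGap_le (le_ofGap hcc U) (ofGap_le _ _ U) (le_ofGap hcc U')
          (by rwa [hback, hback]))
        (fun h => le_of_toGap_le (le_ofGap hcc U') (ofGap_le _ _ U') (le_ofGap hcc U)
          (by rwa [hback, hback]))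
    · intro e he
      obtain ⟨U, hU, rfl⟩ := mem_image.1 he
      exact (hiff (back U) (le_ofGap hcc U) (ofGap_le _ _ U)).2 (by rw [hback]; exact hτ.1 U hU)
    · ext U
      constructor
      · intro h
        obtain ⟨e, he, rfl⟩ := mem_image.1 h
        obtain ⟨U', hU', rfl⟩ := mem_image.1 he
        rwa [hback]
      · exact fun hU => mem_image.2 ⟨back U, mem_image_of_mem _ hU, hback U⟩

/-- Exactness of the gaps: the hypothesis of `Lat.good_exact`. -/
theorem exact_gap (n : ℕ) [NeZero n] (F : Type) [Field F] [Fintype F]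
    (hq : 2 ^ n ≤ Fintype.card F) (c c' : Lat F n) (hlt : c < c') (hT : c' ≤ shLat 1 c) (k : ℕ)
    (hk : (k : ℤ) + 1 < ind c'.1 - ind c.1) : Exact ((posModel F n).gap c c') k := by
  classical
  obtain ⟨Φ, -, h⟩ := fill_gap n
  refine Fill.exact ?_ (h F hq c c' hlt hT) (by omega)
  exact fun σ hσ τ hτ => ⟨hσ.1.mono (Finset.coe_subset.2 hτ), fun e he => hσ.2 e (hτ he)⟩

end Vale.P067.Link
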