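import Vale.Agent.P067.Link.Gaps
import Vale.Agent.P067.Link.GapFill
import Vale.Agent.P067.Top.MorseMain

/-!
# The links of the opposition complex fill boundedly

For a non-empty simplex `R` of `X~` the link cycles with fewer than `n - #R` vertices per face
bound chains of size bounded independently of the field.
-/

namespace Vale.P067.Link

open Finset
open Vale.Agent.P067.Top Vale.Agent.P067.Top.Lat

/-- **Links of `X~`.** -/
theorem fill_link_good (n : ℕ) [NeZero n] : ∃ Φ : ℕ → ℕ, Monotone Φ ∧
    ∀ (F : Type) [Field F] [Fintype F] [DecidableEq (posModel F n).Vert],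
      2 ^ n ≤ Fintype.card F → ∀ R ∈ (posModel F n).good, R.Nonempty →
        Fill (fun τ => Disjoint R τ ∧ R ∪ τ ∈ (posModel F n).good) (n - R.card) Φ := by
  obtain ⟨Φ, hΦ, hgap⟩ := fill_gap n
  choose Θ hΘ hgaps using fill_gaps n hΦ
  refine ⟨fun x => ∑ m ∈ range (n + 1), Θ m x, fun x y h => sum_le_sum fun m _ => hΘ m h, ?_⟩
  intro F _ _ _ hq R hR hne
  classical
  have hRs : R ∈ (posModel F n).simp := hR.1
  have hcov : ∀ r ∈ R, r.1 ∈ (posModel F n).cover R := fun r hr => (posModel F n).mem_cover.2 (by rwa [Model.norm_vert])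
  set bnd : (posModel F n).Vert → ℕ := fun r => ((posModel F n).ind ((posModel F n).succ R r.1) - (posModel F n).ind r.1 - 1).toNat with hbnd
  have hle : ∀ r ∈ R, bnd r ≤ n := by
    intro r hr
    have h := (posModel F n).succ_le_sh hRs (hcov r hr)
    have h2 : (posModel F n).ind ((posModel F n).sh 1 r.1) = (posModel F n).ind r.1 + n := by rw [(posModel F n).ind_sh, one_mul]
    have h3 : (posModel F n).ind ((posModel F n).succ R r.1) ≤ (posModel F n).ind ((posModel F n).sh 1 r.1) := by
      rcases eq_or_lt_of_le h with e | e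
      · rw [e]
      · exact ((posModel F n).ind_lt _ _ e).le
    simp only [hbnd]
    omega
  have hfill := hgaps R.card (posModel F n) (R := R) (S := R) hRs (Subset.refl R) rfl bnd hle fun r hr => by
    refine (hgap F hq r.1 ((posModel F n).succ R r.1) ((posModel F n).succ_spec hRs (hcov r hr)).2.1
      ((posModel F n).succ_le_sh hRs (hcov r hr))).mono_range ?_
    simp only [hbnd]
    show _ ≤ ((posModel F n).ind ((posModel F n).succ R r.1) - (posModel F n).ind r.1).toNat - 1
    omega
  have hcard : R.card ≤ n := ((mem_good_iff (F := F) R).1 hR).1.card_le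
  have hsum := (posModel F n).le_sum_gaps hRs hne
  refine Fill.mono (fill_gaps.fill_congr' (fun τ => ?_) (hfill.mono_range ?_)) fun x => ?_
  · rw [gapsK_iff (posModel F n) hRs τ, ← (posModel F n).good_above_eq_J hR hne]
    exact and_congr_right fun _ => ⟨fun h => h.1, fun h => ⟨h, subset_union_left⟩⟩
  · simp only [hbnd]
    omega
  · exact single_le_sum (f := fun m => Θ m x) (fun _ _ => Nat.zero_le _)
      (mem_range.2 (Nat.lt_succ_of_le hcard))

end Vale.P067.Link
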