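import Vale.Agent.P067.Link.Coord3
import Vale.Agent.P067.Link.LinkX

/-!
# The links of codimension two of the opposition complex

For a simplex `R` of `X~` with `n - 2` vertices the link is either the incidence graph of an affine
plane (one gap of length three) or complete bipartite (two gaps of length two), so it is one-sided
`1/√q`-expanding.
-/

namespace Vale.P067.Link

open Finset Module
open Vale.Agent.P067.Top Vale.Agent.P067.Top.Lat

/-- The gaps above the members of a simplex use every index exactly once. -/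
lemma card_add_sum_gaps {n : ℕ} [NeZero n] (M : Model n) {R : Finset M.Vert} (hR : R ∈ M.simp)
    (hne : R.Nonempty) :
    R.card + ∑ r ∈ R, (M.ind (M.succ R r.1) - M.ind r.1 - 1).toNat = n := by
  refine le_antisymm ?_ (M.le_sum_gaps hR hne)
  have hcov : ∀ r ∈ R, r.1 ∈ M.cover R := fun r hr => M.mem_cover.2 (by rwa [M.norm_vert])
  let g : M.Vert → ℕ := fun r => (M.ind (M.succ R r.1) - M.ind r.1).toNat
  have hsum : R.card + ∑ r ∈ R, (M.ind (M.succ R r.1) - M.ind r.1 - 1).toNat = ∑ r ∈ R, g r := by
    rw [card_eq_sum_ones, ← sum_add_distrib]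
    refine sum_congr rfl fun r hr => ?_
    have := M.ind_lt _ _ (M.succ_spec hR (hcov r hr)).2.1
    simp only [g]
    omega
  rw [hsum]
  have hn := Model.n_pos (n := n)
  have key : ∀ r ∈ R, ∀ r' ∈ R, ∀ i < g r, ∀ i' < g r', i' ≤ i →
      (M.ind r.1 + i) % (n : ℤ) = (M.ind r'.1 + i') % (n : ℤ) → r = r' ∧ i = i' := by
    intro r hr r' hr' i hi i' hi' hle e
    obtain ⟨m, hm⟩ := Int.dvd_of_emod_eq_zero (Int.emod_eq_emod_iff_emod_sub_eq_zero.1 e)
    have hd : M.ind (M.sh m r'.1) = M.ind r.1 + i - i' := by rw [M.ind_sh]; linarith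
    have hdc := M.sh_mem_cover (hcov r' hr') m
    simp only [g] at hi
    rcases eq_or_ne r.1 (M.sh m r'.1) with he | he
    · refine ⟨?_, ?_⟩
      · rw [← M.norm_vert r, he, M.norm_sh]
      · have := congrArg M.ind he; omega
    · exfalso
      rcases hR (hcov r hr) hdc he with h | h
      · have h1 := lt_of_le_of_ne h he
        have h2 := (M.succ_spec hR (hcov r hr)).2.2 _ hdc h1
        rcases eq_or_lt_of_le h2 with h3 | h3
        · have := congrArg M.ind h3; omega
        · have := M.ind_lt _ _ h3; omega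
      · have := M.ind_lt _ _ (lt_of_le_of_ne h he.symm); omega
  have := card_le_card_of_injOn (s := R.sigma fun r => range (g r)) (t := range n)
    (fun p => ((M.ind p.1.1 + p.2) % (n : ℤ)).toNat)
    (fun p _ => by
      have h1 := Int.emod_lt_of_pos (M.ind p.1.1 + p.2) hn
      have h2 := Int.emod_nonneg (M.ind p.1.1 + p.2) hn.ne'
      simp only [coe_range, Set.mem_Iio]
      omega)
    (fun p hp q hq e => by
      simp only [coe_sigma, Set.mem_sigma_iff, coe_range, Set.mem_Iio] at hp hq
      have h1 := Int.emod_nonneg (M.ind p.1.1 + p.2) hn.ne'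
      have h2 := Int.emod_nonneg (M.ind q.1.1 + q.2) hn.ne'
      have e' : (M.ind p.1.1 + p.2) % (n : ℤ) = (M.ind q.1.1 + q.2) % (n : ℤ) := by
        simp only at e; omega
      obtain ⟨r, i⟩ := p
      obtain ⟨r', i'⟩ := q
      rcases le_total i' i with h | h
      · obtain ⟨rfl, rfl⟩ := key r hp.1 r' hq.1 i hp.2 i' hq.2 h e'; rfl
      · obtain ⟨rfl, rfl⟩ := key r' hq.1 r hp.1 i' hq.2 i hp.2 h e'.symm; rfl)
  simpa [card_sigma] using this

variable {F : Type} [Field F] {n : ℕ} [NeZero n]

section Gap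

variable {R : Finset (posModel F n).Vert}

/-- The edges of a link, by the gaps. -/
lemma link_iff [DecidableEq (posModel F n).Vert] (hR : R ∈ (posModel F n).good) (hne : R.Nonempty)
    (τ : Finset (posModel F n).Vert) :
    (Disjoint R τ ∧ R ∪ τ ∈ (posModel F n).good) ↔ GapsK (posModel F n) R R τ := by
  rw [gapsK_iff (posModel F n) hR.1 τ, ← (posModel F n).good_above_eq_J hR hne]
  exact and_congr_right fun _ => ⟨fun h => ⟨h, subset_union_left⟩, fun h => h.1⟩

/-- The gap above a member, as an interval of lattices. -/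
lemma gap_bounds (hR : R ∈ (posModel F n).simp) {r : (posModel F n).Vert} (hr : r ∈ R) :
    (r.1 : Lat F n) < (posModel F n).succ R r.1 ∧
      (posModel F n).succ R r.1 ≤ shLat 1 (r.1 : Lat F n) :=
  ⟨((posModel F n).succ_spec hR ((posModel F n).mem_cover.2 (by rwa [Model.norm_vert]))).2.1,
    (posModel F n).succ_le_sh hR ((posModel F n).mem_cover.2 (by rwa [Model.norm_vert]))⟩

/-- A filler of a gap is a vertex of the link. -/
lemma norm_mem_gapVert {r : (posModel F n).Vert} {x : (posModel F n).Lam}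
    (hx : (posModel F n).Fills r.1 ((posModel F n).succ R r.1) x) :
    (posModel F n).norm x ∈ (posModel F n).gapVert R r :=
  ⟨(posModel F n).ind x / n, by rwa [Model.sh_norm]⟩

lemma trans_norm (hR : R ∈ (posModel F n).simp) {r : (posModel F n).Vert} (hr : r ∈ R)
    {x : (posModel F n).Lam} (hx : (posModel F n).Fills r.1 ((posModel F n).succ R r.1) x) :
    (posModel F n).trans R r ((posModel F n).norm x) = x :=
  (posModel F n).fills_unique hR hr ((posModel F n).trans_spec (norm_mem_gapVert hx)).1 hx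
    ((posModel F n).trans_spec (norm_mem_gapVert hx)).2

/-- The lattice with given image in a gap. -/
noncomputable def gapLat {c c' : Lat F n} (h : c ≤ c' ∧ c' ≤ shLat 1 c)
    (U : Submodule F (Gap c.1 c'.1)) : Lat F n :=
  ⟨ofGap c.1 c'.1 U, isLat_between c.2 c'.2 (by
    have h2 : c'.1 ≤ shL ((1 : ℤ) * n) c.1 := h.2
    rwa [one_mul] at h2) (le_ofGap h.1 U) (ofGap_le _ _ U)⟩

lemma eq_gapLat {c c' : Lat F n} (h : c ≤ c' ∧ c' ≤ shLat 1 c) {x : Lat F n} (h1 : c.1 ≤ x.1)
    (h2 : x.1 ≤ c'.1) : x = gapLat h (toGap c.1 c'.1 x.1) :=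
  Subtype.ext (le_antisymm
    (le_of_toGap_le h1 h2 (le_ofGap h.1 _) (toGap_ofGap h.1 _).ge)
    (le_of_toGap_le (le_ofGap h.1 _) (ofGap_le _ _ _) h1 (toGap_ofGap h.1 _).le))

/-- A gap of length one has no fillers. -/
lemma gapVert_empty {r : (posModel F n).Vert}
    (h : ((posModel F n).ind ((posModel F n).succ R r.1) - (posModel F n).ind r.1 - 1).toNat = 0)
    {v : (posModel F n).Vert} : v ∉ (posModel F n).gapVert R r := fun hv => by
  obtain ⟨h1, h2, -⟩ := ((posModel F n).trans_spec hv).1
  have := (posModel F n).ind_lt _ _ h1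
  have := (posModel F n).ind_lt _ _ h2
  omega

variable [Fintype F]

lemma finite_gapVert (hR : R ∈ (posModel F n).simp) {r : (posModel F n).Vert} (hr : r ∈ R) :
    Finite {v // v ∈ (posModel F n).gapVert R r} := by
  obtain ⟨hlt, hle⟩ := gap_bounds hR hr
  obtain ⟨g, G, -, -, -, hfin, -, -⟩ := exists_gapFlag _ _ hlt hle
  have := hfin
  have : Finite (Gap (r.1 : Lat F n).1 ((posModel F n).succ R r.1 : Lat F n).1) :=
    Module.finite_of_finite F
  have : Finite (Submodule F (Gap (r.1 : Lat F n).1 ((posModel F n).succ R r.1 : Lat F n).1)) :=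
    Finite.of_injective _ SetLike.coe_injective
  refine Finite.of_injective (fun v : {v // v ∈ (posModel F n).gapVert R r} =>
    toGap (r.1 : Lat F n).1 ((posModel F n).succ R r.1 : Lat F n).1
      ((posModel F n).trans R r v.1 : Lat F n).1) fun v w e => ?_
  obtain ⟨hv, ev⟩ := (posModel F n).trans_spec v.2
  obtain ⟨hw, ew⟩ := (posModel F n).trans_spec w.2
  have e' : (posModel F n).trans R r v.1 = (posModel F n).trans R r w.1 := Subtype.ext (le_antisymm
    (le_of_toGap_le hv.1.le hv.2.1.le hw.1.le e.le) (le_of_toGap_le hw.1.le hw.2.1.le hv.1.le e.ge))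
  exact Subtype.ext (by rw [← ev, ← ew, e'])

/-- A gap has boundedly many fillers. -/
lemma card_gapVert_le (hR : R ∈ (posModel F n).simp) {r : (posModel F n).Vert} (hr : r ∈ R) :
    Nat.card {v // v ∈ (posModel F n).gapVert R r} ≤ 2 ^ Fintype.card F ^ n := by
  obtain ⟨hlt, hle⟩ := gap_bounds hR hr
  obtain ⟨g, G, -, hgn, hgq, hfin, -, -⟩ := exists_gapFlag _ _ hlt hle
  have := hfin
  have : Finite (Gap (r.1 : Lat F n).1 ((posModel F n).succ R r.1 : Lat F n).1) :=
    Module.finite_of_finite F
  let := Fintype.ofFinite (Gap (r.1 : Lat F n).1 ((posModel F n).succ R r.1 : Lat F n).1)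
  refine (Nat.card_le_card_of_injective (fun v : {v // v ∈ (posModel F n).gapVert R r} =>
    SetLike.coe (toGap (r.1 : Lat F n).1 ((posModel F n).succ R r.1 : Lat F n).1
      ((posModel F n).trans R r v.1 : Lat F n).1)) fun v w e => ?_).trans ?_
  · obtain ⟨hv, ev⟩ := (posModel F n).trans_spec v.2
    obtain ⟨hw, ew⟩ := (posModel F n).trans_spec w.2
    have e := SetLike.coe_injective e
    have e' : (posModel F n).trans R r v.1 = (posModel F n).trans R r w.1 := Subtype.ext
      (le_antisymm (le_of_toGap_le hv.1.le hv.2.1.le hw.1.le e.le)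
        (le_of_toGap_le hw.1.le hw.2.1.le hv.1.le e.ge))
    exact Subtype.ext (by rw [← ev, ← ew, e'])
  · rw [Nat.card_eq_fintype_card, Fintype.card_set, Module.card_eq_pow_finrank (K := F), hgq]
    exact Nat.pow_le_pow_right (by norm_num) (Nat.pow_le_pow_right Fintype.card_pos hgn)

/-- A gap of length two has a filler. -/
lemma nonempty_gapVert (hR : R ∈ (posModel F n).simp) {r : (posModel F n).Vert} (hr : r ∈ R)
    (h : ((posModel F n).ind ((posModel F n).succ R r.1) - (posModel F n).ind r.1 - 1).toNat = 1) :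
    Nonempty {v // v ∈ (posModel F n).gapVert R r} := by
  obtain ⟨hlt, hle⟩ := gap_bounds hR hr
  obtain ⟨g, G, hg, -, hgq, hfin, hflag, hiff⟩ := exists_gapFlag _ _ hlt hle
  have := hfin
  have hg2 : g = 2 := by
    have h' : (ind ((posModel F n).succ R r.1 : Lat F n).1 - ind (r.1 : Lat F n).1 - 1).toNat = 1 := h
    omega
  subst hg2
  obtain ⟨p, -, -, hp, hpG⟩ := exists_point (A := (⊥ : Submodule F (Gap (r.1 : Lat F n).1
    ((posModel F n).succ R r.1 : Lat F n).1))) (B := ⊤) (g := 2) (fun _ : Unit => G)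
    (by rw [finrank_bot, finrank_top, hgq]) (by norm_num) bot_le (fun _ => hflag)
    (by rw [Fintype.card_unit]; exact Fintype.one_lt_card)
  rw [finrank_bot, zero_add] at hp
  have hb : (⊥ : Submodule F _) < p := bot_lt_iff_ne_bot.2 fun e => by
    rw [e, finrank_bot] at hp; omega
  have ht : p < (⊤ : Submodule F _) := lt_top_iff_ne_top.2 fun e => by
    rw [e, finrank_top, hgq] at hp; omega
  have hopp : Opp (⊥ : Submodule F _) ⊤ (fun _ : Unit => G) p := by
    refine ⟨hb, ht, fun _ => Submodule.eq_top_of_finrank_eq ?_⟩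
    rw [finrank_top, hgq, hp]
    show finrank F (p ⊔ G 1 : Submodule F _) = 2
    have := Submodule.finrank_lt_finrank_of_lt
      (right_lt_sup.2 (hpG ()) : G (2 - 1) < p ⊔ G (2 - 1))
    have h1 := (hflag.1 1 (by norm_num)).2.2
    rw [finrank_bot, zero_add] at h1
    have h2 := Submodule.finrank_le (p ⊔ G 1)
    rw [show (2 - 1 : ℕ) = 1 from rfl, h1] at this
    omega
  have hx : (posModel F n).Fills r.1 ((posModel F n).succ R r.1) (gapLat ⟨hlt.le, hle⟩ p) :=
    (hiff _ (le_ofGap hlt.le p) (ofGap_le _ _ p)).2 ((toGap_ofGap hlt.le p).symm ▸ hopp)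
  exact ⟨⟨_, norm_mem_gapVert hx⟩⟩

end Gap

/-- **Codimension-two links of `X~`.** -/
theorem oneSided_link_good [Fintype F] [DecidableEq F] [DecidableEq (posModel F n).Vert]
    {W : Type} [DecidableEq W] {R : Finset (posModel F n).Vert} (hR : R ∈ (posModel F n).good)
    (hne : R.Nonempty) (hc : R.card + 2 = n) (f : (posModel F n).Vert → W)
    (hf : Set.InjOn f {v | v ∉ R ∧ insert v R ∈ (posModel F n).good})
    (T : Finset (Finset W))
    (hT : ∀ t, t ∈ T ↔ ∃ τ, Disjoint R τ ∧ R ∪ τ ∈ (posModel F n).good ∧ τ.card = 2 ∧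
      τ.image f = t) :
    Local.OneSided T (1 / Real.sqrt (Fintype.card F)) := by
  classical
  have hRs : R ∈ (posModel F n).simp := hR.1
  set b : (posModel F n).Vert → ℕ := fun r => ((posModel F n).ind ((posModel F n).succ R r.1) - (posModel F n).ind r.1 - 1).toNat with hb
  have hsum : ∑ r ∈ R, b r = 2 := by
    have := card_add_sum_gaps (posModel F n) hRs hne
    simp only [hb]
    omega
  have hT' : ∀ t, t ∈ T ↔ ∃ τ, GapsK (posModel F n) R R τ ∧ τ.card = 2 ∧ τ.image f = t := fun t => by
    rw [hT]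
    exact exists_congr fun τ => by rw [← link_iff hR hne τ, and_assoc]
  have hvert : ∀ r ∈ R, ∀ v ∈ (posModel F n).gapVert R r, v ∈ {v | v ∉ R ∧ insert v R ∈ (posModel F n).good} := by
    intro r hr v hv
    obtain ⟨hd, hg⟩ := (link_iff hR hne {v}).2 ⟨fun w hw => ⟨r, hr, mem_singleton.1 hw ▸ hv⟩,
      fun s _ => Set.Subsingleton.isChain (Set.Subsingleton.image
        (fun a ha b hb => (mem_singleton.1 ha.1).trans (mem_singleton.1 hb.1).symm) _)⟩
    exact ⟨disjoint_singleton_right.1 hd, by rwa [union_singleton] at hg⟩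
  by_cases h3 : ∃ r ∈ R, b r = 2
  · -- one gap of length three
    obtain ⟨r, hr, hbr⟩ := h3
    have hb0 : ∀ s ∈ R, s ≠ r → b s = 0 := fun s hs hne' => by
      have := sum_le_sum_of_subset (f := b) (show {r, s} ⊆ R by simp [insert_subset_iff, hr, hs])
      rw [sum_pair hne'.symm, hsum, hbr] at this
      omega
    have honly : ∀ s ∈ R, ∀ v ∈ (posModel F n).gapVert R s, s = r := fun s hs v hv => by
      by_contra h
      exact gapVert_empty (hb0 s hs h) hv
    obtain ⟨hlt, hle⟩ := gap_bounds hRs hr
    obtain ⟨g, G, hg, -, hgq, hfin, hflag, hiff⟩ := exists_gapFlag _ _ hlt hle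
    have := hfin
    have hg3 : g = 3 := by
      have h' : (ind ((posModel F n).succ R r.1 : Lat F n).1 - ind (r.1 : Lat F n).1 - 1).toNat = 2 := hbr
      omega
    subst hg3
    obtain ⟨φ, hφ1, hφ2⟩ := exists_coords hgq hflag
    have hopp := opp3_iff hgq φ hφ1 hφ2
    have hcc : (r.1 : Lat F n) ≤ (posModel F n).succ R r.1 ∧ (posModel F n).succ R r.1 ≤ shLat 1 (r.1 : Lat F n) := ⟨hlt.le, hle⟩
    set e : Submodule F (Fin 3 → F) → Lat F n := fun U => gapLat hcc (U.map φ.toLinearMap) with he
    have he' : ∀ U, toGap (r.1 : Lat F n).1 ((posModel F n).succ R r.1 : Lat F n).1 (e U).1 = U.map φ.toLinearMap :=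
      fun U => toGap_ofGap hlt.le _
    set D : Set (Submodule F (Fin 3 → F)) := Set.range lineP ∪ Set.range planeP with hD
    have hfill : ∀ U ∈ D, (posModel F n).Fills r.1 ((posModel F n).succ R r.1) (e U) := by
      intro U hU
      refine (hiff (e U) (le_ofGap hlt.le _) (ofGap_le _ _ _)).2 ?_
      rw [he']
      refine (hopp U).2 ?_
      rcases hU with ⟨p, rfl⟩ | ⟨p, rfl⟩
      exacts [Or.inl ⟨p, rfl⟩, Or.inr ⟨p, rfl⟩]
    set ν : Submodule F (Fin 3 → F) → (posModel F n).Vert := fun U => (posModel F n).norm (e U) with hν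
    have hmem : ∀ U ∈ D, ν U ∈ (posModel F n).gapVert R r := fun U hU => norm_mem_gapVert (hfill U hU)
    have htr : ∀ U ∈ D, (posModel F n).trans R r (ν U) = e U := fun U hU => trans_norm hRs hr (hfill U hU)
    have hνinj : Set.InjOn ν D := fun U hU U' hU' h => by
      have h1 : e U = e U' := by rw [← htr U hU, h, htr U' hU']
      refine Submodule.map_injective_of_injective φ.injective ?_
      rw [← he', h1, he']
    have hsurj : ∀ v ∈ (posModel F n).gapVert R r, ∃ U ∈ D, ν U = v := by
      intro v hv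
      obtain ⟨hx, ev⟩ := (posModel F n).trans_spec hv
      set x : Lat F n := (posModel F n).trans R r v with hxd
      have ho := (hiff x hx.1.le hx.2.1.le).1 hx
      set U := (toGap (r.1 : Lat F n).1 ((posModel F n).succ R r.1 : Lat F n).1 x.1).comap φ.toLinearMap with hU
      have hmap : U.map φ.toLinearMap = toGap (r.1 : Lat F n).1 ((posModel F n).succ R r.1 : Lat F n).1 x.1 :=
        Submodule.map_comap_eq_of_surjective φ.surjective _
      rw [← hmap] at ho
      have hUD : U ∈ D := by
        rcases (hopp U).1 ho with ⟨p, h⟩ | ⟨p, h⟩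
        exacts [Or.inl ⟨p, h.symm⟩, Or.inr ⟨p, h.symm⟩]
      refine ⟨U, hUD, ?_⟩
      simp only [hν, he]
      rw [hmap, ← eq_gapLat hcc hx.1.le hx.2.1.le]
      exact ev
    have hmono : ∀ U ∈ D, ∀ U' ∈ D, (e U ≤ e U' ↔ U ≤ U') := by
      intro U _ U' _
      rw [← Submodule.map_le_map_iff_of_injective φ.injective U U', ← he', ← he']
      exact ⟨fun h => toGap_mono _ _ h, fun h => le_of_toGap_le (le_ofGap hlt.le _)
        (ofGap_le _ _ _) (le_ofGap hlt.le _) h⟩
    have hlp : ∀ p, lineP p ∈ D := fun p => Or.inl ⟨p, rfl⟩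
    have hpp : ∀ p, planeP p ∈ D := fun p => Or.inr ⟨p, rfl⟩
    refine oneSided_opp3 (fun U => f (ν U)) T (fun t => ?_) ?_
    · rw [hT' t]
      constructor
      · rintro ⟨τ, ⟨hg1, hg2⟩, hτ, rfl⟩
        obtain ⟨v, w, hvw, rfl⟩ := card_eq_two.1 hτ
        have hin : ∀ x ∈ ({v, w} : Finset (posModel F n).Vert), x ∈ (posModel F n).gapVert R r := fun x hx => by
          obtain ⟨s, hs, hx'⟩ := hg1 x hx
          rwa [← honly s hs x hx']
        obtain ⟨U, hU, rfl⟩ := hsurj v (hin v (mem_insert_self _ _))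
        obtain ⟨U', hU', rfl⟩ := hsurj w (hin w (mem_insert_of_mem (mem_singleton_self _)))
        have hne' : U ≠ U' := fun h => hvw (by rw [h])
        have hcomp : U ≤ U' ∨ U' ≤ U := by
          rw [← hmono U hU U' hU', ← hmono U' hU' U hU, ← htr U hU, ← htr U' hU']
          refine (hg2 r hr) ⟨_, ⟨mem_insert_self _ _, hin _ (mem_insert_self _ _)⟩, rfl⟩
            ⟨_, ⟨mem_insert_of_mem (mem_singleton_self _),
              hin _ (mem_insert_of_mem (mem_singleton_self _))⟩, rfl⟩ ?_
          rw [htr U hU, htr U' hU']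
          exact fun h => hne' (Submodule.map_injective_of_injective φ.injective
            (by rw [← he', h, he']))
        have main : ∀ A ∈ D, ∀ B ∈ D, A ≠ B → A ≤ B →
            ∃ a c y : F, A = lineP (a * y + c, y) ∧ B = planeP (a, c) := by
          intro A hA B hB hAB hle'
          have hlt' := Submodule.finrank_lt_finrank_of_lt (lt_of_le_of_ne hle' hAB)
          rcases hA with ⟨p, rfl⟩ | ⟨p, rfl⟩ <;> rcases hB with ⟨p', rfl⟩ | ⟨p', rfl⟩
          · rw [finrank_lineP, finrank_lineP] at hlt'; omega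
          · exact ⟨p'.1, p'.2, p.2, by rw [← (lineP_le_planeP p p').1 hle'], rfl⟩
          · rw [finrank_lineP, finrank_planeP] at hlt'; omega
          · rw [finrank_planeP, finrank_planeP] at hlt'; omega
        rcases hcomp with h | h
        · obtain ⟨a, c, y, rfl, rfl⟩ := main U hU U' hU' hne' h
          exact ⟨a, c, y, by rw [image_insert, image_singleton]; rfl⟩
        · obtain ⟨a, c, y, rfl, rfl⟩ := main U' hU' U hU hne'.symm h
          exact ⟨a, c, y, by rw [image_insert, image_singleton, pair_comm]; rfl⟩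
      · rintro ⟨a, c, y, rfl⟩
        have hne' : ν (lineP (a * y + c, y)) ≠ ν (planeP (a, c)) := fun h => by
          have := congrArg (fun U : Submodule F (Fin 3 → F) => finrank F U)
            (hνinj (hlp _) (hpp _) h)
          simp only [finrank_lineP, finrank_planeP] at this
          omega
        refine ⟨{ν (lineP (a * y + c, y)), ν (planeP (a, c))}, ⟨fun v hv => ?_, fun s hs => ?_⟩,
          card_pair hne', by rw [image_insert, image_singleton]; rfl⟩
        · simp only [mem_insert, mem_singleton] at hv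
          rcases hv with rfl | rfl
          exacts [⟨r, hr, hmem _ (hlp _)⟩, ⟨r, hr, hmem _ (hpp _)⟩]
        · rintro _ ⟨x, ⟨hx, hxg⟩, rfl⟩ _ ⟨z, ⟨hz, -⟩, rfl⟩ hxz
          obtain rfl := honly s hs x hxg
          have hle' : e (lineP (a * y + c, y)) ≤ e (planeP (a, c)) :=
            (hmono _ (hlp _) _ (hpp _)).2 ((lineP_le_planeP _ _).2 rfl)
          simp only [mem_insert, mem_singleton] at hx hz
          rcases hx with rfl | rfl <;> rcases hz with rfl | rfl
          · exact absurd rfl hxz
          · rw [htr _ (hlp _), htr _ (hpp _)]; exact Or.inl hle'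
          · rw [htr _ (hlp _), htr _ (hpp _)]; exact Or.inr hle'
          · exact absurd rfl hxz
    · intro U hU U' hU' h
      exact hνinj hU hU' (hf (hvert r hr _ (hmem U hU)) (hvert r hr _ (hmem U' hU')) h)
  · -- two gaps of length two
    push Not at h3
    obtain ⟨r, hr, hr0⟩ : ∃ r ∈ R, b r ≠ 0 := exists_ne_zero_of_sum_ne_zero (by omega)
    have hr1 : b r = 1 := by
      have := single_le_sum (f := b) (fun _ _ => Nat.zero_le _) hr
      have := h3 r hr
      omega
    have he1 : ∑ s ∈ R.erase r, b s = 1 := by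
      have := add_sum_erase R b hr
      omega
    obtain ⟨s, hs, hs0⟩ : ∃ s ∈ R.erase r, b s ≠ 0 := exists_ne_zero_of_sum_ne_zero (by omega)
    obtain ⟨hsr, hsR⟩ := mem_erase.1 hs
    have hs1 : b s = 1 := by
      have := single_le_sum (f := b) (fun _ _ => Nat.zero_le _) hs
      omega
    have hb0 : ∀ u ∈ R, u ≠ r → u ≠ s → b u = 0 := fun u hu h1 h2 => by
      have := sum_le_sum_of_subset (f := b) (show {s, u} ⊆ R.erase r by
        simp [insert_subset_iff, hsR, hsr, hu, h1])
      rw [sum_pair h2.symm, he1, hs1] at this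
      omega
    have honly : ∀ u ∈ R, ∀ v ∈ (posModel F n).gapVert R u, u = r ∨ u = s := fun u hu v hv => by
      by_contra h
      push Not at h
      exact gapVert_empty (hb0 u hu h.1 h.2) hv
    have huniq : ∀ u ∈ R, b u = 1 → ∀ v ∈ (posModel F n).gapVert R u, ∀ w ∈ (posModel F n).gapVert R u,
        ((posModel F n).trans R u v ≤ (posModel F n).trans R u w ∨ (posModel F n).trans R u w ≤ (posModel F n).trans R u v) → v = w := by
      intro u hu hu1 v hv w hw h
      obtain ⟨⟨a1, a2, -⟩, ev⟩ := (posModel F n).trans_spec hv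
      obtain ⟨⟨b1, b2, -⟩, ew⟩ := (posModel F n).trans_spec hw
      by_contra hvw
      have hne' : (posModel F n).trans R u v ≠ (posModel F n).trans R u w := fun e => hvw (by rw [← ev, ← ew, e])
      have := (posModel F n).ind_lt _ _ a1
      have := (posModel F n).ind_lt _ _ a2
      have := (posModel F n).ind_lt _ _ b1
      have := (posModel F n).ind_lt _ _ b2
      simp only [hb] at hu1
      rcases h with h | h
      · have := (posModel F n).ind_lt _ _ (lt_of_le_of_ne h hne'); omega
      · have := (posModel F n).ind_lt _ _ (lt_of_le_of_ne h hne'.symm); omega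
    have := finite_gapVert hRs hr
    have := finite_gapVert hRs hsR
    let := Fintype.ofFinite {v // v ∈ (posModel F n).gapVert R r}
    let := Fintype.ofFinite {v // v ∈ (posModel F n).gapVert R s}
    have := nonempty_gapVert hRs hr hr1
    have := nonempty_gapVert hRs hsR hs1
    have hfi : ∀ {u u' : (posModel F n).Vert}, u ∈ R → u' ∈ R → ∀ {v w}, v ∈ (posModel F n).gapVert R u → w ∈ (posModel F n).gapVert R u' →
        f v = f w → v = w := fun hu hu' _ _ hv hw e => hf (hvert _ hu _ hv) (hvert _ hu' _ hw) e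
    have hdisj : ∀ {v}, v ∈ (posModel F n).gapVert R r → v ∉ (posModel F n).gapVert R s := fun hv hv' =>
      hsr ((posModel F n).gapVert_disjoint hRs hr hsR hv hv').symm
    have hT2 : T = univ.image fun e : {v // v ∈ (posModel F n).gapVert R r} × {v // v ∈ (posModel F n).gapVert R s} =>
        ({f e.1.1, f e.2.1} : Finset W) := by
      ext t
      rw [hT' t, mem_image]
      constructor
      · rintro ⟨τ, ⟨hg1, hg2⟩, hτ, rfl⟩
        obtain ⟨v, w, hvw, rfl⟩ := card_eq_two.1 hτ
        obtain ⟨u, hu, hv⟩ := hg1 v (mem_insert_self _ _)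
        obtain ⟨u', hu', hw⟩ := hg1 w (mem_insert_of_mem (mem_singleton_self _))
        have hne' : u ≠ u' := by
          rintro rfl
          have hu1 : b u = 1 := by
            rcases honly u hu v hv with rfl | rfl
            exacts [hr1, hs1]
          refine hvw (huniq u hu hu1 v hv w hw ?_)
          rcases eq_or_ne ((posModel F n).trans R u v) ((posModel F n).trans R u w) with h | h
          · exact Or.inl h.le
          · exact (hg2 u hu) ⟨v, ⟨mem_insert_self _ _, hv⟩, rfl⟩
              ⟨w, ⟨mem_insert_of_mem (mem_singleton_self _), hw⟩, rfl⟩ h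
        rcases honly u hu v hv with rfl | rfl <;> rcases honly u' hu' w hw with rfl | rfl
        · exact absurd rfl hne'
        · exact ⟨⟨⟨v, hv⟩, ⟨w, hw⟩⟩, mem_univ _, by rw [image_insert, image_singleton]⟩
        · exact ⟨⟨⟨w, hw⟩, ⟨v, hv⟩⟩, mem_univ _, by
            rw [image_insert, image_singleton, pair_comm]⟩
        · exact absurd rfl hne'
      · rintro ⟨⟨⟨v, hv⟩, ⟨w, hw⟩⟩, -, rfl⟩
        have hvw : v ≠ w := fun h => hdisj hv (h ▸ hw)
        refine ⟨{v, w}, ⟨fun x hx => ?_, fun u hu => ?_⟩, card_pair hvw,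
          by rw [image_insert, image_singleton]⟩
        · simp only [mem_insert, mem_singleton] at hx
          rcases hx with rfl | rfl
          exacts [⟨r, hr, hv⟩, ⟨s, hsR, hw⟩]
        · rintro _ ⟨x, ⟨hx, hxg⟩, rfl⟩ _ ⟨z, ⟨hz, hzg⟩, rfl⟩ hxz
          refine absurd ?_ hxz
          simp only [mem_insert, mem_singleton] at hx hz
          rcases hx with rfl | rfl <;> rcases hz with rfl | rfl
          · rfl
          · exact absurd ((posModel F n).gapVert_disjoint hRs hu hr hxg hv) fun h => by
              obtain rfl := (posModel F n).gapVert_disjoint hRs hu hsR hzg hw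
              exact hsr h
          · exact absurd ((posModel F n).gapVert_disjoint hRs hu hr hzg hv) fun h => by
              obtain rfl := (posModel F n).gapVert_disjoint hRs hu hsR hxg hw
              exact hsr h
          · rfl
    rw [hT2]
    refine Local.OneSided.mono (N := 2) ?_ (univ_nonempty.image _) one_le_two ?_ (by positivity)
      (l := 0)
    · intro t ht
      obtain ⟨⟨⟨v, hv⟩, ⟨w, hw⟩⟩, -, rfl⟩ := mem_image.1 ht
      exact card_pair fun h => hdisj hv (hfi hr hsR hv hw h ▸ hw)
    · exact oneSided_complete (fun v : {v // v ∈ (posModel F n).gapVert R r} => f v.1)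
        (fun w : {v // v ∈ (posModel F n).gapVert R s} => f w.1)
        (fun v v' h => Subtype.ext (hfi hr hr v.2 v'.2 h))
        (fun v v' h => Subtype.ext (hfi hsR hsR v.2 v'.2 h))
        (fun v w h => hdisj v.2 (hfi hr hsR v.2 w.2 h ▸ w.2))

end Vale.P067.Link
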