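import Vale.Agent.P067.Link.Fill
import Vale.Agent.P067.Local.Cocycle

/-!
# Coboundary expansion from bounded fillings and a transitive group

If a group is transitive on the top faces and cycles fill with bounded size, then averaging the
cone cochains over the group gives coboundary expansion with a constant depending only on the
filling bound and the dimensions.
-/

namespace Vale.P067.Link

open Finset Vale.P067.Local

set_option linter.unusedSectionVars false

variable {V : Type} [DecidableEq V]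

/-- Contained in a top face. -/
def InT (T : Finset (Finset V)) (σ : Finset V) : Prop := ∃ t ∈ T, σ ⊆ t

lemma inT_mono {T : Finset (Finset V)} {σ τ : Finset V} (h : InT T σ) (h' : τ ⊆ σ) : InT T τ := by
  obtain ⟨t, ht, hs⟩ := h
  exact ⟨t, ht, h'.trans hs⟩

/-- The size of the cone over a face. -/
def coneBound (Φ : ℕ → ℕ) : ℕ → ℕ
  | 0 => Φ 1
  | j + 1 => Φ (1 + (j + 1) * coneBound Φ j)

/-- Evaluation of a cochain on a chain. -/
noncomputable def ev (h : Finset V → ZMod 2) : Chn V →ₗ[ZMod 2] ZMod 2 :=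
  Finsupp.linearCombination (ZMod 2) h

@[simp] lemma ev_single (h : Finset V → ZMod 2) (σ : Finset V) :
    ev h (Finsupp.single σ 1) = h σ := by simp [ev]

lemma ev_bdC (h : Finset V → ZMod 2) {σ : Finset V} {k : ℕ} (hσ : σ.card = k + 1) :
    ev h (bdC (Finsupp.single σ 1)) = delta k h σ := by
  rw [bdC_single, map_sum, delta_eq_erase k h hσ]
  exact sum_congr rfl fun x _ => ev_single h _

/-- Cones with bounded size. -/
lemma exists_cones {T : Finset (Finset V)} {Φ : ℕ → ℕ} (hΦ : Monotone Φ) {m : ℕ}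
    (hfill : Fill (InT T) m Φ) : ∀ j, j ≤ m → ∃ F : Finset V → Chn V, ∀ σ, InT T σ → σ.card < j →
      F σ ∈ chains (InT T) (σ.card + 1) ∧
      bdC (F σ) = Finsupp.single σ 1 + lift F (bdC (Finsupp.single σ 1)) ∧
      size (F σ) ≤ coneBound Φ σ.card := by
  intro j
  induction j with
  | zero => exact fun _ => ⟨fun _ => 0, fun σ _ h => absurd h (Nat.not_lt_zero _)⟩
  | succ j ih =>
    intro hj
    obtain ⟨F, hF⟩ := ih (by omega)
    have key : ∀ σ, InT T σ → σ.card = j → ∃ w ∈ chains (InT T) (σ.card + 1),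
        bdC w = Finsupp.single σ 1 + lift F (bdC (Finsupp.single σ 1)) ∧
        size w ≤ coneBound Φ σ.card := by
      intro σ hσ hc
      have herase : ∀ x ∈ σ, InT T (σ.erase x) ∧ (σ.erase x).card + 1 = j := fun x hx =>
        ⟨inT_mono hσ (erase_subset _ _), by rw [card_erase_add_one hx, hc]⟩
      set z := Finsupp.single σ 1 + lift F (bdC (Finsupp.single σ 1)) with hz
      have hzmem : z ∈ chains (InT T) σ.card := by
        refine add_mem (single_mem hσ) ?_
        rw [bdC_single, map_sum]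
        refine Submodule.sum_mem _ fun x hx => ?_
        obtain ⟨h1, h2⟩ := herase x hx
        rw [lift_single]
        have := (hF _ h1 (by omega)).1
        rwa [h2, ← hc] at this
      have hzcyc : bdC z = 0 := by
        have e : bdC (lift F (bdC (Finsupp.single σ 1)))
            = bdC (Finsupp.single σ 1) + lift F (bdC (bdC (Finsupp.single σ 1))) := by
          rw [bdC_single, map_sum, map_sum, map_sum, map_sum, ← sum_add_distrib]
          refine sum_congr rfl fun x hx => ?_
          obtain ⟨h1, h2⟩ := herase x hx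
          rw [lift_single, (hF _ h1 (by omega)).2.1]
        rw [hz, map_add, e, bdC_bdC, map_zero, add_zero, ch_add_self]
      obtain ⟨w, hw, hb, hs⟩ := hfill σ.card (by omega) z hzmem hzcyc
      refine ⟨w, hw, hb, hs.trans ?_⟩
      have hzs : size z ≤ 1 + σ.card * (if σ.card = 0 then 0 else coneBound Φ (σ.card - 1)) := by
        refine (size_add _ _).trans (Nat.add_le_add (size_single_le σ) ?_)
        rw [bdC_single, map_sum]
        refine (size_sum _ _).trans ((Finset.sum_le_card_nsmul _ _ _ fun x hx => ?_).trans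
          (le_of_eq (smul_eq_mul _ _)))
        obtain ⟨h1, h2⟩ := herase x hx
        rw [lift_single, if_neg (by have := card_pos.2 ⟨x, hx⟩; omega)]
        have := (hF _ h1 (by omega)).2.2
        rwa [card_erase_of_mem hx] at this
      refine (hΦ hzs).trans ?_
      rcases Nat.eq_zero_or_pos σ.card with h0 | h0
      · rw [if_pos h0, h0]; simp [coneBound]
      · rw [if_neg (by omega)]
        conv_rhs => rw [show σ.card = (σ.card - 1) + 1 by omega, coneBound]
        rw [Nat.sub_add_cancel h0]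
    choose! w hw hwb hws using key
    refine ⟨fun σ => if σ.card = j then w σ else F σ, fun σ hσ hc => ?_⟩
    have elift : lift (fun σ => if σ.card = j then w σ else F σ) (bdC (Finsupp.single σ 1))
        = lift F (bdC (Finsupp.single σ 1)) := by
      rw [bdC_single, map_sum, map_sum]
      refine sum_congr rfl fun x hx => ?_
      rw [lift_single, lift_single, if_neg (by have := card_erase_add_one hx; omega)]
    rw [elift]
    by_cases h : σ.card = j
    · simp only [if_pos h]
      exact ⟨hw σ hσ h, hwb σ hσ h, hws σ hσ h⟩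
    · simp only [if_neg h]
      exact hF σ hσ (by omega)

section group

variable {G : Type} [Group G] [Fintype G] [MulAction G V]

/-- The image of a face. -/
def mv (γ : G) (σ : Finset V) : Finset V := σ.image (γ • ·)

lemma mv_mv (γ η : G) (σ : Finset V) : mv γ (mv η σ) = mv (γ * η) σ := by
  simp [mv, image_image, Function.comp_def, mul_smul]

lemma mv_inv (γ : G) (σ : Finset V) : mv γ⁻¹ (mv γ σ) = σ := by
  rw [mv_mv, inv_mul_cancel]; simp [mv]

lemma mv_inv' (γ : G) (σ : Finset V) : mv γ (mv γ⁻¹ σ) = σ := by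
  rw [mv_mv, mul_inv_cancel]; simp [mv]

/-- The induced map of chains. -/
noncomputable def act (γ : G) : Chn V →ₗ[ZMod 2] Chn V :=
  lift fun σ => Finsupp.single (mv γ σ) 1

lemma bdC_act (γ : G) (z : Chn V) : bdC (act γ z) = act γ (bdC z) := by
  suffices h : ∀ σ : Finset V, (bdC.comp (act γ)) (Finsupp.single σ 1)
      = ((act γ).comp bdC) (Finsupp.single σ 1) by
    simpa only [LinearMap.comp_apply] using lift_ext h z
  intro σ
  simp only [LinearMap.comp_apply, act, lift_single, bdC_single, map_sum]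
  rw [mv, sum_image ((MulAction.injective γ).injOn)]
  refine sum_congr rfl fun x _ => ?_
  rw [mv, image_erase (MulAction.injective γ)]

/-- **Coboundary expansion from fillings.** -/
theorem expansion_of_fill (N k : ℕ) (hk : 1 ≤ k) {Φ : ℕ → ℕ} (hΦ : Monotone Φ) :
    ∃ β : ℝ, 0 < β ∧ ∀ {V : Type} [DecidableEq V] {G : Type} [Group G] [Fintype G] [MulAction G V]
      (T : Finset (Finset V)), k + 1 ≤ N → Uniform T N → T.Nonempty →
      (∀ γ : G, ∀ t ∈ T, mv γ t ∈ T) → (∀ t ∈ T, ∀ t' ∈ T, ∃ γ : G, mv γ t = t') →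
      Fill (InT T) (k + 1) Φ → ∀ h : Finset V → ZMod 2, ∃ g : Finset V → ZMod 2,
        β * avg T k (supp (h + delta (k - 1) g)) ≤ avg T (k + 1) (supp (delta k h)) := by
  set B : ℝ := (coneBound Φ k : ℝ) * (N.choose (k + 1) : ℕ) + 1 with hB
  have hBpos : 0 < B := by positivity
  refine ⟨1 / B, by positivity, ?_⟩
  intro V _ G _ _ _ T hkN hT hne hinv htrans hfill h
  classical
  obtain ⟨F, hF⟩ := exists_cones hΦ hfill (k + 1) le_rfl
  set g : G → Finset V → ZMod 2 := fun γ ρ => ev h (act γ (F (mv γ⁻¹ ρ))) with hg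
  set u : Finset V → ℝ := supp (delta k h) with hu
  -- the cone identity
  have hkey : ∀ γ, ∀ t ∈ T, ∀ S ∈ t.powersetCard k,
      supp (h + delta (k - 1) (g γ)) (mv γ S) ≤ ∑ τ ∈ (F S).support, u (mv γ τ) := by
    intro γ t ht S hS
    obtain ⟨hSt, hSc⟩ := mem_powersetCard.1 hS
    obtain ⟨hmem, hbd, -⟩ := hF S ⟨t, ht, hSt⟩ (by omega)
    have hmc : (mv γ S).card = k := by
      rw [mv, card_image_of_injective _ (MulAction.injective γ), hSc]
    have e : h (mv γ S) + delta (k - 1) (g γ) (mv γ S)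
        = ∑ τ ∈ (F S).support, F S τ * delta k h (mv γ τ) := by
      have h1 : ev h (bdC (act γ (F S))) = h (mv γ S) + delta (k - 1) (g γ) (mv γ S) := by
        rw [bdC_act, hbd, map_add, map_add, act, lift_single, ev_single]
        congr 1
        rw [delta_eq_erase (k - 1) (g γ) (by omega : (mv γ S).card = k - 1 + 1), bdC_single,
          map_sum, map_sum, map_sum, mv, sum_image ((MulAction.injective γ).injOn)]
        refine sum_congr rfl fun x _ => ?_
        simp only [hg, lift_single]
        rw [← image_erase (MulAction.injective γ) S x]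
        exact (congrArg (fun r => ev h (act γ (F r))) (mv_inv γ (S.erase x))).symm
      rw [← h1]
      conv_lhs => rw [← (F S).sum_single, Finsupp.sum, map_sum, map_sum, map_sum]
      refine sum_congr rfl fun τ hτ => ?_
      rw [single_eq_smul, map_smul, map_smul, map_smul, smul_eq_mul, act, lift_single,
        ev_bdC h (k := k)]
      rw [mv, card_image_of_injective _ (MulAction.injective γ), (mem_chains.1 hmem τ hτ).1, hSc]
    by_cases hz : (h + delta (k - 1) (g γ)) (mv γ S) = 0
    · simp only [supp, if_pos hz]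
      exact sum_nonneg fun τ _ => supp_nonneg _ _
    · simp only [supp, if_neg hz]
      rw [Pi.add_apply, e] at hz
      obtain ⟨τ, hτ, hτ'⟩ := exists_ne_zero_of_sum_ne_zero hz
      refine le_trans ?_ (single_le_sum (f := fun τ => u (mv γ τ)) (fun _ _ => supp_nonneg _ _) hτ)
      simp [hu, supp, right_ne_zero_of_mul hτ']
  have hperm : ∀ (γ : G) (Ψ : Finset V → ℝ), ∑ t ∈ T, Ψ (mv γ t) = ∑ t ∈ T, Ψ t := by
    intro γ Ψ
    refine sum_nbij' (mv γ) (mv γ⁻¹) (fun t ht => hinv γ t ht) (fun t ht => hinv γ⁻¹ t ht)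
      (fun t _ => mv_inv γ t) (fun t _ => mv_inv' γ t) (fun _ _ => rfl)
  have hpow : ∀ (γ : G) (t : Finset V) (j : ℕ) (Ψ : Finset V → ℝ),
      ∑ S ∈ (mv γ t).powersetCard j, Ψ S = ∑ S ∈ t.powersetCard j, Ψ (mv γ S) := by
    intro γ t j Ψ
    refine (sum_nbij' (mv γ) (mv γ⁻¹) ?_ ?_ (fun S _ => mv_inv γ S) (fun S _ => mv_inv' γ S)
      (fun _ _ => rfl)).symm
    · intro S hS
      obtain ⟨h1, h2⟩ := mem_powersetCard.1 hS
      exact mem_powersetCard.2 ⟨image_subset_image h1,
        by rw [mv, card_image_of_injective _ (MulAction.injective γ), h2]⟩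
    · intro S hS
      obtain ⟨h1, h2⟩ := mem_powersetCard.1 hS
      refine mem_powersetCard.2 ⟨?_, by rw [mv, card_image_of_injective _ (MulAction.injective γ⁻¹), h2]⟩
      rw [← mv_inv γ t]
      exact image_subset_image h1
  set S1 : ℝ := ∑ t ∈ T, ∑ R ∈ t.powersetCard (k + 1), u R with hS1
  have horb : ∀ τ, InT T τ → τ.card = k + 1 →
      (T.card : ℝ) * ∑ γ : G, u (mv γ τ) ≤ (Fintype.card G : ℝ) * S1 := by
    rintro τ ⟨t₀, ht₀, hτ⟩ hc
    set W : Finset V → ℝ := fun t => ∑ R ∈ t.powersetCard (k + 1), u R with hW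
    have h1 : ∀ γ : G, u (mv γ τ) ≤ W (mv γ t₀) := fun γ => by
      refine single_le_sum (fun R _ => supp_nonneg _ R) (mem_powersetCard.2 ⟨image_subset_image hτ, ?_⟩)
      rw [mv, card_image_of_injective _ (MulAction.injective γ), hc]
    have h2 : ∀ t ∈ T, ∑ γ : G, W (mv γ t) = ∑ γ : G, W (mv γ t₀) := by
      intro t ht
      obtain ⟨η, hη⟩ := htrans t₀ ht₀ t ht
      rw [← hη]
      exact Fintype.sum_equiv (Equiv.mulRight η) _ _ fun γ => by simp [mv_mv]
    calc (T.card : ℝ) * ∑ γ : G, u (mv γ τ) ≤ (T.card : ℝ) * ∑ γ : G, W (mv γ t₀) :=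
          mul_le_mul_of_nonneg_left (sum_le_sum fun γ _ => h1 γ) (Nat.cast_nonneg _)
      _ = ∑ t ∈ T, ∑ γ : G, W (mv γ t) := by rw [sum_congr rfl h2, sum_const, nsmul_eq_mul]
      _ = (Fintype.card G : ℝ) * S1 := by
          rw [sum_comm, sum_congr rfl (fun γ _ => hperm γ W), sum_const, card_univ, nsmul_eq_mul]
  have hTpos : (0 : ℝ) < T.card := by exact_mod_cast hne.card_pos
  set cnt : G → ℝ := fun γ => ∑ t ∈ T, ∑ S ∈ t.powersetCard k, supp (h + delta (k - 1) (g γ)) S
  have hsum : ∑ γ : G, cnt γ ≤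
      ∑ _γ : G, (N.choose k : ℝ) * (coneBound Φ k : ℝ) * S1 := by
    calc ∑ γ : G, cnt γ
        ≤ ∑ γ : G, ∑ t ∈ T, ∑ S ∈ t.powersetCard k, ∑ τ ∈ (F S).support, u (mv γ τ) := by
          refine sum_le_sum fun γ _ => ?_
          simp only [cnt]
          rw [← hperm γ]
          refine sum_le_sum fun t ht => ?_
          rw [hpow γ t]
          exact sum_le_sum fun S hS => hkey γ t ht S hS
      _ = ∑ t ∈ T, ∑ S ∈ t.powersetCard k, ∑ τ ∈ (F S).support, ∑ γ : G, u (mv γ τ) := by
          rw [sum_comm]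
          refine sum_congr rfl fun t _ => ?_
          rw [sum_comm]
          exact sum_congr rfl fun S _ => sum_comm
      _ ≤ ∑ _t ∈ T, ∑ _S ∈ _t.powersetCard k,
            (coneBound Φ k : ℝ) * ((Fintype.card G : ℝ) * S1 / T.card) := by
          refine sum_le_sum fun t ht => sum_le_sum fun S hS => ?_
          obtain ⟨hSt, hSc⟩ := mem_powersetCard.1 hS
          obtain ⟨hmem, -, hsz⟩ := hF S ⟨t, ht, hSt⟩ (by omega)
          rw [hSc] at hmem hsz
          refine (sum_le_card_nsmul _ _ ((Fintype.card G : ℝ) * S1 / T.card) fun τ hτ => ?_).trans ?_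
          · rw [le_div_iff₀ hTpos, mul_comm]
            exact horb τ (mem_chains.1 hmem τ hτ).2 (mem_chains.1 hmem τ hτ).1
          · rw [nsmul_eq_mul]
            refine mul_le_mul_of_nonneg_right (by exact_mod_cast hsz) (div_nonneg ?_ hTpos.le)
            exact mul_nonneg (Nat.cast_nonneg _) (sum_nonneg fun t _ => sum_nonneg fun R _ => supp_nonneg _ R)
      _ = ∑ _γ : G, (N.choose k : ℝ) * (coneBound Φ k : ℝ) * S1 := by
          rw [sum_congr rfl (fun t ht => by rw [sum_const, card_powersetCard, hT t ht])]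
          simp only [sum_const, card_univ, nsmul_eq_mul]
          field_simp
  obtain ⟨γ, -, hγ⟩ := exists_le_of_sum_le univ_nonempty hsum
  refine ⟨g γ, ?_⟩
  rw [avg_eq hT, avg_eq hT, ← hS1, one_div_mul_eq_div, div_div, div_le_div_iff₀]
  · have hc1 : (0 : ℝ) ≤ (N.choose k : ℕ) := Nat.cast_nonneg _
    have hc2 : (0 : ℝ) ≤ (N.choose (k + 1) : ℕ) := Nat.cast_nonneg _
    have hS1' : 0 ≤ S1 := sum_nonneg fun t _ => sum_nonneg fun R _ => supp_nonneg _ R
    calc (∑ t ∈ T, ∑ S ∈ t.powersetCard k, supp (h + delta (k - 1) (g γ)) S)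
          * ((T.card : ℝ) * (N.choose (k + 1) : ℕ))
        ≤ (N.choose k : ℝ) * (coneBound Φ k : ℝ) * S1 * ((T.card : ℝ) * (N.choose (k + 1) : ℕ)) :=
          mul_le_mul_of_nonneg_right hγ (mul_nonneg hTpos.le hc2)
      _ = S1 * ((T.card : ℝ) * (N.choose k : ℕ)
            * ((coneBound Φ k : ℝ) * (N.choose (k + 1) : ℕ))) := by ring
      _ ≤ S1 * ((T.card : ℝ) * (N.choose k : ℕ) * B) := by
          refine mul_le_mul_of_nonneg_left (mul_le_mul_of_nonneg_left ?_ ?_) hS1'
          · rw [hB]; linarith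
          · exact mul_nonneg hTpos.le hc1
  · exact mul_pos (mul_pos hTpos (by exact_mod_cast Nat.choose_pos (by omega : k ≤ N))) hBpos
  · exact mul_pos hTpos (by exact_mod_cast Nat.choose_pos hkN)

end group

end Vale.P067.Link
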