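import Vale.Agent.P067.Link.Join

/-!
# Opposition complexes have bounded fillings

The vertices are the subspaces strictly between `A` and `B` that are opposite to each of finitely
many flags of the interval. Cycles below the top degree fill with a bound depending only on the
length `g` of the interval, provided the field has at least `(number of flags) * 2 ^ g` elements.
-/

namespace Vale.P067.Link

open Finset Module

section

variable {F : Type} [Field F] {V : Type} [AddCommGroup V] [Module F V]

/-- A flag of the interval `[A, B]` of length `g`. -/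
def IsFlag (A B : Submodule F V) (g : ℕ) (G : ℕ → Submodule F V) : Prop :=
  (∀ k ≤ g, A ≤ G k ∧ G k ≤ B ∧ finrank F (G k) = finrank F A + k) ∧
    ∀ k l, k ≤ l → l ≤ g → G k ≤ G l

/-- Strictly between `A` and `B` and opposite to every flag. -/
def Opp {ι : Type} (A B : Submodule F V) (Fl : ι → ℕ → Submodule F V) (Y : Submodule F V) : Prop :=
  A < Y ∧ Y < B ∧ ∀ a, Y ⊔ Fl a (finrank F B - finrank F Y) = B

/-- The faces of the opposition complex: the chains of opposite subspaces. -/
def OppFace {ι : Type} (A B : Submodule F V) (Fl : ι → ℕ → Submodule F V)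
    (σ : Finset (Submodule F V)) : Prop :=
  (∀ Y ∈ σ, Opp A B Fl Y) ∧ ∀ Y ∈ σ, ∀ Z ∈ σ, Y ≤ Z ∨ Z ≤ Y

variable [FiniteDimensional F V]

lemma rank_lt {X Y : Submodule F V} (h : X < Y) : finrank F X < finrank F Y :=
  Submodule.finrank_lt_finrank_of_lt h

lemma eq_of_rank {X Y : Submodule F V} (h : X ≤ Y) (h' : finrank F Y ≤ finrank F X) : X = Y :=
  Submodule.eq_of_le_of_finrank_le h h'

/-- A point outside all the hyperplanes of the flags. -/
lemma exists_point [Fintype F] {ι : Type} [Fintype ι] {A B : Submodule F V} {g : ℕ}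
    (Fl : ι → ℕ → Submodule F V) (hg : finrank F B = finrank F A + g) (hg1 : 1 ≤ g) (hAB : A ≤ B)
    (hFl : ∀ a, IsFlag A B g (Fl a)) (hq : Fintype.card ι < Fintype.card F) :
    ∃ p : Submodule F V, A ≤ p ∧ p ≤ B ∧ finrank F p = finrank F A + 1 ∧
      ∀ a, ¬ p ≤ Fl a (g - 1) := by
  classical
  obtain ⟨v, hvB, hvA, hv⟩ : ∃ v, v ∈ B ∧ v ∉ A ∧ ∀ a, v ∉ Fl a (g - 1) := by
    have : Finite V := Module.finite_of_finite F
    have : Fintype V := Fintype.ofFinite V
    rcases isEmpty_or_nonempty ι with hι | hι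
    · obtain ⟨v, hvB, hvA⟩ := Set.not_subset.1 (fun h : (B : Set V) ⊆ (A : Set V) => by
        have := Submodule.finrank_mono (show B ≤ A from h); omega)
      exact ⟨v, hvB, hvA, isEmptyElim⟩
    have hc : ∀ W : Submodule F V, (univ.filter fun v => v ∈ W).card
        = Fintype.card F ^ finrank F W := fun W => by
      have h := Module.card_eq_pow_finrank (K := F) (V := W)
      rwa [Fintype.card_subtype] at h
    have hlt : (univ.biUnion fun a => univ.filter fun v => v ∈ Fl a (g - 1)).card
        < (univ.filter fun v => v ∈ B).card := by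
      refine card_biUnion_le.trans_lt ?_
      rw [sum_congr rfl (fun a _ => by rw [hc, ((hFl a).1 (g - 1) (by omega)).2.2]), sum_const,
        card_univ, smul_eq_mul, hc, hg,
        show finrank F A + g = (finrank F A + (g - 1)) + 1 by omega, pow_succ']
      exact Nat.mul_lt_mul_of_pos_right hq (pow_pos Fintype.card_pos _)
    obtain ⟨v, hv, hv'⟩ := exists_mem_notMem_of_card_lt_card hlt
    simp only [mem_biUnion, mem_filter, mem_univ, true_and, not_exists] at hv hv'
    exact ⟨v, hv, fun h => hv' (Classical.arbitrary ι) (((hFl _).1 (g - 1) (by omega)).1 h), hv'⟩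
  refine ⟨A ⊔ F ∙ v, le_sup_left,
    sup_le hAB ((Submodule.span_singleton_le_iff_mem v B).2 hvB), ?_, fun a h => ?_⟩
  · have h1 : A < A ⊔ F ∙ v :=
      left_lt_sup.2 fun h => hvA ((Submodule.span_singleton_le_iff_mem v A).1 h)
    have h2 := Submodule.finrank_sup_add_finrank_inf_eq A (F ∙ v)
    rw [finrank_span_singleton (fun h : v = 0 => hvA (h ▸ A.zero_mem))] at h2
    have := rank_lt h1
    omega
  · exact hv a (h (Submodule.mem_sup_right (Submodule.mem_span_singleton_self v)))

end

/-- The size bounds of iterated relative steps. -/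
def iterBound (m : ℕ) (Ψ : ℕ → ℕ → ℕ) (Φ : ℕ → ℕ) : ℕ → ℕ → ℕ
  | 0 => Φ
  | j + 1 => relBound m (iterBound m Ψ Φ j) (Ψ j)

lemma iterBound_mono {m : ℕ} {Ψ : ℕ → ℕ → ℕ} {Φ : ℕ → ℕ} (hΨ : ∀ j, Monotone (Ψ j))
    (hΦ : Monotone Φ) : ∀ j, Monotone (iterBound m Ψ Φ j)
  | 0 => hΦ
  | j + 1 => relBound_mono (iterBound_mono hΨ hΦ j) (hΨ j)

lemma fill_congr {W : Type} [DecidableEq W] {K L : Finset W → Prop} {m : ℕ} {Φ : ℕ → ℕ}
    (h : ∀ σ, K σ ↔ L σ) (hK : Fill K m Φ) : Fill L m Φ := by
  have : K = L := funext fun σ => propext (h σ)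
  exact this ▸ hK

/-- **Lemma O with bounds.** -/
theorem opp_fill : ∀ g : ℕ, ∃ Φ : ℕ → ℕ, Monotone Φ ∧
    ∀ (F : Type) [Field F] [Fintype F] (V : Type) [AddCommGroup V] [Module F V]
      [FiniteDimensional F V] [DecidableEq (Submodule F V)] (A B : Submodule F V),
      A ≤ B → finrank F B = finrank F A + g →
      ∀ (ι : Type) [Fintype ι] (Fl : ι → ℕ → Submodule F V),
        (∀ a, IsFlag A B g (Fl a)) → Fintype.card ι * 2 ^ g ≤ Fintype.card F →
        Fill (OppFace A B Fl) (g - 1) Φ := by
  intro g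
  induction g using Nat.strong_induction_on with
  | _ g ih =>
  rcases Nat.lt_or_ge g 2 with hg2 | hg2
  · exact ⟨id, monotone_id, fun F _ _ V _ _ _ _ A B _ _ ι _ Fl _ _ k hk => by omega⟩
  choose Φ hΦ hfill using ih
  have hj : ∀ y, ∃ Θ : ℕ → ℕ, Monotone Θ ∧ ∀ (hy : 1 ≤ y) (hy' : y < g) {W : Type} [DecidableEq W]
      (P : W → Prop) [DecidablePred P] {KA KB : Finset W → Prop},
      (∀ ρ, KA ρ → ∀ x ∈ ρ, P x) → (∀ τ, KB τ → ∀ x ∈ τ, ¬ P x) →
      (∀ ρ τ, KA ρ → τ ⊆ ρ → KA τ) → (∀ ρ τ, KB ρ → τ ⊆ ρ → KB τ) →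
      Fill KA (y - 1) (Φ y hy') → Fill KB (g - y - 1) (Φ (g - y) (by omega)) →
      Fill (JoinK P KA KB) (g - 2) Θ := by
    intro y
    by_cases hy : 1 ≤ y ∧ y < g
    · obtain ⟨Θ, hΘ, h⟩ := fill_join (y - 1) (g - y - 1) (hΦ y hy.2) (hΦ (g - y) (by omega))
      refine ⟨Θ, hΘ, ?_⟩
      intro _ _ W _ P _ KA KB h1 h2 h3 h4 h5 h6
      exact (h P h1 h2 h3 h4 h5 h6).mono_range (by omega)
    · exact ⟨id, monotone_id, fun h h' => absurd ⟨h, h'⟩ hy⟩
  choose Θ hΘ hjoin using hj
  set Φ₀ := iterBound (g - 1) (fun _ => id) id g with hΦ₀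
  have hΦ₀m : Monotone Φ₀ := iterBound_mono (fun _ => monotone_id) monotone_id g
  refine ⟨iterBound (g - 1) (fun j => Θ (g - (j + 1))) Φ₀ g,
    iterBound_mono (fun _ => hΘ _) hΦ₀m g, ?_⟩
  intro F _ _ V _ _ _ _ A B hAB hgB ι _ Fl hFl hq
  classical
  obtain ⟨p, hAp, hpB, hp1, hpF⟩ := exists_point Fl hgB (by omega) hAB hFl (by
    rcases Nat.eq_zero_or_pos (Fintype.card ι) with h | h
    · rw [h]; exact Fintype.card_pos
    · have : 2 ≤ 2 ^ g := by
        calc 2 = 2 ^ 1 := rfl
          _ ≤ 2 ^ g := Nat.pow_le_pow_right (by norm_num) (by omega)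
      nlinarith)
  set D : Submodule F V → ℕ := fun Y => finrank F Y - finrank F A with hD
  have rkA : ∀ {Y}, A ≤ Y → finrank F Y = finrank F A + D Y := fun h => by
    have := Submodule.finrank_mono h
    simp only [hD]; omega
  have hDlt : ∀ {Y}, Opp A B Fl Y → 1 ≤ D Y ∧ D Y < g := fun h => by
    have := rank_lt h.1
    have := rank_lt h.2.1
    simp only [hD]; omega
  have hidx : ∀ {Y}, A ≤ Y → finrank F B - finrank F Y = g - D Y := fun h => by
    have := rkA h; omega
  have hDle : ∀ {X Y : Submodule F V}, A ≤ X → X ≤ Y → D X ≤ D Y := fun hA h => by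
    have := rkA hA; have := rkA (hA.trans h); have := Submodule.finrank_mono h; omega
  have heq : ∀ {X Y : Submodule F V}, A ≤ X → X ≤ Y → D Y ≤ D X → X = Y := fun hA h hd => by
    refine eq_of_rank h ?_
    have := rkA hA; have := rkA (hA.trans h); omega
  have hsupp : ∀ {Y : Submodule F V}, A ≤ Y → ¬ p ≤ Y → D (Y ⊔ p) = D Y + 1 := fun {Y} hA hp => by
    have h1 : Y < Y ⊔ p := left_lt_sup.2 hp
    have h2 := Submodule.finrank_sup_add_finrank_inf_eq Y p
    have h3 : finrank F A ≤ finrank F (Y ⊓ p : Submodule F V) :=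
      Submodule.finrank_mono (le_inf hA hAp)
    have := rank_lt h1
    have := rkA hA
    have := rkA (hA.trans (le_sup_left (b := p)))
    omega
  have hpT : Opp A B Fl p := by
    refine ⟨lt_of_le_of_ne hAp fun h => by rw [← h] at hp1; omega,
      lt_of_le_of_ne hpB fun h => by rw [h] at hp1; omega, fun a => ?_⟩
    rw [hgB, hp1, show finrank F A + g - (finrank F A + 1) = g - 1 by omega]
    obtain ⟨h1, h2, h3⟩ := (hFl a).1 (g - 1) (by omega)
    refine eq_of_rank (sup_le hpB h2) ?_
    have := rank_lt (right_lt_sup.2 (hpF a))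
    omega
  set good : Submodule F V → Prop := fun Y => p ≤ Y ∨ Opp A B Fl (Y ⊔ p) with hgood
  -- good vertices
  set KG : ℕ → Finset (Submodule F V) → Prop := fun j σ =>
    OppFace A B Fl σ ∧ ∀ Y ∈ σ, p ≤ Y ∨ (Opp A B Fl (Y ⊔ p) ∧ D Y < j) with hKG
  have hG : ∀ j, Fill (KG j) (g - 1) (iterBound (g - 1) (fun _ => id) id j) := by
    intro j
    induction j with
    | zero =>
      refine fill_cone p (fun σ hσ => ?_) _
      obtain ⟨⟨h1, h2⟩, h3⟩ := hσ
      have hp' : ∀ Y ∈ σ, p ≤ Y := fun Y hY => (h3 Y hY).resolve_right fun h => Nat.not_lt_zero _ h.2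
      refine ⟨⟨?_, ?_⟩, ?_⟩
      · simp only [forall_mem_insert]; exact ⟨hpT, h1⟩
      · simp only [forall_mem_insert]
        exact ⟨⟨Or.inl le_rfl, fun Z hZ => Or.inl (hp' Z hZ)⟩,
          fun Y hY => ⟨Or.inr (hp' Y hY), fun Z hZ => h2 Y hY Z hZ⟩⟩
      · simp only [forall_mem_insert]; exact ⟨Or.inl le_rfl, fun Y hY => Or.inl (hp' Y hY)⟩
    | succ j ihj =>
      refine fill_add_vertices (K₀ := KG j) (fun Y => ¬ p ≤ Y ∧ D Y = j)
        (iterBound_mono (fun _ => monotone_id) monotone_id j) monotone_id ?_ ?_ ?_ ?_ ihj ?_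
      · exact fun σ hσ => ⟨hσ.1, fun Y hY => (hσ.2 Y hY).imp_right fun h => ⟨h.1, by omega⟩⟩
      · intro σ hσ Y hY hB Z hZ hB'
        rcases hσ.1.2 Y hY Z hZ with h | h
        · exact heq (hσ.1.1 Y hY).1.le h (by omega)
        · exact (heq (hσ.1.1 Z hZ).1.le h (by omega)).symm
      · intro σ hσ hno
        refine ⟨hσ.1, fun Y hY => ?_⟩
        rcases hσ.2 Y hY with h | h
        · exact Or.inl h
        · by_cases hp : p ≤ Y
          · exact Or.inl hp
          · exact Or.inr ⟨h.1, lt_of_le_of_ne (by omega) fun e => hno Y hY ⟨hp, e⟩⟩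
      · exact fun σ τ hσ h => ⟨⟨fun Y hY => hσ.1.1 Y (h hY), fun Y hY Z hZ => hσ.1.2 Y (h hY) Z (h hZ)⟩,
          fun Y hY => hσ.2 Y (h hY)⟩
      · intro Y hB
        by_cases hY : Opp A B Fl Y ∧ Opp A B Fl (Y ⊔ p)
        · refine fill_cone (Y ⊔ p) (fun ρ hρ => ?_) _
          obtain ⟨hYρ, ⟨h1, h2⟩, h3⟩ := hρ
          have hne : Y ⊔ p ≠ Y := fun h => hB.1 (h ▸ le_sup_right)
          have hcmp : ∀ Z ∈ ρ, Z ≤ Y ⊔ p ∨ Y ⊔ p ≤ Z := by
            intro Z hZ
            rcases h2 Y (mem_insert_self _ _) Z (mem_insert_of_mem hZ) with h | h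
            · rcases h3 Z (mem_insert_of_mem hZ) with h' | h'
              · exact Or.inr (sup_le h h')
              · exfalso
                have := heq hY.1.1.le h (by omega)
                exact hYρ (this ▸ hZ)
            · exact Or.inl (h.trans le_sup_left)
          refine ⟨?_, ⟨?_, ?_⟩, ?_⟩
          · rw [mem_insert, not_or]; exact ⟨hne.symm, hYρ⟩
          · simp only [forall_mem_insert] at h1 ⊢; exact ⟨h1.1, hY.2, h1.2⟩
          · simp only [forall_mem_insert] at h2 ⊢
            refine ⟨⟨Or.inl le_rfl, Or.inl le_sup_left, h2.1.2⟩,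
              ⟨Or.inr le_sup_left, Or.inl le_rfl, fun Z hZ => (hcmp Z hZ).symm⟩, fun Z hZ => ?_⟩
            exact ⟨(h2.2 Z hZ).1, hcmp Z hZ, (h2.2 Z hZ).2⟩
          · simp only [forall_mem_insert] at h3 ⊢
            exact ⟨h3.1, Or.inl le_sup_right, h3.2⟩
        · intro k _ z hz _
          have hz0 : z = 0 := Finsupp.support_eq_empty.1 (eq_empty_iff_forall_notMem.2 fun ρ hρ => by
            obtain ⟨-, ⟨-, ⟨h1, -⟩, h3⟩⟩ := mem_chains.1 hz ρ hρ
            exact hY ⟨h1 Y (mem_insert_self _ _),
              ((h3 Y (mem_insert_self _ _)).resolve_left hB.1).1⟩)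
          exact ⟨0, zero_mem _, by rw [hz0, map_zero], by simp [size]⟩
  -- all vertices
  set KB : ℕ → Finset (Submodule F V) → Prop := fun j σ =>
    OppFace A B Fl σ ∧ ∀ Y ∈ σ, good Y ∨ g ≤ D Y + j with hKB
  have hBad : ∀ j, Fill (KB j) (g - 1) (iterBound (g - 1) (fun j => Θ (g - (j + 1))) Φ₀ j) := by
    intro j
    induction j with
    | zero =>
      refine fill_congr (fun σ => ?_) (hG g)
      refine and_congr_right fun hσ => forall₂_congr fun Y hY => ?_
      have := (hDlt (hσ.1 Y hY)).2
      simp only [hgood]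
      constructor
      · rintro (h | h)
        · exact Or.inl (Or.inl h)
        · exact Or.inl (Or.inr h.1)
      · rintro ((h | h) | h)
        · exact Or.inl h
        · exact Or.inr ⟨h, this⟩
        · omega
    | succ j ihj =>
      refine fill_add_vertices (K₀ := KB j) (fun Y => ¬ good Y ∧ D Y + (j + 1) = g)
        (iterBound_mono (fun _ => hΘ _) hΦ₀m j) (hΘ _) ?_ ?_ ?_ ?_ ihj ?_
      · exact fun σ hσ => ⟨hσ.1, fun Y hY => (hσ.2 Y hY).imp_right fun h => by omega⟩
      · intro σ hσ Y hY hB Z hZ hB'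
        rcases hσ.1.2 Y hY Z hZ with h | h
        · exact heq (hσ.1.1 Y hY).1.le h (by omega)
        · exact (heq (hσ.1.1 Z hZ).1.le h (by omega)).symm
      · intro σ hσ hno
        refine ⟨hσ.1, fun Y hY => ?_⟩
        rcases hσ.2 Y hY with h | h
        · exact Or.inl h
        · by_cases hgd : good Y
          · exact Or.inl hgd
          · exact Or.inr (by
              rcases Nat.lt_or_ge (D Y + j) g with h' | h'
              · exact absurd (by omega) fun e => hno Y hY ⟨hgd, e⟩
              · exact h')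
      · exact fun σ τ hσ h => ⟨⟨fun Y hY => hσ.1.1 Y (h hY), fun Y hY Z hZ => hσ.1.2 Y (h hY) Z (h hZ)⟩,
          fun Y hY => hσ.2 Y (h hY)⟩
      · intro Y hB
        by_cases hY : Opp A B Fl Y
        swap
        · intro k _ z hz _
          have hz0 : z = 0 := Finsupp.support_eq_empty.1 (eq_empty_iff_forall_notMem.2 fun ρ hρ => by
            exact hY ((mem_chains.1 hz ρ hρ).2.2.1.1 Y (mem_insert_self _ _)))
          exact ⟨0, zero_mem _, by rw [hz0, map_zero], by simp [size]⟩
        obtain ⟨hy1, hy⟩ := hDlt hY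
        set y := D Y with hydef
        have hyj : g - (j + 1) = y := by omega
        have hAY := hY.1.le
        have hYB := hY.2.1.le
        have hpY : ¬ p ≤ Y := fun h => hB.1 (Or.inl h)
        have rkY := rkA hAY
        have hYsup : ∀ a l, g - y ≤ l → l ≤ g → Y ⊔ Fl a l = B := fun a l h h' => by
          refine le_antisymm (sup_le hYB ((hFl a).1 l h').2.1) ?_
          have := hY.2.2 a
          rw [hidx hAY] at this
          rw [← this]
          exact sup_le_sup_left ((hFl a).2 _ _ h h') _
        have hFp : ∀ a l, l ≤ g - 1 → finrank F (Fl a l ⊔ p : Submodule F V) = finrank F A + l + 1 :=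
          fun a l hl => by
            obtain ⟨h1, -, h3⟩ := (hFl a).1 l (by omega)
            have hn : ¬ p ≤ Fl a l := fun h => hpF a (h.trans ((hFl a).2 _ _ hl (by omega)))
            have := hsupp h1 hn
            have := rkA h1
            have := rkA (h1.trans (le_sup_left (b := p)))
            omega
        set Fl' : ι ⊕ ι → ℕ → Submodule F V := Sum.elim (fun a i => Y ⊓ Fl a (g - y + i))
          (fun a i => if i = 0 then A else Y ⊓ (Fl a (g - y + i - 1) ⊔ p)) with hFl'
        have hflag' : ∀ b, IsFlag A Y y (Fl' b) := by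
          rintro (a | a)
          · refine ⟨fun i hi => ⟨le_inf hAY ((hFl a).1 _ (by omega)).1, inf_le_left, ?_⟩,
              fun i l h h' => inf_le_inf_left _ ((hFl a).2 _ _ (by omega) (by omega))⟩
            have := Submodule.finrank_sup_add_finrank_inf_eq Y (Fl a (g - y + i))
            rw [hYsup a _ (by omega) (by omega), hgB, ((hFl a).1 _ (by omega : g - y + i ≤ g)).2.2]
              at this
            rw [show Fl' (Sum.inl a) i = Y ⊓ Fl a (g - y + i) from rfl]
            omega
          · refine ⟨fun i hi => ?_, fun i l h h' => ?_⟩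
            · rcases Nat.eq_zero_or_pos i with h0 | h0
              · rw [show Fl' (Sum.inr a) i = A from if_pos h0]
                exact ⟨le_rfl, hAY, by omega⟩
              rw [show Fl' (Sum.inr a) i = Y ⊓ (Fl a (g - y + i - 1) ⊔ p) from if_neg (by omega)]
              refine ⟨le_inf hAY (((hFl a).1 (g - y + i - 1) (by omega)).1.trans le_sup_left), inf_le_left, ?_⟩
              have := Submodule.finrank_sup_add_finrank_inf_eq Y (Fl a (g - y + i - 1) ⊔ p)
              rw [show Y ⊔ (Fl a (g - y + i - 1) ⊔ p) = B from le_antisymm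
                  (sup_le hYB (sup_le ((hFl a).1 _ (by omega)).2.1 hpB))
                  ((hYsup a (g - y + i - 1) (by omega) (by omega)).ge.trans
                    (sup_le_sup_left le_sup_left _)),
                hgB, hFp a (g - y + i - 1) (by omega)] at this
              omega
            · simp only [hFl', Sum.elim_inr]
              split_ifs with h0 h1 h1
              · exact le_rfl
              · exact le_inf hAY (((hFl a).1 _ (by omega)).1.trans le_sup_left)
              · omega
              · exact inf_le_inf_left _ (sup_le_sup_right ((hFl a).2 _ _ (by omega) (by omega)) _)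
        set Fl'' : ι → ℕ → Submodule F V := fun a i => Y ⊔ Fl a i with hFl''
        have hflag'' : ∀ a, IsFlag Y B (g - y) (Fl'' a) := fun a => by
          refine ⟨fun i hi => ⟨le_sup_left, sup_le hYB ((hFl a).1 i (by omega)).2.1, ?_⟩,
            fun i l h h' => sup_le_sup_left ((hFl a).2 _ _ h (by omega)) _⟩
          have h1 := Submodule.finrank_sup_add_finrank_inf_eq Y (Fl a i)
          have h2 := Submodule.finrank_sup_add_finrank_inf_eq Y (Fl a (g - y))
          rw [hYsup a _ le_rfl (by omega), hgB, ((hFl a).1 _ (by omega : g - y ≤ g)).2.2] at h2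
          rw [((hFl a).1 i (by omega)).2.2] at h1
          have h3 : finrank F (Y ⊓ Fl a i : Submodule F V) ≤
              finrank F (Y ⊓ Fl a (g - y) : Submodule F V) :=
            Submodule.finrank_mono (inf_le_inf_left _ ((hFl a).2 _ _ hi (by omega)))
          have h4 : finrank F A ≤ finrank F (Y ⊓ Fl a i : Submodule F V) :=
            Submodule.finrank_mono (le_inf hAY ((hFl a).1 i (by omega)).1)
          rw [show Fl'' a i = Y ⊔ Fl a i from rfl]
          omega
        -- below
        have hbelow : ∀ W, Opp A Y Fl' W ↔ W < Y ∧ Opp A B Fl W ∧ good W := by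
          intro W
          constructor
          · rintro ⟨hAW, hWY, hW⟩
            have hw := rkA hAW.le
            have := rank_lt hAW
            have := rank_lt hWY
            have hidx' : finrank F Y - finrank F W = y - D W := by omega
            have hWp : ¬ p ≤ W := fun h => hpY (h.trans hWY.le)
            have e1 : ∀ a, W ⊔ Fl a (g - D W) = B := fun a => by
              have h := hW (Sum.inl a)
              simp only [hFl', Sum.elim_inl, hidx'] at h
              rw [show g - y + (y - D W) = g - D W by omega] at h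
              refine le_antisymm (sup_le (hWY.le.trans hYB) ((hFl a).1 _ (by omega)).2.1) ?_
              rw [← hYsup a (g - D W) (by omega) (by omega)]
              exact sup_le (h.ge.trans (sup_le_sup_left inf_le_right _)) le_sup_right
            refine ⟨hWY, ⟨hAW, hWY.trans_le hYB, fun a => by rw [hidx hAW.le]; exact e1 a⟩,
              Or.inr ?_⟩
            have hAWp : A ≤ W ⊔ p := hAW.le.trans le_sup_left
            have hd := hsupp hAW.le hWp
            have hr := rkA hAWp
            refine ⟨hAW.trans_le le_sup_left, lt_of_le_of_ne (sup_le (hWY.le.trans hYB) hpB)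
              fun e => by rw [hd, e, hgB] at hr; omega, fun a => ?_⟩
            rw [hidx hAWp, hd]
            have h := hW (Sum.inr a)
            simp only [hFl', Sum.elim_inr, hidx', if_neg (by omega : ¬ y - D W = 0)] at h
            rw [show g - y + (y - D W) - 1 = g - (D W + 1) by omega] at h
            refine le_antisymm (sup_le (sup_le (hWY.le.trans hYB) hpB)
              ((hFl a).1 _ (by omega)).2.1) ?_
            rw [← hYsup a (g - (D W + 1)) (by omega) (by omega)]
            refine sup_le (h.ge.trans ?_) le_sup_right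
            refine sup_le (le_sup_left.trans le_sup_left) (inf_le_right.trans ?_)
            exact sup_le le_sup_right (le_sup_right.trans le_sup_left)
          · rintro ⟨hWY, hW, hgd⟩
            have hWp : ¬ p ≤ W := fun h => hpY (h.trans hWY.le)
            have hWpT : Opp A B Fl (W ⊔ p) := hgd.resolve_left hWp
            have hAW := hW.1.le
            have hw := rkA hAW
            have := rank_lt hW.1
            have := rank_lt hWY
            have hidx' : finrank F Y - finrank F W = y - D W := by omega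
            refine ⟨hW.1, hWY, ?_⟩
            rintro (a | a)
            · simp only [hFl', Sum.elim_inl, hidx']
              rw [show g - y + (y - D W) = g - D W by omega, sup_comm, inf_sup_assoc_of_le _ hWY.le,
                sup_comm]
              have h := hW.2.2 a
              rw [hidx hAW] at h
              rw [h, inf_eq_left.2 hYB]
            · simp only [hFl', Sum.elim_inr, hidx', if_neg (by omega : ¬ y - D W = 0)]
              rw [show g - y + (y - D W) - 1 = g - (D W + 1) by omega, sup_comm,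
                inf_sup_assoc_of_le _ hWY.le, sup_comm]
              have h := hWpT.2.2 a
              rw [hidx (hAW.trans le_sup_left), hsupp hAW hWp] at h
              rw [sup_assoc] at h
              rw [sup_comm (Fl a _) p, h, inf_eq_left.2 hYB]
        have habove : ∀ Z, Opp Y B Fl'' Z ↔ Y < Z ∧ Opp A B Fl Z := by
          intro Z
          refine ⟨fun h => ⟨h.1, hY.1.trans h.1, h.2.1, fun a => ?_⟩,
            fun h => ⟨h.1, h.2.2.1, fun a => ?_⟩⟩
          · refine Eq.trans ?_ (h.2.2 a)
            simp only [hFl'']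
            rw [← sup_assoc, sup_eq_left.2 h.1.le]
          · simp only [hFl'']
            rw [← sup_assoc, sup_eq_left.2 h.1.le]
            exact h.2.2.2 a
        have hqι : Fintype.card (ι ⊕ ι) * 2 ^ y ≤ Fintype.card F := by
          rw [Fintype.card_sum, ← two_mul, mul_comm 2, mul_assoc, ← pow_succ']
          exact (Nat.mul_le_mul_left _ (Nat.pow_le_pow_right (by norm_num) (by omega))).trans hq
        have hqι' : Fintype.card ι * 2 ^ (g - y) ≤ Fintype.card F :=
          (Nat.mul_le_mul_left _ (Nat.pow_le_pow_right (by norm_num) (by omega))).trans hq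
        have f1 := hfill y hy F V A Y hAY rkY (ι ⊕ ι) Fl' hflag' hqι
        have f2 := hfill (g - y) (by omega) F V Y B hYB (by omega) ι Fl'' hflag'' hqι'
        change Fill _ _ (Θ (g - (j + 1)))
        rw [hyj]
        refine fill_congr (fun ρ => ?_)
          (hjoin y hy1 hy (fun Z => Z < Y)
            (KA := OppFace A Y Fl') (KB := OppFace Y B Fl'')
            (fun ρ h Z hZ => (h.1 Z hZ).2.1) (fun τ h Z hZ => ((h.1 Z hZ).1).asymm)
            (fun ρ τ h s => ⟨fun Z hZ => h.1 Z (s hZ), fun Z hZ W hW => h.2 Z (s hZ) W (s hW)⟩)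
            (fun ρ τ h s => ⟨fun Z hZ => h.1 Z (s hZ), fun Z hZ W hW => h.2 Z (s hZ) W (s hW)⟩)
            f1 f2)
        simp only [JoinK, OppFace, sA, sB, mem_filter, hbelow, habove, hKB, forall_mem_insert]
        constructor
        · rintro ⟨⟨hA1, hA2⟩, ⟨hB1, hB2⟩⟩
          have hcases : ∀ Z ∈ ρ, (Z < Y ∧ Opp A B Fl Z ∧ good Z) ∨ (Y < Z ∧ Opp A B Fl Z) :=
            fun Z hZ => (em (Z < Y)).imp (fun h => hA1 Z ⟨hZ, h⟩) (fun h => hB1 Z ⟨hZ, h⟩)
          refine ⟨fun hρ => ?_, ⟨⟨hY, fun Z hZ => (hcases Z hZ).elim (·.2.1) (·.2)⟩,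
            ⟨Or.inl le_rfl, fun Z hZ => (hcases Z hZ).elim (fun h => Or.inr h.1.le) fun h => Or.inl h.1.le⟩,
            fun Z hZ => ⟨(hcases Z hZ).elim (fun h => Or.inl h.1.le) fun h => Or.inr h.1.le,
              fun W hW => ?_⟩⟩, Or.inr (by omega), fun Z hZ => ?_⟩
          · rcases hcases Y hρ with h | h <;> exact lt_irrefl _ h.1
          · by_cases h : Z < Y <;> by_cases h' : W < Y
            · exact hA2 Z ⟨hZ, h⟩ W ⟨hW, h'⟩
            · exact Or.inl (h.le.trans (hB1 W ⟨hW, h'⟩).1.le)
            · exact Or.inr (h'.le.trans (hB1 Z ⟨hZ, h⟩).1.le)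
            · exact hB2 Z ⟨hZ, h⟩ W ⟨hW, h'⟩
          · rcases hcases Z hZ with h | h
            · exact Or.inl h.2.2
            · refine Or.inr ?_
              have := rank_lt h.1
              have := rkA h.2.1.le
              omega
        · rintro ⟨hYρ, ⟨⟨-, h1⟩, ⟨hYc, hc⟩⟩, -, h3⟩
          refine ⟨⟨fun Z hZ => ?_, fun Z hZ W hW => (hc Z hZ.1).2 W hW.1⟩,
            ⟨fun Z hZ => ?_, fun Z hZ W hW => (hc Z hZ.1).2 W hW.1⟩⟩
          · refine ⟨hZ.2, h1 Z hZ.1, (h3 Z hZ.1).resolve_right fun h => ?_⟩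
            have := rank_lt hZ.2
            have := rkA (h1 Z hZ.1).1.le
            omega
          · refine ⟨lt_of_le_of_ne ?_ fun e => hYρ (e ▸ hZ.1), h1 Z hZ.1⟩
            exact ((hc Z hZ.1).1).resolve_left fun h =>
              hZ.2 (lt_of_le_of_ne h fun e => hYρ (e ▸ hZ.1))
  refine fill_congr (fun σ => ⟨fun h => h.1, fun h => ⟨h, fun Y hY => Or.inr ?_⟩⟩) (hBad g)
  omega

end Vale.P067.Link
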