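import Vale.Agent.P067.Link.Hyp
import Vale.Agent.P067.Link.Opp

/-!
# Coordinates for the opposition complex of one flag in dimension three
-/

namespace Vale.P067.Link

open Finset Module

variable {F : Type} [Field F]

/-- A line in general position. -/
noncomputable def lineP (p : F × F) : Submodule F (Fin 3 → F) := F ∙ ![p.1, p.2, 1]

/-- A plane in general position. -/
noncomputable def planeP (p : F × F) : Submodule F (Fin 3 → F) :=
  (LinearMap.proj 0 - p.1 • LinearMap.proj 1 - p.2 • LinearMap.proj 2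
    : (Fin 3 → F) →ₗ[F] F).ker

lemma mem_planeP (p : F × F) (v : Fin 3 → F) :
    v ∈ planeP p ↔ v 0 - p.1 * v 1 - p.2 * v 2 = 0 := by
  simp [planeP, LinearMap.mem_ker]

lemma finrank_lineP (p : F × F) : finrank F (lineP p) = 1 :=
  finrank_span_singleton fun h => by simpa using congrFun h 2

lemma finrank_planeP (p : F × F) : finrank F (planeP p) = 2 := by
  have h := LinearMap.finrank_range_add_finrank_ker
    (LinearMap.proj 0 - p.1 • LinearMap.proj 1 - p.2 • LinearMap.proj 2 : (Fin 3 → F) →ₗ[F] F)
  have hs : LinearMap.range (LinearMap.proj 0 - p.1 • LinearMap.proj 1 - p.2 • LinearMap.proj 2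
      : (Fin 3 → F) →ₗ[F] F) = ⊤ :=
    LinearMap.range_eq_top.2 fun c => ⟨![c, 0, 0], by simp⟩
  rw [hs, finrank_top, Module.finrank_self, Module.finrank_fin_fun] at h
  unfold planeP
  omega

lemma lineP_le_planeP (p r : F × F) : lineP p ≤ planeP r ↔ p.1 = r.1 * p.2 + r.2 := by
  rw [lineP, Submodule.span_singleton_le_iff_mem, mem_planeP]
  simp only [Matrix.cons_val_zero, Matrix.cons_val_one, Matrix.cons_val, mul_one]
  constructor <;> intro h
  · linear_combination h
  · linear_combination h

/-- Coordinates adapted to a flag. -/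
lemma exists_coords {V : Type} [AddCommGroup V] [Module F V] [FiniteDimensional F V]
    (hV : finrank F V = 3) {G : ℕ → Submodule F V} (hG : IsFlag (⊥ : Submodule F V) ⊤ 3 G) :
    ∃ φ : (Fin 3 → F) ≃ₗ[F] V, (G 1).comap φ.toLinearMap = F ∙ ![1, 0, 0] ∧
      (G 2).comap φ.toLinearMap = (LinearMap.proj 2 : (Fin 3 → F) →ₗ[F] F).ker := by
  have hr : ∀ k ≤ 3, finrank F (G k) = k := fun k hk => by
    simpa using ((hG.1 k hk).2.2)
  obtain ⟨e0, h0, h0'⟩ := SetLike.exists_of_lt (show ⊥ < G 1 from bot_lt_iff_ne_bot.2 fun h => by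
    have := hr 1 (by omega); rw [h, finrank_bot] at this; omega)
  have h12 : G 1 < G 2 := lt_of_le_of_ne (hG.2 1 2 (by omega) (by omega)) fun h => by
    have := hr 2 (by omega); rw [← h, hr 1 (by omega)] at this; omega
  obtain ⟨e1, h1, h1'⟩ := SetLike.exists_of_lt h12
  obtain ⟨e2, -, h2'⟩ := SetLike.exists_of_lt (show G 2 < ⊤ from lt_top_iff_ne_top.2 fun h => by
    have := hr 2 (by omega); rw [h, finrank_top, hV] at this; omega)
  have h0ne : e0 ≠ 0 := fun h => h0' (by simp [h])
  let ψ : (Fin 3 → F) →ₗ[F] V := Fintype.linearCombination F ![e0, e1, e2]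
  have hψ : ∀ v, ψ v = v 0 • e0 + v 1 • e1 + v 2 • e2 := fun v => by
    simp [ψ, Fintype.linearCombination_apply, Fin.sum_univ_three]
  have hmem2 : ∀ v : Fin 3 → F, ψ v ∈ G 2 ↔ v 2 = 0 := by
    intro v
    rw [hψ]
    have hlow : v 0 • e0 + v 1 • e1 ∈ G 2 :=
      add_mem (Submodule.smul_mem _ _ (h12.le h0)) (Submodule.smul_mem _ _ h1)
    rw [Submodule.add_mem_iff_right _ hlow]
    refine ⟨fun h => ?_, fun h => by rw [h, zero_smul]; exact zero_mem _⟩
    by_contra hne
    exact h2' ((Submodule.smul_mem_iff _ hne).1 h)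
  have hmem1 : ∀ v : Fin 3 → F, ψ v ∈ G 1 ↔ v 2 = 0 ∧ v 1 = 0 := by
    intro v
    refine ⟨fun h => ?_, fun h => ?_⟩
    · have h2 : v 2 = 0 := (hmem2 v).1 (h12.le h)
      refine ⟨h2, ?_⟩
      rw [hψ, h2, zero_smul, add_zero, Submodule.add_mem_iff_right _ (Submodule.smul_mem _ _ h0)] at h
      by_contra hne
      exact h1' ((Submodule.smul_mem_iff _ hne).1 h)
    · rw [hψ, h.1, h.2, zero_smul, zero_smul, add_zero, add_zero]
      exact Submodule.smul_mem _ _ h0
  have hinj : Function.Injective ψ := by
    rw [← LinearMap.ker_eq_bot, Submodule.eq_bot_iff]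
    intro v hv
    rw [LinearMap.mem_ker] at hv
    obtain ⟨h2, h1⟩ := (hmem1 v).1 (hv ▸ zero_mem _)
    rw [hψ, h2, h1, zero_smul, zero_smul, add_zero, add_zero, smul_eq_zero] at hv
    funext i
    fin_cases i
    exacts [hv.resolve_right h0ne, h1, h2]
  refine ⟨LinearEquiv.ofInjectiveOfFinrankEq ψ hinj (by rw [hV, Module.finrank_fin_fun]), ?_, ?_⟩
  · ext v
    rw [Submodule.mem_comap, Submodule.mem_span_singleton]
    show ψ v ∈ G 1 ↔ _
    rw [hmem1]
    constructor
    · rintro ⟨h2, h1⟩
      exact ⟨v 0, by funext i; fin_cases i <;> simp [h1, h2]⟩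
    · rintro ⟨c, rfl⟩
      simp
  · ext v
    rw [Submodule.mem_comap, LinearMap.mem_ker]
    exact hmem2 v

/-- The opposite subspaces in coordinates. -/
lemma opp3_iff {V : Type} [AddCommGroup V] [Module F V] [FiniteDimensional F V]
    (hV : finrank F V = 3) {G : ℕ → Submodule F V} (φ : (Fin 3 → F) ≃ₗ[F] V)
    (h1 : (G 1).comap φ.toLinearMap = F ∙ ![1, 0, 0])
    (h2 : (G 2).comap φ.toLinearMap = (LinearMap.proj 2 : (Fin 3 → F) →ₗ[F] F).ker)
    (U : Submodule F (Fin 3 → F)) :
    Opp (⊥ : Submodule F V) ⊤ (fun _ : Unit => G) (U.map φ.toLinearMap) ↔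
      (∃ p, U = lineP p) ∨ ∃ p, U = planeP p := by
  have hrk : finrank F (U.map φ.toLinearMap) = finrank F U :=
    (Submodule.equivMapOfInjective _ φ.injective U).finrank_eq.symm
  have hsup : ∀ k, U.map φ.toLinearMap ⊔ G k = ⊤ ↔ U ⊔ (G k).comap φ.toLinearMap = ⊤ := by
    intro k
    have e : U.map φ.toLinearMap ⊔ G k = (U ⊔ (G k).comap φ.toLinearMap).map φ.toLinearMap := by
      rw [Submodule.map_sup, Submodule.map_comap_eq_of_surjective φ.surjective]
    rw [e]
    refine ⟨fun h => ?_, fun h => ?_⟩
    · refine Submodule.map_injective_of_injective φ.injective ?_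
      rw [h, Submodule.map_top, LinearMap.range_eq_top.2 φ.surjective]
    · rw [h, Submodule.map_top, LinearMap.range_eq_top.2 φ.surjective]
  have h3 : finrank F (Fin 3 → F) = 3 := Module.finrank_fin_fun F
  have hF2 : finrank F (LinearMap.proj 2 : (Fin 3 → F) →ₗ[F] F).ker = 2 := by
    have h := LinearMap.finrank_range_add_finrank_ker (LinearMap.proj 2 : (Fin 3 → F) →ₗ[F] F)
    rw [LinearMap.range_eq_top.2 (fun c => ⟨![0, 0, c], by simp⟩), finrank_top,
      Module.finrank_self, h3] at h
    omega
  have hF1 : finrank F (F ∙ ![(1 : F), 0, 0]) = 1 :=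
    finrank_span_singleton fun h => by simpa using congrFun h 0
  constructor
  · rintro ⟨hb, ht, hop⟩
    have hlt : 0 < finrank F U ∧ finrank F U < 3 := by
      have a := Submodule.finrank_lt_finrank_of_lt hb
      have b := Submodule.finrank_lt_finrank_of_lt ht
      rw [finrank_bot] at a
      rw [finrank_top, hV] at b
      omega
    have hop' := hop ()
    rw [finrank_top, hV, hrk] at hop'
    obtain hd | hd : finrank F U = 1 ∨ finrank F U = 2 := by omega
    · rw [hd, show 3 - 1 = 2 from rfl, hsup, h2] at hop'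
      obtain ⟨u, hu, hu2⟩ : ∃ u ∈ U, u 2 ≠ 0 := by
        by_contra h
        push Not at h
        have hle : U ≤ (LinearMap.proj 2 : (Fin 3 → F) →ₗ[F] F).ker := fun u hu =>
          LinearMap.mem_ker.2 (h u hu)
        rw [sup_eq_right.2 hle] at hop'
        rw [hop', finrank_top, h3] at hF2
        omega
      refine Or.inl ⟨(u 0 / u 2, u 1 / u 2), (Submodule.eq_of_le_of_finrank_le ?_ ?_).symm⟩
      · rw [lineP, Submodule.span_singleton_le_iff_mem]
        have e : ![u 0 / u 2, u 1 / u 2, 1] = (u 2)⁻¹ • u := by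
          funext i; fin_cases i <;> simp [hu2, div_eq_inv_mul]
        rw [e]
        exact U.smul_mem _ hu
      · rw [hd, finrank_lineP]
    · rw [hd, show 3 - 2 = 1 from rfl, hsup, h1] at hop'
      have he : ![(1 : F), 0, 0] ∉ U := fun h => by
        rw [sup_eq_left.2 ((Submodule.span_singleton_le_iff_mem _ _).2 h)] at hop'
        rw [hop', finrank_top, h3] at hd
        omega
      let π : U →ₗ[F] (Fin 2 → F) :=
        (LinearMap.pi ![LinearMap.proj 1, LinearMap.proj 2]).comp U.subtype
      have hπ : Function.Injective π := by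
        rw [← LinearMap.ker_eq_bot, Submodule.eq_bot_iff]
        rintro ⟨v, hv⟩ hv0
        rw [LinearMap.mem_ker] at hv0
        have a := congrFun hv0 0
        have b := congrFun hv0 1
        simp [π] at a b
        by_contra hne
        have hv0 : v 0 ≠ 0 := fun h => hne (Subtype.ext (by
          funext i; fin_cases i <;> simp [h, a, b]))
        refine he ?_
        have e : ![(1 : F), 0, 0] = (v 0)⁻¹ • v := by
          funext i; fin_cases i <;> simp [hv0, a, b]
        rw [e]
        exact U.smul_mem _ hv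
      have hs : Function.Surjective π :=
        (LinearMap.injective_iff_surjective_of_finrank_eq_finrank
          (by rw [hd, Module.finrank_fin_fun])).1 hπ
      obtain ⟨⟨u, hu⟩, hu'⟩ := hs ![1, 0]
      obtain ⟨⟨w, hw⟩, hw'⟩ := hs ![0, 1]
      have u1 := congrFun hu' 0
      have u2 := congrFun hu' 1
      have w1 := congrFun hw' 0
      have w2 := congrFun hw' 1
      simp [π] at u1 u2 w1 w2
      refine Or.inr ⟨(u 0, w 0), (Submodule.eq_of_le_of_finrank_le (fun v hv => ?_) ?_).symm⟩
      · rw [mem_planeP] at hv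
        have e : v = v 1 • u + v 2 • w := by
          funext i
          fin_cases i
          · simp; linear_combination hv
          · simp [u1, w1]
          · simp [u2, w2]
        rw [e]
        exact add_mem (U.smul_mem _ hu) (U.smul_mem _ hw)
      · rw [hd, finrank_planeP]
  · rintro (⟨p, rfl⟩ | ⟨p, rfl⟩)
    · refine ⟨bot_lt_iff_ne_bot.2 fun h => ?_, lt_top_iff_ne_top.2 fun h => ?_, fun _ => ?_⟩
      · rw [h, finrank_bot, finrank_lineP] at hrk; omega
      · rw [h, finrank_top, hV, finrank_lineP] at hrk; omega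
      · rw [finrank_top, hV, hrk, finrank_lineP, show 3 - 1 = 2 from rfl, hsup, h2]
        refine Submodule.eq_top_of_finrank_eq ?_
        have hle := Submodule.finrank_le
          (lineP p ⊔ (LinearMap.proj 2 : (Fin 3 → F) →ₗ[F] F).ker)
        have hlt : (LinearMap.proj 2 : (Fin 3 → F) →ₗ[F] F).ker <
            lineP p ⊔ (LinearMap.proj 2 : (Fin 3 → F) →ₗ[F] F).ker :=
          right_lt_sup.2 fun h => by
            have := h (Submodule.mem_span_singleton_self _)
            simp [LinearMap.mem_ker] at this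
        have := Submodule.finrank_lt_finrank_of_lt hlt
        omega
    · refine ⟨bot_lt_iff_ne_bot.2 fun h => ?_, lt_top_iff_ne_top.2 fun h => ?_, fun _ => ?_⟩
      · rw [h, finrank_bot, finrank_planeP] at hrk; omega
      · rw [h, finrank_top, hV, finrank_planeP] at hrk; omega
      · rw [finrank_top, hV, hrk, finrank_planeP, show 3 - 2 = 1 from rfl, hsup, h1]
        refine Submodule.eq_top_of_finrank_eq ?_
        have hle := Submodule.finrank_le (planeP p ⊔ F ∙ ![(1 : F), 0, 0])
        have hlt : planeP p < planeP p ⊔ F ∙ ![(1 : F), 0, 0] := left_lt_sup.2 fun h => by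
          have := h (Submodule.mem_span_singleton_self _)
          rw [mem_planeP] at this
          simp at this
        have := Submodule.finrank_lt_finrank_of_lt hlt
        rw [finrank_planeP] at this
        omega

end Vale.P067.Link
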