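import Mathlib

/-!
# Chains with bounded fillings

Chains modulo two on finite vertex sets; `Fill K m Φ` says that every cycle of `K` with faces of
fewer than `m` vertices bounds a chain whose size is at most `Φ` of the size of the cycle.
-/

namespace Vale.P067.Link

open Finset

set_option linter.unusedSectionVars false

variable {V : Type} [DecidableEq V]

/-- Chains modulo two, in all sizes at once. -/
abbrev Chn (V : Type) := Finset V →₀ ZMod 2

lemma ch_add_self (z : Chn V) : z + z = 0 := by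
  ext σ; exact CharTwo.add_self_eq_zero _

lemma ch_eq_of_add {a b : Chn V} (h : a + b = 0) : a = b := by
  calc a = a + (b + b) := by rw [ch_add_self, add_zero]
    _ = b := by rw [← add_assoc, h, zero_add]

lemma single_eq_smul (σ : Finset V) (c : ZMod 2) :
    (Finsupp.single σ c : Chn V) = c • Finsupp.single σ 1 := by simp

/-- The linear map with prescribed values on faces. -/
noncomputable def lift (f : Finset V → Chn V) : Chn V →ₗ[ZMod 2] Chn V :=
  Finsupp.linearCombination (ZMod 2) f

@[simp] lemma lift_single (f : Finset V → Chn V) (σ : Finset V) :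
    lift f (Finsupp.single σ 1) = f σ := by
  simp [lift]

lemma lift_ext {f g : Chn V →ₗ[ZMod 2] Chn V}
    (h : ∀ σ, f (Finsupp.single σ 1) = g (Finsupp.single σ 1)) (z : Chn V) : f z = g z := by
  have : f = g := Finsupp.lhom_ext fun σ c => by rw [single_eq_smul, map_smul, map_smul, h σ]
  rw [this]

/-- The boundary. -/
noncomputable def bdC : Chn V →ₗ[ZMod 2] Chn V :=
  lift fun σ => ∑ x ∈ σ, Finsupp.single (σ.erase x) 1

@[simp] lemma bdC_single (σ : Finset V) :
    bdC (Finsupp.single σ 1) = ∑ x ∈ σ, Finsupp.single (σ.erase x) (1 : ZMod 2) := lift_single _ σ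

/-- The chains supported on the faces of `K` with `k` vertices. -/
noncomputable def chains (K : Finset V → Prop) (k : ℕ) : Submodule (ZMod 2) (Chn V) :=
  Finsupp.supported (ZMod 2) (ZMod 2) {σ | σ.card = k ∧ K σ}

lemma mem_chains {K : Finset V → Prop} {k : ℕ} {z : Chn V} :
    z ∈ chains K k ↔ ∀ σ ∈ z.support, σ.card = k ∧ K σ := by
  simp [chains, Finsupp.mem_supported, Set.subset_def]

lemma chains_mono {K L : Finset V → Prop} {k : ℕ} (h : ∀ σ, K σ → L σ) {z : Chn V}
    (hz : z ∈ chains K k) : z ∈ chains L k :=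
  mem_chains.2 fun σ hσ => ⟨(mem_chains.1 hz σ hσ).1, h σ (mem_chains.1 hz σ hσ).2⟩

lemma single_mem {K : Finset V → Prop} {σ : Finset V} (h : K σ) :
    (Finsupp.single σ 1 : Chn V) ∈ chains K σ.card :=
  Finsupp.single_mem_supported (ZMod 2) 1 ⟨rfl, h⟩

/-- A linear map given on faces maps chains to chains. -/
lemma lift_mem {K : Finset V → Prop} {k : ℕ} {S : Submodule (ZMod 2) (Chn V)}
    {f : Finset V → Chn V} (h : ∀ σ : Finset V, σ.card = k → K σ → f σ ∈ S) {z : Chn V}
    (hz : z ∈ chains K k) : lift f z ∈ S := by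
  rw [lift, Finsupp.linearCombination_apply]
  refine Submodule.sum_mem _ fun σ hσ => Submodule.smul_mem _ _ ?_
  exact h σ (mem_chains.1 hz σ hσ).1 (mem_chains.1 hz σ hσ).2

/-- The size of a chain. -/
def size (z : Chn V) : ℕ := z.support.card

lemma size_add (a b : Chn V) : size (a + b) ≤ size a + size b :=
  (card_le_card Finsupp.support_add).trans (card_union_le _ _)

lemma size_sum {ι : Type*} (s : Finset ι) (f : ι → Chn V) :
    size (∑ i ∈ s, f i) ≤ ∑ i ∈ s, size (f i) := by
  classical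
  induction s using Finset.induction_on with
  | empty => simp [size]
  | insert a s ha ih =>
    rw [sum_insert ha, sum_insert ha]
    exact (size_add _ _).trans (Nat.add_le_add_left ih _)

lemma size_smul (c : ZMod 2) (a : Chn V) : size (c • a) ≤ size a :=
  card_le_card Finsupp.support_smul

lemma size_single_le (σ : Finset V) : size (Finsupp.single σ (1 : ZMod 2)) ≤ 1 :=
  (card_le_card Finsupp.support_single_subset).trans (by simp)

lemma size_lift (f : Finset V → Chn V) (n : ℕ) (z : Chn V) (h : ∀ σ ∈ z.support, size (f σ) ≤ n) :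
    size (lift f z) ≤ size z * n := by
  rw [lift, Finsupp.linearCombination_apply]
  refine (size_sum _ _).trans ?_
  refine (Finset.sum_le_card_nsmul _ _ n fun σ hσ => (size_smul _ _).trans (h σ hσ)).trans ?_
  simp [size]

/-- Every cycle with fewer than `m` vertices in each face bounds a small chain. -/
def Fill (K : Finset V → Prop) (m : ℕ) (Φ : ℕ → ℕ) : Prop :=
  ∀ k < m, ∀ z ∈ chains K k, bdC z = 0 → ∃ w ∈ chains K (k + 1), bdC w = z ∧ size w ≤ Φ (size z)

lemma Fill.mono {K : Finset V → Prop} {m : ℕ} {Φ Ψ : ℕ → ℕ} (h : Fill K m Φ)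
    (hΦ : ∀ c, Φ c ≤ Ψ c) : Fill K m Ψ := fun k hk z hz hb => by
  obtain ⟨w, hw, e, hs⟩ := h k hk z hz hb
  exact ⟨w, hw, e, hs.trans (hΦ _)⟩

lemma Fill.mono_range {K : Finset V → Prop} {m m' : ℕ} {Φ : ℕ → ℕ} (h : Fill K m Φ)
    (hm : m' ≤ m) : Fill K m' Φ := fun k hk => h k (hk.trans_le hm)

/-- The cone on a vertex. -/
noncomputable def coneC (p : V) : Chn V →ₗ[ZMod 2] Chn V :=
  lift fun σ => if p ∈ σ then 0 else Finsupp.single (insert p σ) 1

lemma bdC_coneC (p : V) (z : Chn V) : bdC (coneC p z) + coneC p (bdC z) = z := by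
  refine lift_ext (f := bdC.comp (coneC p) + (coneC p).comp bdC) (g := LinearMap.id)
    (fun σ => ?_) z
  simp only [LinearMap.add_apply, LinearMap.comp_apply, coneC, lift_single, bdC_single, map_sum,
    LinearMap.id_apply]
  by_cases hp : p ∈ σ
  · rw [if_pos hp, map_zero, zero_add, Finset.sum_eq_single_of_mem p hp]
    · simp [insert_erase hp]
    · intro x _ hx
      simp [mem_erase, hp, Ne.symm hx]
  · rw [if_neg hp, bdC_single, sum_insert hp, erase_insert hp, add_assoc, ← sum_add_distrib]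
    rw [Finset.sum_eq_zero, add_zero]
    intro x hx
    have hne : p ≠ x := fun h => hp (h ▸ hx)
    rw [if_neg (by simp [hp]), Finset.erase_insert_of_ne hne, ch_add_self]

lemma bdC_bdC (z : Chn V) : bdC (bdC z) = 0 := by
  suffices h : ∀ σ : Finset V, (bdC.comp bdC) (Finsupp.single σ 1) = (0 : Chn V →ₗ[ZMod 2] Chn V)
      (Finsupp.single σ 1) by
    rw [← LinearMap.comp_apply, lift_ext h z, LinearMap.zero_apply]
  intro σ
  simp only [LinearMap.comp_apply, LinearMap.zero_apply]
  induction σ using Finset.induction_on with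
  | empty => simp
  | insert p σ hp ih =>
    have h1 := bdC_coneC p (Finsupp.single σ 1)
    rw [coneC, lift_single, if_neg hp, ← coneC] at h1
    have h2 := bdC_coneC p (bdC (Finsupp.single σ 1))
    rw [ih, map_zero, add_zero] at h2
    have h3 : bdC (Finsupp.single (insert p σ) 1)
        = Finsupp.single σ 1 + coneC p (bdC (Finsupp.single σ 1)) := by
      conv_rhs => arg 1; rw [← h1]
      rw [add_assoc, ch_add_self, add_zero]
    rw [h3, map_add, h2, ch_add_self]

/-- A cone fills every cycle. -/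
lemma fill_cone {K : Finset V → Prop} (p : V) (hp : ∀ σ, K σ → K (insert p σ)) (m : ℕ) :
    Fill K m id := by
  intro k _ z hz hb
  refine ⟨coneC p z, lift_mem (fun σ hk hK => ?_) hz, ?_, ?_⟩
  · split_ifs with h
    · exact zero_mem _
    · have := single_mem (hp σ hK)
      rwa [card_insert_of_notMem h, hk] at this
  · have := bdC_coneC p z
    rwa [hb, map_zero, add_zero] at this
  · simpa [coneC] using size_lift (fun σ => if p ∈ σ then 0 else Finsupp.single (insert p σ) 1) 1 z
      (fun σ _ => by split_ifs <;> simp [size])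

/-- The part of a chain through a vertex, with the vertex removed. -/
noncomputable def pickC (p : V) : Chn V →ₗ[ZMod 2] Chn V :=
  lift fun σ => if p ∈ σ then Finsupp.single (σ.erase p) 1 else 0

lemma bdC_pickC (p : V) (z : Chn V) : bdC (pickC p z) = pickC p (bdC z) := by
  refine lift_ext (f := bdC.comp (pickC p)) (g := (pickC p).comp bdC) (fun σ => ?_) z
  simp only [LinearMap.comp_apply, pickC, lift_single, bdC_single, map_sum]
  by_cases hp : p ∈ σ
  · rw [if_pos hp, bdC_single, ← Finset.add_sum_erase σ _ hp]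
    rw [if_neg (notMem_erase p σ), zero_add]
    refine sum_congr rfl fun x hx => ?_
    rw [if_pos (mem_erase.2 ⟨(mem_erase.1 hx).1.symm, hp⟩), Finset.erase_right_comm]
  · rw [if_neg hp, map_zero, Finset.sum_eq_zero]
    intro x _
    simp [hp]

/-- The size bound of the relative step. -/
def relBound (m : ℕ) (Φ₀ Ψ : ℕ → ℕ) (c : ℕ) : ℕ :=
  m * c * Ψ c + Φ₀ (c + m * c * Ψ c)

/-- Adding vertices, no two of them in a common face, whose links fill one size lower. -/
theorem fill_add_vertices {K K₀ : Finset V → Prop} (B : V → Prop) {m : ℕ} {Φ₀ Ψ : ℕ → ℕ}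
    (hΦ₀ : Monotone Φ₀) (hΨ : Monotone Ψ)
    (hsub : ∀ σ, K₀ σ → K σ)
    (hone : ∀ σ, K σ → ∀ x ∈ σ, B x → ∀ y ∈ σ, B y → x = y)
    (hrest : ∀ σ, K σ → (∀ x ∈ σ, ¬ B x) → K₀ σ)
    (hdown : ∀ σ τ, K σ → τ ⊆ σ → K τ)
    (h₀ : Fill K₀ m Φ₀)
    (hlk : ∀ x, B x → Fill (fun ρ => x ∉ ρ ∧ K (insert x ρ)) (m - 1) Ψ) :
    Fill K m (relBound m Φ₀ Ψ) := by
  classical
  intro k hk z hz hb
  have hzσ := mem_chains.1 hz
  set X : Finset V := (z.support.biUnion id).filter B with hX
  have hXc : X.card ≤ k * size z := by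
    refine (card_filter_le _ _).trans (card_biUnion_le.trans ?_)
    refine (Finset.sum_le_card_nsmul _ _ k fun σ hσ => (hzσ σ hσ).1.le).trans ?_
    simp [size, mul_comm]
  have hslice : ∀ x ∈ X, pickC x z ∈ chains (fun ρ => x ∉ ρ ∧ K (insert x ρ)) (k - 1) := by
    intro x _
    refine lift_mem (fun σ hc hK => ?_) hz
    split_ifs with h
    · have := single_mem (K := fun ρ => x ∉ ρ ∧ K (insert x ρ)) (σ := σ.erase x)
        ⟨notMem_erase x σ, by rwa [insert_erase h]⟩
      rwa [card_erase_of_mem h, hc] at this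
    · exact zero_mem _
  have hfill : ∀ x ∈ X, ∃ w ∈ chains (fun ρ => x ∉ ρ ∧ K (insert x ρ)) k,
      bdC w = pickC x z ∧ size w ≤ Ψ (size z) := by
    intro x hx
    obtain ⟨hxz, hBx⟩ := mem_filter.1 hx
    obtain ⟨σ, hσ, hxσ⟩ := mem_biUnion.1 hxz
    have hk1 : 1 ≤ k := (hzσ σ hσ).1 ▸ card_pos.2 ⟨x, hxσ⟩
    obtain ⟨w, hw, e, hs⟩ := hlk x hBx (k - 1) (by omega) _ (hslice x hx)
      (by rw [bdC_pickC, hb, map_zero])
    refine ⟨w, by rwa [Nat.sub_add_cancel hk1] at hw, e, hs.trans (hΨ ?_)⟩
    simpa [pickC] using size_lift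
      (fun σ => if x ∈ σ then Finsupp.single (σ.erase x) 1 else 0) 1 z
      (fun σ _ => by split_ifs <;> simp [size])
  choose w hw hwb hws using hfill
  set W : Chn V := ∑ x ∈ X.attach, coneC x.1 (w x.1 x.2) with hW
  have hWK : W ∈ chains K (k + 1) := by
    refine Submodule.sum_mem _ fun x _ => lift_mem (fun σ hc hσ => ?_) (hw x.1 x.2)
    rw [if_neg hσ.1]
    have := single_mem (K := K) (σ := insert x.1 σ) hσ.2
    rwa [card_insert_of_notMem hσ.1, hc] at this
  have hWs : size W ≤ m * size z * Ψ (size z) := by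
    refine (size_sum _ _).trans ((Finset.sum_le_card_nsmul _ _ (Ψ (size z)) fun x _ => ?_).trans ?_)
    · refine le_trans ?_ (hws x.1 x.2)
      simpa [coneC] using size_lift
        (fun σ => if x.1 ∈ σ then 0 else Finsupp.single (insert x.1 σ) 1) 1 (w x.1 x.2)
        (fun σ _ => by split_ifs <;> simp [size])
    · rw [card_attach, smul_eq_mul]
      exact Nat.mul_le_mul_right _ (hXc.trans (Nat.mul_le_mul_right _ hk.le))
  set R : Chn V := ∑ x ∈ X.attach, w x.1 x.2 with hR
  have hRK : R ∈ chains K₀ k := by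
    refine Submodule.sum_mem _ fun x _ => chains_mono (fun σ hσ => ?_) (hw x.1 x.2)
    refine hrest σ (hdown _ _ hσ.2 (subset_insert _ _)) fun y hy hBy => hσ.1 ?_
    have := hone _ hσ.2 x.1 (mem_insert_self _ _) (mem_filter.1 x.2).2 y (mem_insert_of_mem hy) hBy
    exact this ▸ hy
  have hRs : size R ≤ m * size z * Ψ (size z) := by
    refine (size_sum _ _).trans ((Finset.sum_le_card_nsmul _ _ _ fun x _ => hws x.1 x.2).trans ?_)
    rw [card_attach, smul_eq_mul]
    exact Nat.mul_le_mul_right _ (hXc.trans (Nat.mul_le_mul_right _ hk.le))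
  set z₀ : Chn V := z.filter fun σ => ∀ x ∈ σ, ¬ B x with hz₀
  have hz₀K : z₀ ∈ chains K₀ k := by
    refine mem_chains.2 fun σ hσ => ?_
    rw [hz₀, Finsupp.support_filter, mem_filter] at hσ
    exact ⟨(hzσ σ hσ.1).1, hrest σ (hzσ σ hσ.1).2 hσ.2⟩
  have hsplit : z = z₀ + ∑ x ∈ X, coneC x (pickC x z) := by
    conv_lhs => rw [← z.sum_single]
    rw [hz₀, Finsupp.filter_eq_sum, sum_filter, Finsupp.sum]
    have e : ∀ x, coneC x (pickC x z)
        = ∑ σ ∈ z.support, z σ • coneC x (pickC x (Finsupp.single σ 1)) := by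
      intro x
      conv_lhs => rw [← z.sum_single, Finsupp.sum, map_sum, map_sum]
      exact sum_congr rfl fun σ _ => by rw [single_eq_smul, map_smul, map_smul]
    simp only [e]
    rw [sum_comm, ← sum_add_distrib]
    refine sum_congr rfl fun σ hσ => ?_
    by_cases h : ∀ x ∈ σ, ¬ B x
    · rw [if_pos h, sum_eq_zero, add_zero]
      intro x hx
      rw [pickC, lift_single, if_neg (fun hxσ => h x hxσ (mem_filter.1 hx).2), map_zero, smul_zero]
    · rw [if_neg h, zero_add]
      push Not at h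
      obtain ⟨y, hy, hBy⟩ := h
      have hyX : y ∈ X := mem_filter.2 ⟨mem_biUnion.2 ⟨σ, hσ, hy⟩, hBy⟩
      rw [sum_eq_single_of_mem y hyX]
      · rw [pickC, lift_single, if_pos hy, coneC, lift_single, if_neg (notMem_erase y σ),
          insert_erase hy]
        exact single_eq_smul _ _
      · intro x hx hne
        rw [pickC, lift_single, if_neg, map_zero, smul_zero]
        exact fun hxσ => hne (hone σ (hzσ σ hσ).2 x hxσ (mem_filter.1 hx).2 y hy hBy)
  have hbW : bdC W = R + ∑ x ∈ X, coneC x (pickC x z) := by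
    rw [hW, map_sum, hR, ← Finset.sum_attach X, ← sum_add_distrib]
    refine sum_congr rfl fun x _ => ?_
    have h := bdC_coneC x.1 (w x.1 x.2)
    rw [hwb] at h
    conv_rhs => rw [← h]
    rw [add_assoc, ch_add_self, add_zero]
  have hz' : z₀ + R = z + bdC W := by
    rw [hbW]
    calc z₀ + R
        = (z₀ + ∑ x ∈ X, coneC x (pickC x z)) + (R + ∑ x ∈ X, coneC x (pickC x z)) := by
          rw [add_add_add_comm, ch_add_self, add_zero]
      _ = z + (R + ∑ x ∈ X, coneC x (pickC x z)) := by rw [← hsplit]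
  obtain ⟨u, hu, hub, hus⟩ := h₀ k hk _ (add_mem hz₀K hRK)
    (by rw [hz', map_add, hb, bdC_bdC, add_zero])
  refine ⟨W + u, add_mem hWK (chains_mono hsub hu), ?_, ?_⟩
  · rw [map_add, hub, hz', add_comm z, ← add_assoc, ch_add_self, zero_add]
  · refine (size_add _ _).trans (Nat.add_le_add hWs (hus.trans (hΦ₀ ?_)))
    refine (size_add _ _).trans (Nat.add_le_add ?_ hRs)
    rw [hz₀, size, size, Finsupp.support_filter]
    exact card_filter_le _ _

lemma relBound_mono {m : ℕ} {Φ₀ Ψ : ℕ → ℕ} (h₀ : Monotone Φ₀) (h : Monotone Ψ) :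
    Monotone (relBound m Φ₀ Ψ) := fun a b hab => by
  have : m * a * Ψ a ≤ m * b * Ψ b := Nat.mul_le_mul (Nat.mul_le_mul_left _ hab) (h hab)
  exact Nat.add_le_add this (h₀ (Nat.add_le_add hab this))

end Vale.P067.Link
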