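import Vale.Agent.P067.Link.Transport
import Vale.Agent.P067.Top.MorseGap

/-!
# Fillings in the links: joins over the gaps

The link of a simplex `R` in the pieces of the Morse lemma is the join, over the members of `R`,
of the complexes of fillers of the gap above them.
-/

namespace Vale.P067.Link

open Finset
open Vale.Agent.P067.Top (Model)

/-- Sets of fillers of the gaps above the members of `S`, forming chains in each gap. -/
def GapsK {n : ℕ} (M : Model n) (R S : Finset M.Vert) (τ : Finset M.Vert) : Prop :=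
  (∀ v ∈ τ, ∃ r ∈ S, v ∈ M.gapVert R r) ∧
    ∀ r ∈ S, IsChain (· ≤ ·) (M.trans R r '' {v | v ∈ τ ∧ v ∈ M.gapVert R r})

lemma gapsK_iff {n : ℕ} [NeZero n] (M : Model n) [DecidableEq M.Vert] {R : Finset M.Vert}
    (hR : R ∈ M.simp) (τ : Finset M.Vert) :
    GapsK M R R τ ↔ Disjoint R τ ∧ R ∪ τ ∈ M.J R R := by
  have hnot : ∀ r ∈ R, ∀ v ∈ R, v ∉ M.gapVert R r := fun r hr v hv hg =>
    M.gapVert_not_mem hR hr hg hv
  have hset : ∀ r ∈ R, {v | v ∈ R ∪ τ ∧ v ∈ M.gapVert R r} = {v | v ∈ τ ∧ v ∈ M.gapVert R r} := by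
    intro r hr
    ext v
    simp only [mem_union, Set.mem_ofPred_eq]
    exact ⟨fun ⟨h, hg⟩ => ⟨h.resolve_left fun h' => hnot r hr v h' hg, hg⟩,
      fun ⟨h, hg⟩ => ⟨Or.inr h, hg⟩⟩
  constructor
  · rintro ⟨h1, h2⟩
    refine ⟨disjoint_left.2 fun v hv hv' => ?_, subset_union_left, fun v hv => ?_, fun r hr => ?_⟩
    · obtain ⟨r, hr, hg⟩ := h1 v hv'
      exact hnot r hr v hv hg
    · exact (mem_union.1 hv).imp id (h1 v)
    · rw [hset r hr]; exact h2 r hr
  · rintro ⟨hd, -, h1, h2⟩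
    refine ⟨fun v hv => (h1 v (mem_union_right _ hv)).resolve_left (disjoint_right.1 hd hv),
      fun r hr => ?_⟩
    rw [← hset r hr]; exact h2 r hr

/-- The fillers of one gap, as vertices. -/
lemma fill_gapB {n : ℕ} [NeZero n] (M : Model n) [DecidableEq M.Vert] [DecidableEq M.Lam]
    {R : Finset M.Vert} (hR : R ∈ M.simp) {r : M.Vert} (hr : r ∈ R) {m : ℕ} {Φ : ℕ → ℕ}
    (hΦ : Monotone Φ) (h : Fill (fun τ => τ ∈ M.gap r.1 (M.succ R r.1)) m Φ) :
    Fill (fun τ => τ ∈ M.gapB R r) m Φ := by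
  have : Nonempty M.Vert := ⟨r⟩
  refine fill_comap (f := M.trans R r) (U := M.gapVert R r) ?_ (fun σ hσ => hσ.1) ?_ ?_ hΦ h
  · intro v hv w hw e
    rw [← (M.trans_spec hv).2, ← (M.trans_spec hw).2, e]
  · intro σ hσ
    refine ⟨by rw [coe_image]; exact hσ.2, fun e he => ?_⟩
    obtain ⟨v, hv, rfl⟩ := mem_image.1 he
    exact (M.trans_spec (hσ.1 hv)).1
  · intro τ hτ
    have hU : ∀ e ∈ τ, M.norm e ∈ M.gapVert R r := fun e he =>
      ⟨_, (M.sh_norm e).symm ▸ hτ.2 e he⟩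
    have himg : (τ.image M.norm).image (M.trans R r) = τ := by
      rw [image_image]
      conv_rhs => rw [← image_id (s := τ)]
      refine image_congr fun e he => ?_
      exact M.fills_unique hR hr (M.trans_spec (hU e he)).1 (hτ.2 e he) (M.trans_spec (hU e he)).2
    refine ⟨τ.image M.norm, ⟨?_, ?_⟩, himg⟩
    · intro v hv
      obtain ⟨e, he, rfl⟩ := mem_image.1 hv
      exact hU e he
    · have e := himg
      rw [← coe_inj, coe_image] at e
      rw [e]
      exact hτ.1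

/-- **The join over the gaps, with bounds.** -/
theorem fill_gaps (N : ℕ) {Φ : ℕ → ℕ} (hΦ : Monotone Φ) : ∀ m : ℕ, ∃ Θ : ℕ → ℕ, Monotone Θ ∧
    ∀ {n : ℕ} [NeZero n] (M : Model n) [DecidableEq M.Vert] [DecidableEq M.Lam]
      {R S : Finset M.Vert}, R ∈ M.simp → S ⊆ R → S.card = m →
      ∀ bnd : M.Vert → ℕ, (∀ r ∈ S, bnd r ≤ N) →
        (∀ r ∈ S, Fill (fun τ => τ ∈ M.gap r.1 (M.succ R r.1)) (bnd r) Φ) →
        Fill (GapsK M R S) (∑ r ∈ S, bnd r) Θ := by
  intro m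
  induction m with
  | zero =>
    refine ⟨id, monotone_id, ?_⟩
    intro n _ M _ _ R S _ _ hS bnd _ _ k hk
    rw [card_eq_zero.1 hS] at hk
    simp at hk
  | succ m ih =>
    obtain ⟨Θ₀, hΘ₀, h₀⟩ := ih
    have hj : ∀ b t : ℕ, ∃ Θ : ℕ → ℕ, Monotone Θ ∧
        ∀ {V : Type} [DecidableEq V] (P : V → Prop) [DecidablePred P] {KA KB : Finset V → Prop},
          (∀ ρ, KA ρ → ∀ x ∈ ρ, P x) → (∀ τ, KB τ → ∀ x ∈ τ, ¬ P x) →
          (∀ ρ τ, KA ρ → τ ⊆ ρ → KA τ) → (∀ ρ τ, KB ρ → τ ⊆ ρ → KB τ) →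
          Fill KA b Φ → Fill KB t Θ₀ → Fill (JoinK P KA KB) (b + t) Θ :=
      fun b t => fill_join b t hΦ hΘ₀
    choose Θ hΘ hjoin using hj
    refine ⟨fun c => ∑ b ∈ range (N + 1), ∑ t ∈ range (m * N + 1), Θ b t c,
      fun x y hxy => sum_le_sum fun b _ => sum_le_sum fun t _ => hΘ b t hxy, ?_⟩
    intro n _ M _ _ R S' hR hsub hcard bnd hb h
    classical
    obtain ⟨a, S, ha, rfl, hSc⟩ := card_eq_succ.1 hcard
    have haR := hsub (mem_insert_self a S)
    have hS := (subset_insert a S).trans hsub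
    have hbS : ∀ r ∈ S, bnd r ≤ N := fun r hr => hb r (mem_insert_of_mem hr)
    have hA := fill_gapB M hR haR hΦ (h a (mem_insert_self a S))
    have hB := h₀ M hR hS hSc bnd hbS fun r hr => h r (mem_insert_of_mem hr)
    have hnot : ∀ τ, GapsK M R S τ → ∀ v ∈ τ, v ∉ M.gapVert R a := by
      intro τ hτ v hv hg
      obtain ⟨r, hr, hg'⟩ := hτ.1 v hv
      exact ha (M.gapVert_disjoint hR haR (hS hr) hg hg' ▸ hr)
    have hdA : ∀ ρ τ, ρ ∈ M.gapB R a → τ ⊆ ρ → τ ∈ M.gapB R a := fun ρ τ hρ hτ =>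
      ⟨(coe_subset.2 hτ).trans hρ.1, hρ.2.mono (Set.image_mono (coe_subset.2 hτ))⟩
    have hdB : ∀ ρ τ, GapsK M R S ρ → τ ⊆ ρ → GapsK M R S τ := fun ρ τ hρ hτ =>
      ⟨fun v hv => hρ.1 v (hτ hv), fun r hr => (hρ.2 r hr).mono
        (Set.image_mono (by intro v hv; exact ⟨hτ hv.1, hv.2⟩))⟩
    have hJ := hjoin (bnd a) (∑ r ∈ S, bnd r) (fun v => v ∈ M.gapVert R a)
      (KA := fun τ => τ ∈ M.gapB R a) (KB := GapsK M R S)
      (fun ρ hρ v hv => hρ.1 hv) hnot hdA hdB hA hB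
    rw [sum_insert ha]
    refine Fill.mono (fill_congr' (fun σ => ?_) hJ) fun c => ?_
    · simp only [JoinK, sA, sB, Model.gapB, GapsK, Set.mem_ofPred_eq, coe_filter, mem_filter,
        forall_mem_insert, exists_mem_insert]
      constructor
      · rintro ⟨⟨hA1, hA2⟩, hB1, hB2⟩
        refine ⟨fun v hv => ?_, hA2, fun r hr => ?_⟩
        · by_cases hg : v ∈ M.gapVert R a
          · exact Or.inl hg
          · exact Or.inr (hB1 v ⟨hv, hg⟩)
        · refine (hB2 r hr).mono (Set.image_mono ?_)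
          intro v hv
          refine ⟨⟨hv.1, fun hg => ?_⟩, hv.2⟩
          exact ha (M.gapVert_disjoint hR haR (hS hr) hg hv.2 ▸ hr)
      · rintro ⟨h1, hA2, hB2⟩
        exact ⟨⟨fun v hv => hv.2, hA2⟩, fun v hv => (h1 v hv.1).resolve_left hv.2,
          fun r hr => (hB2 r hr).mono (Set.image_mono (by intro v hv; exact ⟨hv.1.1, hv.2⟩))⟩
    · have h1 : bnd a < N + 1 := Nat.lt_succ_of_le (hb a (mem_insert_self a S))
      have h2 : ∑ r ∈ S, bnd r < m * N + 1 := by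
        refine Nat.lt_succ_of_le ((sum_le_card_nsmul _ _ _ hbS).trans (le_of_eq ?_))
        rw [hSc, smul_eq_mul]
      exact le_trans (single_le_sum (f := fun t => Θ (bnd a) t c) (fun _ _ => Nat.zero_le _)
          (mem_range.2 h2))
        (single_le_sum (f := fun b => ∑ t ∈ range (m * N + 1), Θ b t c) (fun _ _ => Nat.zero_le _)
          (mem_range.2 h1))
where
  fill_congr' {W : Type} [DecidableEq W] {K L : Finset W → Prop} {m : ℕ} {Ψ : ℕ → ℕ}
      (h : ∀ σ, K σ ↔ L σ) (hK : Fill K m Ψ) : Fill L m Ψ := by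
    have : K = L := funext fun σ => propext (h σ)
    exact this ▸ hK

end Vale.P067.Link
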