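import Vale.Agent.P067.Local.Spectral

/-!
# Spectral bounds for the two kinds of codimension-two links

A complete bipartite graph is one-sided `0`-expanding, and the point-line incidence graph of the
affine plane over a field with `q` elements is one-sided `1/√q`-expanding.
-/

namespace Vale.P067.Link

open Finset Vale.P067.Local

variable {V : Type} [DecidableEq V]

/-- A weighted bipartite pairing bound gives one-sided expansion of the graph. -/
lemma oneSided_of_pairing {E : Type} [Fintype E] [Nonempty E] (φ ψ : E → V)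
    (hne : ∀ e e', φ e ≠ ψ e') (hinj : Function.Injective fun e => (φ e, ψ e))
    {l : ℝ} (hl : 0 ≤ l)
    (h : ∀ f : V → ℝ, ∀ A B : ℝ, A * Fintype.card E = ∑ e, f (φ e) →
      B * Fintype.card E = ∑ e, f (ψ e) →
      ∑ e, f (φ e) * f (ψ e) ≤ Fintype.card E * (A * B)
        + l / 2 * ((∑ e, (f (φ e) - A) ^ 2) + ∑ e, (f (ψ e) - B) ^ 2)) :
    OneSided (univ.image fun e => ({φ e, ψ e} : Finset V)) l := by
  intro f
  set T : Finset (Finset V) := univ.image fun e => ({φ e, ψ e} : Finset V) with hTdef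
  have hpair : Function.Injective fun e => ({φ e, ψ e} : Finset V) := by
    intro e e' he
    apply hinj
    have h1 : φ e ∈ ({φ e', ψ e'} : Finset V) := by
      have : φ e ∈ ({φ e, ψ e} : Finset V) := mem_insert_self _ _
      rwa [show ({φ e, ψ e} : Finset V) = {φ e', ψ e'} from he] at this
    have h2 : ψ e ∈ ({φ e', ψ e'} : Finset V) := by
      have : ψ e ∈ ({φ e, ψ e} : Finset V) := mem_insert_of_mem (mem_singleton_self _)
      rwa [show ({φ e, ψ e} : Finset V) = {φ e', ψ e'} from he] at this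
    simp only [mem_insert, mem_singleton] at h1 h2
    exact Prod.ext (h1.resolve_right (hne e e')) (h2.resolve_left fun h => hne e' e h.symm)
  have hT : Uniform T 2 := by
    intro t ht
    obtain ⟨e, -, rfl⟩ := mem_image.1 ht
    exact card_pair (hne e e)
  have hcard : T.card = Fintype.card E := by rw [hTdef, card_image_of_injective _ hpair, card_univ]
  have hsum : ∀ Φ : Finset V → ℝ, ∑ t ∈ T, Φ t = ∑ e, Φ {φ e, ψ e} := fun Φ => by
    rw [hTdef, sum_image hpair.injOn]
  set M : ℝ := (Fintype.card E : ℝ) with hM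
  have hMpos : 0 < M := by rw [hM]; exact_mod_cast Fintype.card_pos
  have havg : ∀ g : V → ℝ, avg1 T g = (∑ e, g (φ e) + ∑ e, g (ψ e)) / (2 * M) := fun g => by
    rw [avg1_eq hT, hsum, hcard, hM, mul_comm, ← sum_add_distrib]
    exact congrArg₂ (· / ·) (sum_congr rfl fun e _ => sum_pair (hne e e)) (by norm_num)
  have hedge : edge T f f = (∑ e, f (φ e) * f (ψ e)) / M := by
    have e1 : edge T f f
        = avg T 1 (fun ρ => avg1 (link T ρ) (fun w => (∑ u ∈ ρ, f u) * f w)) := by
      rw [edge, avg1_eq hT, avg_eq hT]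
      simp only [powersetCard_one, sum_map, Function.Embedding.coeFn_mk, sum_singleton,
        Nat.choose_one_right, avg1_smul]
    rw [e1, avg_avg1_link hT, hsum, hcard, ← hM]
    have e2 : ∀ e, ∑ σ ∈ ({φ e, ψ e} : Finset V).powersetCard 1,
        ∑ w ∈ ({φ e, ψ e} : Finset V) \ σ, (∑ u ∈ σ, f u) * f w = 2 * (f (φ e) * f (ψ e)) := by
      intro e
      simp only [powersetCard_one, sum_map, Function.Embedding.coeFn_mk, sum_singleton]
      rw [sum_pair (hne e e)]
      have a1 : ({φ e, ψ e} : Finset V) \ {φ e} = {ψ e} := by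
        ext x; simp only [mem_sdiff, mem_insert, mem_singleton]
        exact ⟨fun h => h.1.resolve_left h.2, fun h => ⟨Or.inr h, fun h' => hne e e (h' ▸ h)⟩⟩
      have a2 : ({φ e, ψ e} : Finset V) \ {ψ e} = {φ e} := by
        ext x; simp only [mem_sdiff, mem_insert, mem_singleton]
        exact ⟨fun h => h.1.resolve_right h.2, fun h => ⟨Or.inl h, fun h' => hne e e (h.symm.trans h')⟩⟩
      rw [a1, a2, sum_singleton, sum_singleton]
      ring
    rw [sum_congr rfl (fun e _ => e2 e), ← mul_sum]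
    norm_num
    field_simp
  set A : ℝ := (∑ e, f (φ e)) / M with hA
  set B : ℝ := (∑ e, f (ψ e)) / M with hB
  have hA' : ∑ e, f (φ e) = A * M := by rw [hA, div_mul_cancel₀ _ hMpos.ne']
  have hB' : ∑ e, f (ψ e) = B * M := by rw [hB, div_mul_cancel₀ _ hMpos.ne']
  have hp := h f A B hA'.symm hB'.symm
  have hsq : ∀ (g : E → ℝ) (C : ℝ), ∑ e, g e = C * M →
      ∑ e, (g e - C) ^ 2 = (∑ e, g e ^ 2) - C ^ 2 * M := fun g C hg => by
    have : ∀ e, (g e - C) ^ 2 = g e ^ 2 - 2 * C * g e + C ^ 2 := fun e => by ring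
    rw [sum_congr rfl (fun e _ => this e), sum_add_distrib, sum_sub_distrib, ← mul_sum, hg,
      sum_const, card_univ, nsmul_eq_mul, ← hM]
    ring
  rw [hsq _ A hA', hsq _ B hB'] at hp
  rw [hedge, havg, havg, hA', hB']
  have h1 : 0 ≤ (A - B) ^ 2 := sq_nonneg _
  have h2 : 0 ≤ l * (A - B) ^ 2 := mul_nonneg hl h1
  rw [div_le_iff₀ hMpos]
  set S : ℝ := ∑ e, f (φ e) ^ 2
  set S' : ℝ := ∑ e, f (ψ e) ^ 2
  have e3 : (((A * M + B * M) / (2 * M)) ^ 2
      + l * ((S + S') / (2 * M) - ((A * M + B * M) / (2 * M)) ^ 2)) * M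
      = M * ((A + B) / 2) ^ 2 + l / 2 * (S + S') - l * M * ((A + B) / 2) ^ 2 := by
    field_simp
    ring
  rw [e3]
  nlinarith [hp, mul_nonneg hMpos.le h1, mul_nonneg hMpos.le h2]

/-- Complete bipartite graphs. -/
theorem oneSided_complete {P L : Type} [Fintype P] [Fintype L] [Nonempty P] [Nonempty L]
    (φ : P → V) (ψ : L → V) (hφ : Function.Injective φ) (hψ : Function.Injective ψ)
    (hne : ∀ p l, φ p ≠ ψ l) :
    OneSided (univ.image fun e : P × L => ({φ e.1, ψ e.2} : Finset V)) 0 := by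
  refine oneSided_of_pairing (E := P × L) (fun e => φ e.1) (fun e => ψ e.2)
    (fun e e' => hne _ _) ?_ le_rfl ?_
  · intro e e' h
    simp only [Prod.mk.injEq] at h
    exact Prod.ext (hφ h.1) (hψ h.2)
  · intro f A B hA hB
    simp only [Fintype.sum_prod_type, sum_const, card_univ, nsmul_eq_mul, ← mul_sum, ← sum_mul,
      Fintype.card_prod, Nat.cast_mul] at hA hB ⊢
    have hP : (0 : ℝ) < Fintype.card P := by exact_mod_cast Fintype.card_pos
    have hL : (0 : ℝ) < Fintype.card L := by exact_mod_cast Fintype.card_pos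
    have a : ∑ p, f (φ p) = A * Fintype.card P := by nlinarith
    have b : ∑ l, f (ψ l) = B * Fintype.card L := by nlinarith
    rw [a, b]
    nlinarith

/-- The affine point-line incidence graph. -/
theorem oneSided_incidence {F : Type} [Field F] [Fintype F] [DecidableEq F]
    (φ ψ : F × F → V) (hφ : Function.Injective φ) (hψ : Function.Injective ψ)
    (hne : ∀ p l, φ p ≠ ψ l) :
    OneSided (univ.image fun e : F × F × F =>
        ({φ (e.1 * e.2.2 + e.2.1, e.2.2), ψ (e.1, e.2.1)} : Finset V))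
      (1 / Real.sqrt (Fintype.card F)) := by
  set q : ℝ := (Fintype.card F : ℝ) with hqdef
  have hq : 0 < q := by rw [hqdef]; exact_mod_cast Fintype.card_pos
  refine oneSided_of_pairing (E := F × F × F) (fun e => φ (e.1 * e.2.2 + e.2.1, e.2.2))
    (fun e => ψ (e.1, e.2.1)) (fun e e' => hne _ _) ?_ (by positivity) ?_
  · rintro ⟨a, b, y⟩ ⟨a', b', y'⟩ h
    simp only [Prod.mk.injEq] at h
    obtain ⟨h1, h2⟩ := h
    have h1' := hφ h1
    have h2' := hψ h2
    simp only [Prod.mk.injEq] at h1' h2'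
    exact Prod.ext h2'.1 (Prod.ext h2'.2 h1'.2)
  intro f A B hA hB
  have htr : ∀ (a y : F) (G : F → ℝ), ∑ b, G (a * y + b) = ∑ x, G x := fun a y G =>
    Fintype.sum_equiv (Equiv.addLeft (a * y)) _ _ fun b => rfl
  have hφsum : ∀ G : F × F → ℝ, ∑ e : F × F × F, G (e.1 * e.2.2 + e.2.1, e.2.2)
      = q * ∑ y, ∑ x, G (x, y) := fun G => by
    simp only [Fintype.sum_prod_type]
    rw [sum_congr rfl (fun a _ => sum_comm), sum_congr rfl (fun a _ => sum_congr rfl fun y _ =>
      htr a y fun x => G (x, y)), sum_const, card_univ, nsmul_eq_mul]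
  have hψsum : ∀ G : F × F → ℝ, ∑ e : F × F × F, G (e.1, e.2.1)
      = q * ∑ a, ∑ b, G (a, b) := fun G => by
    simp only [Fintype.sum_prod_type, sum_const, card_univ, nsmul_eq_mul, ← mul_sum, hqdef]
  have hcard : ((Fintype.card (F × F × F) : ℕ) : ℝ) = q * (q * q) := by
    simp [Fintype.card_prod, hqdef]
  rw [hφsum fun p => f (φ p), hcard] at hA
  rw [hψsum fun p => f (ψ p), hcard] at hB
  rw [hφsum fun p => (f (φ p) - A) ^ 2, hψsum fun p => (f (ψ p) - B) ^ 2, hcard]
  set u : F → F → ℝ := fun x y => f (φ (x, y)) - A with hu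
  set v : F → F → ℝ := fun a b => f (ψ (a, b)) - B with hv
  have hu0 : ∑ y, ∑ x, u x y = 0 := by
    simp only [hu, sum_sub_distrib, sum_const, card_univ, nsmul_eq_mul, ← hqdef]
    nlinarith
  have hv0 : ∑ a, ∑ b, v a b = 0 := by
    simp only [hv, sum_sub_distrib, sum_const, card_univ, nsmul_eq_mul, ← hqdef]
    nlinarith
  set H : F → F → ℝ := fun a b => ∑ y, u (a * y + b) y with hH
  -- the operator bound
  have hHH : ∑ a, ∑ b, H a b ^ 2 ≤ q * ∑ y, ∑ x, u x y ^ 2 := by
    set S : F → ℝ := fun y => ∑ x, u x y with hS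
    have hK : ∀ y y', ∑ a, ∑ b, u (a * y + b) y * u (a * y' + b) y'
        = if y = y' then q * ∑ x, u x y ^ 2 else S y * S y' := by
      intro y y'
      split_ifs with h
      · subst h
        rw [sum_congr rfl (fun a _ => htr a y fun x => u x y * u x y), sum_const, card_univ,
          nsmul_eq_mul]
        simp only [sq, hqdef]
      · have hbij : Function.Bijective fun p : F × F => (p.1 * y + p.2, p.1 * y' + p.2) := by
          refine (Fintype.bijective_iff_injective_and_card _).2 ⟨?_, rfl⟩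
          rintro ⟨a, b⟩ ⟨a', b'⟩ e
          simp only [Prod.mk.injEq] at e
          have : (a - a') * (y - y') = 0 := by linear_combination e.1 - e.2
          have ha : a = a' :=
            sub_eq_zero.1 ((mul_eq_zero.1 this).resolve_right (sub_ne_zero.2 h))
          subst ha
          exact Prod.ext rfl (add_left_cancel e.1)
        rw [← Fintype.sum_prod_type (f := fun p : F × F => u (p.1 * y + p.2) y * u (p.1 * y' + p.2) y'),
          hbij.sum_comp (fun p : F × F => u p.1 y * u p.2 y'), Fintype.sum_prod_type, hS]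
        simp only [← mul_sum, ← sum_mul]
    calc ∑ a, ∑ b, H a b ^ 2
        = ∑ a, ∑ b, ∑ y, ∑ y', u (a * y + b) y * u (a * y' + b) y' :=
          sum_congr rfl fun a _ => sum_congr rfl fun b _ => by rw [sq, hH, sum_mul_sum]
      _ = ∑ y, ∑ y', ∑ a, ∑ b, u (a * y + b) y * u (a * y' + b) y' := by
          rw [sum_congr rfl (fun a _ => sum_comm), sum_comm]
          refine sum_congr rfl fun y _ => ?_
          rw [sum_congr rfl (fun a _ => sum_comm), sum_comm]
      _ = ∑ y, ∑ y', (S y * S y' + if y = y' then q * ∑ x, u x y ^ 2 - S y * S y else 0) := by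
          refine sum_congr rfl fun y _ => sum_congr rfl fun y' _ => ?_
          rw [hK]
          split_ifs with h
          · subst h; ring
          · ring
      _ = q * ∑ y, ∑ x, u x y ^ 2 - ∑ y, S y * S y := by
          simp only [sum_add_distrib, sum_ite_eq, mem_univ, if_true, ← mul_sum, ← sum_mul,
            sum_sub_distrib]
          rw [show ∑ y, S y = 0 from hu0]
          ring
      _ ≤ q * ∑ y, ∑ x, u x y ^ 2 := by
          have : 0 ≤ ∑ y, S y * S y := sum_nonneg fun y _ => mul_self_nonneg _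
          linarith
  have hmain : ∑ e : F × F × F,
      f (φ (e.1 * e.2.2 + e.2.1, e.2.2)) * f (ψ (e.1, e.2.1))
        = q * (q * q) * (A * B) + ∑ a, ∑ b, H a b * v a b := by
    have e1 : ∀ e : F × F × F, f (φ (e.1 * e.2.2 + e.2.1, e.2.2)) * f (ψ (e.1, e.2.1))
        = u (e.1 * e.2.2 + e.2.1) e.2.2 * v e.1 e.2.1 + B * u (e.1 * e.2.2 + e.2.1) e.2.2
          + A * v e.1 e.2.1 + A * B := fun e => by simp only [hu, hv]; ring
    rw [sum_congr rfl (fun e _ => e1 e), sum_add_distrib, sum_add_distrib, sum_add_distrib,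
      ← mul_sum, ← mul_sum, hφsum fun p => u p.1 p.2, hψsum fun p => v p.1 p.2, hu0, hv0,
      sum_const, card_univ, nsmul_eq_mul, hcard]
    simp only [Fintype.sum_prod_type, hH, sum_mul, mul_zero, add_zero]
    ring
  rw [hmain]
  set l : ℝ := 1 / Real.sqrt q with hl
  have hlpos : 0 < l := by rw [hl]; positivity
  have hl2 : l ^ 2 * q = 1 := by
    rw [hl, div_pow, one_pow, Real.sq_sqrt hq.le, one_div_mul_cancel hq.ne']
  have hcs : ∀ a b, H a b * v a b ≤ l / 2 * H a b ^ 2 + 1 / (2 * l) * v a b ^ 2 := fun a b => by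
    have e : l / 2 * H a b ^ 2 + 1 / (2 * l) * v a b ^ 2 - H a b * v a b
        = (l * H a b - v a b) ^ 2 / (2 * l) := by field_simp; ring
    have : 0 ≤ (l * H a b - v a b) ^ 2 / (2 * l) := by positivity
    linarith
  have hinv : 1 / (2 * l) = l / 2 * q := by
    field_simp; linarith
  have h1 : ∑ a, ∑ b, H a b * v a b
      ≤ l / 2 * ∑ a, ∑ b, H a b ^ 2 + l / 2 * (q * ∑ a, ∑ b, v a b ^ 2) := by
    refine (sum_le_sum fun a _ => sum_le_sum fun b _ => hcs a b).trans (le_of_eq ?_)
    simp only [sum_add_distrib, ← mul_sum, hinv]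
    ring
  have h2 := mul_le_mul_of_nonneg_left hHH (by positivity : (0 : ℝ) ≤ l / 2)
  simp only [hu, hv] at h1 h2 ⊢
  linarith

end Vale.P067.Link
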