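import Vale.Agent.P067.Link.Cones
import Vale.Agent.P067.Link.Spectral2
import Vale.Agent.P067.Local.Global

/-!
# The link hypotheses of the local-to-global theorem

A finite group acting on the vertices, preserving colours and transitive on the top faces, makes
every link symmetric; so bounded fillings in the links give link expansion and connectivity.
-/

namespace Vale.P067.Link

open Finset Vale.P067.Local

set_option linter.unusedSectionVars false

variable {V : Type} [DecidableEq V]

/-- Fillings give connectivity. -/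
theorem connected_of_fill {T : Finset (Finset V)} {Φ : ℕ → ℕ} (h : Fill (InT T) 2 Φ) :
    Connected T := by
  classical
  intro f hf s hs t ht u hu w hw
  by_contra hne
  have hsu : InT T {u} := ⟨s, hs, singleton_subset_iff.2 hu⟩
  have htw : InT T {w} := ⟨t, ht, singleton_subset_iff.2 hw⟩
  obtain ⟨c, hc, hcb, -⟩ := h 1 (by norm_num) (Finsupp.single {u} 1 + Finsupp.single {w} 1)
    (add_mem (by simpa using single_mem hsu) (by simpa using single_mem htw))
    (by rw [map_add, bdC_single, bdC_single, sum_singleton, sum_singleton, erase_singleton,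
      erase_singleton, ch_add_self])
  set χ : Finset V → ZMod 2 := fun σ => ∑ x ∈ σ, if f x = f u then 1 else 0 with hχ
  have h0 : ev χ (bdC c) = 0 := by
    conv_lhs => rw [← c.sum_single, Finsupp.sum, map_sum, map_sum]
    refine sum_eq_zero fun σ hσ => ?_
    obtain ⟨hσc, r, hr, hσr⟩ := mem_chains.1 hc σ hσ
    rw [single_eq_smul, map_smul, map_smul, smul_eq_mul]
    obtain ⟨a, b, hab, rfl⟩ := card_eq_two.1 hσc
    have e : f a = f b := hf r hr a (hσr (mem_insert_self _ _)) b
      (hσr (mem_insert_of_mem (mem_singleton_self _)))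
    rw [bdC_single, sum_pair hab, map_add, ev_single, ev_single]
    have ea : ({a, b} : Finset V).erase a = {b} := by
      rw [erase_insert]; simpa using hab
    have eb : ({a, b} : Finset V).erase b = {a} := by
      rw [pair_comm, erase_insert]; simpa using hab.symm
    rw [ea, eb, hχ]
    simp only [sum_singleton, e]
    rw [CharTwo.add_self_eq_zero, mul_zero]
  rw [hcb, map_add, ev_single, ev_single, hχ] at h0
  simp only [sum_singleton, if_neg (Ne.symm hne), if_pos, add_zero] at h0
  exact one_ne_zero h0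

lemma faces_link_sub {T : Finset (Finset V)} {σ r : Finset V} (h : InT (Local.link T σ) r) :
    InT T (σ ∪ r) := by
  obtain ⟨t', ht', hr⟩ := h
  obtain ⟨t, ht, hσ, rfl⟩ := mem_link.1 ht'
  exact ⟨t, ht, union_subset hσ (hr.trans sdiff_subset)⟩

/-- **Link expansion from fillings.** -/
theorem linkExpansion_of_fill (d N : ℕ) (hN : d + 2 ≤ N) {Φ : ℕ → ℕ} (hΦ : Monotone Φ) :
    ∃ β : ℝ, 0 < β ∧ ∀ {V : Type} [DecidableEq V] {G : Type} [Group G] [Fintype G] [MulAction G V]
      (T : Finset (Finset V)) (col : V → ℕ), Uniform T N →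
      (∀ t ∈ T, Set.InjOn col t) → (∀ (γ : G) (v : V), col (γ • v) = col v) →
      (∀ γ : G, ∀ t ∈ T, mv γ t ∈ T) → (∀ t ∈ T, ∀ t' ∈ T, ∃ γ : G, mv γ t = t') →
      (∀ a k, 1 ≤ a → a + k ≤ d + 1 → ∀ σ ∈ faces T a, Fill (InT (Local.link T σ)) (k + 1) Φ) →
      LinkExpansion T d β := by
  have h : ∀ p : Fin (d + 1) × Fin (d + 1), ∃ β : ℝ, 0 < β ∧
      ∀ {V : Type} [DecidableEq V] {G : Type} [Group G] [Fintype G] [MulAction G V]
      (T : Finset (Finset V)), p.2.val + 2 ≤ N - (p.1.val + 1) → Uniform T (N - (p.1.val + 1)) →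
      T.Nonempty → (∀ γ : G, ∀ t ∈ T, mv γ t ∈ T) → (∀ t ∈ T, ∀ t' ∈ T, ∃ γ : G, mv γ t = t') →
      Fill (InT T) (p.2.val + 2) Φ → ∀ h : Finset V → ZMod 2, ∃ g : Finset V → ZMod 2,
        β * avg T (p.2.val + 1) (supp (h + delta p.2.val g))
          ≤ avg T (p.2.val + 2) (supp (delta (p.2.val + 1) h)) := by
    intro p
    obtain ⟨β, hβ, h⟩ := expansion_of_fill (N - (p.1.val + 1)) (p.2.val + 1) (by omega) hΦ
    refine ⟨β, hβ, ?_⟩
    intro V _ G _ _ _ T h1 h2 h3 h4 h5 h6 f
    exact h T h1 h2 h3 h4 h5 h6 f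
  choose β hβ hexp using h
  refine ⟨univ.inf' univ_nonempty β, (lt_inf'_iff _).2 fun p _ => hβ p, ?_⟩
  intro V _ G _ _ _ T col hT hcol hinv hTinv htrans hfill a k ha hk hak σ hσ f
  classical
  obtain ⟨t₀, ht₀, hσt₀, hσc⟩ := mem_faces.1 hσ
  let H : Subgroup G :=
    { carrier := {γ | mv γ σ = σ}
      mul_mem' := fun {x y} hx hy => by
        simp only [Set.mem_ofPred_eq] at hx hy ⊢
        rw [← mv_mv, hy, hx]
      one_mem' := by simp [mv]
      inv_mem' := fun {x} hx => by
        simp only [Set.mem_ofPred_eq] at hx ⊢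
        conv_lhs => rw [← hx]
        exact mv_inv x σ }
  have hmv : ∀ (γ : H) (r : Finset V), mv γ r = mv (γ : G) r := fun _ _ => rfl
  have hsd : ∀ (γ : H) (t : Finset V), mv γ (t \ σ) = mv (γ : G) t \ σ := fun γ t => by
    conv_rhs => rw [← (γ.2 : mv (γ : G) σ = σ)]
    rw [hmv, mv, mv, mv, image_sdiff _ _ (MulAction.injective (γ : G))]
  have hHinv : ∀ γ : H, ∀ r ∈ Local.link T σ, mv γ r ∈ Local.link T σ := by
    intro γ r hr
    obtain ⟨t, ht, hσt, rfl⟩ := mem_link.1 hr
    refine mem_link.2 ⟨mv (γ : G) t, hTinv _ t ht, ?_, (hsd γ t).symm⟩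
    rw [← (γ.2 : mv (γ : G) σ = σ)]
    exact image_subset_image hσt
  have hHtrans : ∀ r ∈ Local.link T σ, ∀ r' ∈ Local.link T σ, ∃ γ : H, mv γ r = r' := by
    intro r hr r' hr'
    obtain ⟨t, ht, hσt, rfl⟩ := mem_link.1 hr
    obtain ⟨t', ht', hσt', rfl⟩ := mem_link.1 hr'
    obtain ⟨γ, hγ⟩ := htrans t ht t' ht'
    have hfix : mv γ σ = σ := by
      refine eq_of_subset_of_card_le (fun v hv => ?_)
        (by rw [mv, card_image_of_injective _ (MulAction.injective γ)])
      obtain ⟨u, hu, rfl⟩ := mem_image.1 hv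
      have h1 : γ • u ∈ t' := hγ ▸ mem_image_of_mem _ (hσt hu)
      -- the member of `σ` of the same colour
      by_contra hnot
      have h2 : (σ.image col).card = σ.card := card_image_of_injOn ((hcol t ht).mono hσt)
      have : col (γ • u) ∈ σ.image col := by rw [hinv]; exact mem_image_of_mem _ hu
      obtain ⟨w, hw, hwc⟩ := mem_image.1 this
      exact hnot ((hcol t' ht' (hσt' hw) h1 hwc) ▸ hw)
    exact ⟨⟨γ, hfix⟩, by rw [hsd, show mv γ t = t' from hγ]⟩
  set p : Fin (d + 1) × Fin (d + 1) := (⟨a - 1, by omega⟩, ⟨k - 1, by omega⟩) with hp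
  have hu : Uniform (Local.link T σ) (N - (p.1.val + 1)) := by
    have := hT.link σ
    rwa [hσc, show a = p.1.val + 1 by simp [hp]; omega] at this
  have hne : (Local.link T σ).Nonempty := ⟨t₀ \ σ, mem_link.2 ⟨t₀, ht₀, hσt₀, rfl⟩⟩
  obtain ⟨g, hg⟩ := hexp p (G := H) (Local.link T σ) (by simp [hp]; omega) hu hne hHinv hHtrans
    (by have := hfill a k ha hak σ hσ; rwa [show p.2.val + 2 = k + 1 by simp [hp]; omega]) f
  refine ⟨g, ?_⟩
  have e : p.2.val = k - 1 := rfl
  have e' : k - 1 + 1 = k := by omega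
  rw [e, e', show k - 1 + 2 = k + 1 by omega] at hg
  refine le_trans (mul_le_mul_of_nonneg_right (inf'_le _ (mem_univ p)) ?_) hg
  exact avg_nonneg _ _ fun S => supp_nonneg _ _

/-- The incidence graph of the opposition complex of one flag in a three-dimensional space. -/
theorem oneSided_opp3 {F : Type} [Field F] [Fintype F] [DecidableEq F] {W : Type} [DecidableEq W]
    (f : Submodule F (Fin 3 → F) → W) (T : Finset (Finset W))
    (hT : ∀ r, r ∈ T ↔ ∃ a b y : F,
      r = {f (F ∙ ![a * y + b, y, 1]),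
           f ((LinearMap.proj 0 - a • LinearMap.proj 1 - b • LinearMap.proj 2
              : (Fin 3 → F) →ₗ[F] F).ker)})
    (hf : Set.InjOn f (Set.range (fun p : F × F => F ∙ ![p.1, p.2, 1]) ∪
      Set.range (fun p : F × F => (LinearMap.proj 0 - p.1 • LinearMap.proj 1
        - p.2 • LinearMap.proj 2 : (Fin 3 → F) →ₗ[F] F).ker))) :
    OneSided T (1 / Real.sqrt (Fintype.card F)) := by
  classical
  set L : F × F → Submodule F (Fin 3 → F) := fun p => F ∙ ![p.1, p.2, 1] with hL
  set P : F × F → Submodule F (Fin 3 → F) := fun p =>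
    (LinearMap.proj 0 - p.1 • LinearMap.proj 1 - p.2 • LinearMap.proj 2
      : (Fin 3 → F) →ₗ[F] F).ker with hP
  have hmemP : ∀ (p : F × F) (v : Fin 3 → F), v ∈ P p ↔ v 0 - p.1 * v 1 - p.2 * v 2 = 0 :=
    fun p v => by simp [hP, LinearMap.mem_ker]
  have hLinj : Function.Injective L := by
    intro p q e
    have h : ![p.1, p.2, 1] ∈ L q := e ▸ Submodule.mem_span_singleton_self _
    obtain ⟨c, hc⟩ := Submodule.mem_span_singleton.1 h
    have h0 := congrFun hc 0
    have h1 := congrFun hc 1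
    have h2 := congrFun hc 2
    simp at h0 h1 h2
    subst h2
    exact Prod.ext (by simpa using h0.symm) (by simpa using h1.symm)
  have hPinj : Function.Injective P := by
    intro p q e
    have h1 : ![p.1, 1, 0] ∈ P q := e ▸ (hmemP _ _).2 (by simp)
    have h2 : ![p.2, 0, 1] ∈ P q := e ▸ (hmemP _ _).2 (by simp)
    rw [hmemP] at h1 h2
    simp at h1 h2
    exact Prod.ext (sub_eq_zero.1 h1) (sub_eq_zero.1 h2)
  have hLP : ∀ p q, L p ≠ P q := by
    intro p q e
    have h1 : ![q.1, 1, 0] ∈ L p := e ▸ (hmemP _ _).2 (by simp)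
    obtain ⟨c, hc⟩ := Submodule.mem_span_singleton.1 h1
    have hc1 := congrFun hc 1
    have hc2 := congrFun hc 2
    simp at hc1 hc2
    simp [hc2] at hc1
  have hmem : ∀ p, L p ∈ Set.range L ∪ Set.range P := fun p => Or.inl ⟨p, rfl⟩
  have hmem' : ∀ p, P p ∈ Set.range L ∪ Set.range P := fun p => Or.inr ⟨p, rfl⟩
  have h := oneSided_incidence (fun p => f (L p)) (fun p => f (P p))
    (fun p q e => hLinj (hf (hmem p) (hmem q) e)) (fun p q e => hPinj (hf (hmem' p) (hmem' q) e))
    (fun p q e => hLP p q (hf (hmem p) (hmem' q) e))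
  have eT : T = univ.image fun e : F × F × F =>
      ({f (L (e.1 * e.2.2 + e.2.1, e.2.2)), f (P (e.1, e.2.1))} : Finset W) := by
    ext r
    simp only [hT, mem_image, mem_univ, true_and, hL, hP, Prod.exists]
    constructor <;> rintro ⟨a, b, y, e⟩ <;> exact ⟨a, b, y, e.symm⟩
  rw [eT]
  exact h

end Vale.P067.Link
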