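import Vale.Agent.P067.Link.Fill

/-!
# Fillings in a join

If cycles of `KA` fill below size `a` and cycles of `KB` below size `b`, cycles of the join fill
below size `a + b`, with a bound depending only on the two bounds and `a + b`.
-/

namespace Vale.P067.Link

open Finset

set_option linter.unusedSectionVars false

variable {V : Type} [DecidableEq V]

/-- A linear choice of small fillings for finitely many cycles. -/
lemma exists_linear_fill {K : Finset V → Prop} {k B : ℕ} (S : Finset (Chn V))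
    (h : ∀ s ∈ S, ∃ w ∈ chains K (k + 1), bdC w = s ∧ size w ≤ B) :
    ∃ L : Chn V →ₗ[ZMod 2] Chn V,
      ∀ s ∈ S, L s ∈ chains K (k + 1) ∧ bdC (L s) = s ∧ size (L s) ≤ S.card * B := by
  classical
  obtain ⟨b, hbS, hspan, hli⟩ := exists_linearIndependent (ZMod 2) (S : Set (Chn V))
  have : Fintype b := (S.finite_toSet.subset hbS).fintype
  choose! f hfK hfb hfs using h
  set ι := Finsupp.linearCombination (ZMod 2) (Subtype.val : b → Chn V) with hι
  obtain ⟨g, hg⟩ := ι.exists_leftInverse_of_injective (LinearMap.ker_eq_bot.2 hli)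
  refine ⟨(Finsupp.linearCombination (ZMod 2) fun x : b => f x.1).comp g, fun s hs => ?_⟩
  have hs' : s ∈ LinearMap.range ι := by
    rw [hι, Finsupp.range_linearCombination, Subtype.range_coe, hspan]
    exact Submodule.subset_span hs
  obtain ⟨c, rfl⟩ := hs'
  have hgc : g (ι c) = c := LinearMap.congr_fun hg c
  simp only [LinearMap.comp_apply, hgc]
  rw [Finsupp.linearCombination_apply]
  refine ⟨Submodule.sum_mem _ fun x _ => Submodule.smul_mem _ _ (hfK _ (hbS x.2)), ?_, ?_⟩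
  · rw [Finsupp.sum, map_sum, hι, Finsupp.linearCombination_apply, Finsupp.sum]
    exact sum_congr rfl fun x _ => by rw [map_smul, hfb _ (hbS x.2)]
  · refine (size_sum _ _).trans ?_
    refine (Finset.sum_le_card_nsmul _ _ B fun x _ =>
      (size_smul _ _).trans (hfs _ (hbS x.2))).trans ?_
    rw [smul_eq_mul]
    refine Nat.mul_le_mul_right _ ?_
    exact card_le_card_of_injOn Subtype.val (fun x _ => hbS x.2) Subtype.val_injective.injOn

section split

variable (P : V → Prop) [DecidablePred P]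

/-- The vertices of a face in the first part. -/
def sA (σ : Finset V) : Finset V := σ.filter P

/-- The vertices of a face in the second part. -/
def sB (σ : Finset V) : Finset V := σ.filter fun x => ¬ P x

lemma sA_union_sB (σ : Finset V) : sA P σ ∪ sB P σ = σ := filter_union_filter_not_eq P σ

lemma card_sA_add_sB (σ : Finset V) : (sA P σ).card + (sB P σ).card = σ.card :=
  card_filter_add_card_filter_not _

/-- The faces of a join. -/
def JoinK (KA KB : Finset V → Prop) (σ : Finset V) : Prop := KA (sA P σ) ∧ KB (sB P σ)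

lemma joinK_union {ρ τ : Finset V} (hρ : ∀ x ∈ ρ, P x)
    (hτ : ∀ x ∈ τ, ¬ P x) : sA P (ρ ∪ τ) = ρ ∧ sB P (ρ ∪ τ) = τ := by
  constructor <;> simp only [sA, sB, filter_union]
  · rw [filter_true_of_mem hρ, filter_false_of_mem hτ, union_empty]
  · rw [filter_false_of_mem (fun x hx => not_not.2 (hρ x hx)), filter_true_of_mem hτ, empty_union]

/-- The slice of a chain over a face of the second part. -/
noncomputable def sliceC (τ : Finset V) : Chn V →ₗ[ZMod 2] Chn V :=
  lift fun σ => if sB P σ = τ then Finsupp.single (sA P σ) 1 else 0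

/-- The slices just above a face of the second part. -/
noncomputable def upC (τ : Finset V) : Chn V →ₗ[ZMod 2] Chn V :=
  lift fun σ => ∑ x ∈ (sB P σ).filter (fun x => (sB P σ).erase x = τ), Finsupp.single (sA P σ) 1

/-- Glueing a face. -/
noncomputable def glueC (τ : Finset V) : Chn V →ₗ[ZMod 2] Chn V :=
  lift fun ρ => Finsupp.single (ρ ∪ τ) 1

lemma slice_bd (τ : Finset V) (z : Chn V) :
    sliceC P τ (bdC z) = bdC (sliceC P τ z) + upC P τ z := by
  suffices h : ∀ σ : Finset V, ((sliceC P τ).comp bdC) (Finsupp.single σ 1)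
      = (bdC.comp (sliceC P τ) + upC P τ) (Finsupp.single σ 1) by
    have := lift_ext h z
    simpa only [LinearMap.comp_apply, LinearMap.add_apply] using this
  intro σ
  simp only [LinearMap.comp_apply, LinearMap.add_apply, bdC_single, map_sum, sliceC, upC,
    lift_single]
  rw [← sum_filter_add_sum_filter_not σ P]
  congr 1
  · have e : ∀ x ∈ σ.filter P, sB P (σ.erase x) = sB P σ := fun x hx => by
      rw [sB, sB, filter_erase, erase_eq_of_notMem]
      simp [(mem_filter.1 hx).2]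
    rw [sum_congr rfl (fun x hx => by rw [e x hx])]
    split_ifs with h
    · rw [bdC_single]
      exact sum_congr rfl fun x _ => by simp only [sA, filter_erase]
    · rw [map_zero, sum_const_zero]
  · rw [show σ.filter (fun x => ¬ P x) = sB P σ from rfl, sum_filter]
    refine sum_congr rfl fun x hx => ?_
    have hnP : ¬ P x := (mem_filter.1 hx).2
    have e1 : sB P (σ.erase x) = (sB P σ).erase x := filter_erase ..
    have e2 : sA P (σ.erase x) = sA P σ := by
      rw [sA, sA, filter_erase, erase_eq_of_notMem]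
      simp [hnP]
    rw [e1, e2]

lemma glue_bd {τ : Finset V} (hτ : ∀ x ∈ τ, ¬ P x) {KA : Finset V → Prop} {j : ℕ}
    (hKA : ∀ ρ, KA ρ → ∀ x ∈ ρ, P x) {u : Chn V} (hu : u ∈ chains KA j) :
    bdC (glueC τ u) = glueC τ (bdC u) + ∑ x ∈ τ, glueC (τ.erase x) u := by
  conv_lhs => rw [← u.sum_single]
  conv_rhs => rw [← u.sum_single]
  simp only [Finsupp.sum, map_sum]
  rw [sum_comm (s := τ), ← sum_add_distrib]
  refine sum_congr rfl fun ρ hρ => ?_
  rw [single_eq_smul]
  simp only [map_smul, ← smul_sum, ← smul_add]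
  congr 1
  have hP := hKA ρ (mem_chains.1 hu ρ hρ).2
  have hd : Disjoint ρ τ := disjoint_left.2 fun x hx hx' => hτ x hx' (hP x hx)
  simp only [glueC, lift_single, bdC_single, map_sum]
  rw [sum_union hd]
  congr 1
  · refine sum_congr rfl fun x hx => ?_
    rw [erase_union_distrib, erase_eq_of_notMem (disjoint_left.1 hd hx)]
  · refine sum_congr rfl fun x hx => ?_
    rw [erase_union_distrib, erase_eq_of_notMem (disjoint_right.1 hd hx)]

/-- The size after one push. -/
def pushBound (M : ℕ) (Φ : ℕ → ℕ) (c : ℕ) : ℕ := c + M * (c * (c * Φ c))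

/-- One push: the top level in the second part is removed. -/
lemma push {KA KB : Finset V → Prop} {a M k n : ℕ} {Φ : ℕ → ℕ} (hΦ : Monotone Φ)
    (hKA : ∀ ρ, KA ρ → ∀ x ∈ ρ, P x)
    (hA : Fill KA a Φ) (hkM : k + 1 ≤ M) (hn : n ≤ k) (hkn : k - n < a)
    {z : Chn V} (hz : z ∈ chains (JoinK P KA KB) k) (hb : bdC z = 0)
    (hle : ∀ σ ∈ z.support, (sB P σ).card ≤ n) :
    ∃ w ∈ chains (JoinK P KA KB) (k + 1),
      size w ≤ size z * (size z * Φ (size z)) ∧ size (z + bdC w) ≤ pushBound M Φ (size z) ∧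
      ∀ σ ∈ (z + bdC w).support,
        (sB P σ).card < n ∧ ∀ m₀, (∀ σ ∈ z.support, m₀ ≤ (sB P σ).card) → m₀ ≤ (sB P σ).card := by
  classical
  have hzσ := mem_chains.1 hz
  set Tn := (z.support.image (sB P)).filter (fun τ => τ.card = n) with hTn
  have hTc : Tn.card ≤ size z := (card_filter_le _ _).trans card_image_le
  have hTKB : ∀ τ ∈ Tn, KB τ ∧ τ.card = n ∧ ∀ x ∈ τ, ¬ P x := by
    intro τ hτ
    obtain ⟨hi, hc⟩ := mem_filter.1 hτ
    obtain ⟨σ, hσ, rfl⟩ := mem_image.1 hi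
    exact ⟨(hzσ σ hσ).2.2, hc, fun x hx => (mem_filter.1 hx).2⟩
  have hslice : ∀ τ ∈ Tn, sliceC P τ z ∈ chains KA (k - n) := by
    intro τ hτ
    refine lift_mem (fun σ hc hK => ?_) hz
    split_ifs with h
    · have h' := single_mem hK.1
      have : (sA P σ).card = k - n := by
        have := card_sA_add_sB P σ
        rw [h, (hTKB τ hτ).2.1, hc] at this; omega
      rwa [this] at h'
    · exact zero_mem _
  have hup0 : ∀ τ ∈ Tn, upC P τ z = 0 := by
    intro τ hτ
    rw [upC, lift, Finsupp.linearCombination_apply]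
    refine sum_eq_zero fun σ hσ => ?_
    dsimp only
    rw [filter_false_of_mem, sum_empty, smul_zero]
    intro x hx he
    have := hle σ hσ
    have := card_erase_of_mem hx
    rw [he, (hTKB τ hτ).2.1] at this
    have := card_pos.2 ⟨x, hx⟩
    omega
  have hcyc : ∀ τ ∈ Tn, bdC (sliceC P τ z) = 0 := by
    intro τ hτ
    have := slice_bd P τ z
    rwa [hb, map_zero, hup0 τ hτ, add_zero, eq_comm] at this
  have hsize : ∀ τ, size (sliceC P τ z) ≤ size z := fun τ => by
    simpa [sliceC] using size_lift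
      (fun σ => if sB P σ = τ then Finsupp.single (sA P σ) 1 else 0) 1 z
      (fun σ _ => by split_ifs <;> simp [size])
  obtain ⟨L, hL⟩ := exists_linear_fill (K := KA) (k := k - n) (B := Φ (size z))
    (Tn.image fun τ => sliceC P τ z) (by
      intro s hs
      obtain ⟨τ, hτ, rfl⟩ := mem_image.1 hs
      obtain ⟨w, hw, e, hs'⟩ := hA _ hkn _ (hslice τ hτ) (hcyc τ hτ)
      exact ⟨w, hw, e, hs'.trans (hΦ (hsize τ))⟩)
  have hL' : ∀ τ ∈ Tn, L (sliceC P τ z) ∈ chains KA (k - n + 1) ∧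
      bdC (L (sliceC P τ z)) = sliceC P τ z ∧ size (L (sliceC P τ z)) ≤ size z * Φ (size z) := by
    intro τ hτ
    obtain ⟨h1, h2, h3⟩ := hL _ (mem_image_of_mem _ hτ)
    exact ⟨h1, h2, h3.trans (Nat.mul_le_mul_right _ (card_image_le.trans hTc))⟩
  have hupEq : ∀ τ' : Finset V, τ'.card + 1 = n → ∑ τ ∈ Tn, ∑ x ∈ τ, (if τ.erase x = τ' then sliceC P τ z else 0)
      = upC P τ' z := by
    intro τ' hτ'
    have hterm : ∀ τ, sliceC P τ z
        = ∑ σ ∈ z.support, z σ • sliceC P τ (Finsupp.single σ 1) := fun τ => by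
      conv_lhs => rw [← z.sum_single, Finsupp.sum, map_sum]
      exact sum_congr rfl fun σ _ => by rw [single_eq_smul, map_smul]
    have hrhs : upC P τ' z = ∑ σ ∈ z.support, z σ • upC P τ' (Finsupp.single σ 1) := by
      conv_lhs => rw [← z.sum_single, Finsupp.sum, map_sum]
      exact sum_congr rfl fun σ _ => by rw [single_eq_smul, map_smul]
    rw [hrhs]
    have : ∀ τ, ∑ x ∈ τ, (if τ.erase x = τ' then sliceC P τ z else 0)
        = ∑ σ ∈ z.support, z σ • (if sB P σ = τ
            then ∑ x ∈ τ.filter (fun x => τ.erase x = τ'), Finsupp.single (sA P σ) 1 else 0) := by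
      intro τ
      rw [← sum_filter, sum_congr rfl (fun x _ => hterm τ), sum_comm]
      refine sum_congr rfl fun σ _ => ?_
      rw [← smul_sum]
      congr 1
      rw [sliceC, lift_single]
      split_ifs <;> simp
    rw [sum_congr rfl (fun τ _ => this τ), sum_comm]
    refine sum_congr rfl fun σ hσ => ?_
    rw [← smul_sum, sum_ite_eq, upC, lift_single]
    split_ifs with h
    · rfl
    · rw [filter_false_of_mem, sum_empty]
      intro x hx he
      refine h (mem_filter.2 ⟨mem_image_of_mem _ hσ, ?_⟩)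
      rw [← hτ', ← he, card_erase_add_one hx]
  set w : Chn V := ∑ τ ∈ Tn, glueC τ (L (sliceC P τ z)) with hw
  have hwK : w ∈ chains (JoinK P KA KB) (k + 1) := by
    refine Submodule.sum_mem _ fun τ hτ => lift_mem (fun ρ hc hρ => ?_) (hL' τ hτ).1
    obtain ⟨hB, hcn, hnP⟩ := hTKB τ hτ
    obtain ⟨e1, e2⟩ := joinK_union P (hKA ρ hρ) hnP
    have h' := single_mem (K := JoinK P KA KB) (σ := ρ ∪ τ) ⟨by rwa [e1], by rwa [e2]⟩
    have := card_sA_add_sB P (ρ ∪ τ)
    rw [e1, e2, hc, hcn] at this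
    rwa [show (ρ ∪ τ).card = k + 1 by omega] at h'
  have hws : size w ≤ size z * (size z * Φ (size z)) := by
    refine (size_sum _ _).trans ((Finset.sum_le_card_nsmul _ _ _ fun τ hτ => ?_).trans
      (by rw [smul_eq_mul]; exact Nat.mul_le_mul_right _ hTc))
    refine le_trans ?_ (hL' τ hτ).2.2
    simpa [glueC] using size_lift (fun ρ => Finsupp.single (ρ ∪ τ) 1) 1 (L (sliceC P τ z))
      (fun ρ _ => by simp [size])
  refine ⟨w, hwK, hws, ?_, ?_⟩
  · refine (size_add _ _).trans (Nat.add_le_add_left ?_ _)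
    refine (size_lift _ M w fun σ hσ => ?_).trans ?_
    · refine (size_sum _ _).trans ((Finset.sum_le_card_nsmul _ _ 1 fun x _ => size_single_le _).trans ?_)
      rw [smul_eq_mul, mul_one, (mem_chains.1 hwK σ hσ).1]; exact hkM
    · rw [mul_comm]; exact Nat.mul_le_mul_left _ hws
  have hbw : bdC w = z.filter (fun σ => (sB P σ).card = n)
      + ∑ τ' ∈ Tn.biUnion (fun τ => τ.image τ.erase), glueC τ' (L (upC P τ' z)) := by
    rw [hw, map_sum, sum_congr rfl (fun τ hτ => glue_bd P (hTKB τ hτ).2.2 hKA (hL' τ hτ).1),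
      sum_add_distrib]
    congr 1
    · rw [sum_congr rfl (fun τ hτ => by rw [(hL' τ hτ).2.1])]
      conv_lhs => rw [← z.sum_single]
      simp only [Finsupp.sum, map_sum]
      rw [sum_comm, Finsupp.filter_eq_sum, sum_filter]
      refine sum_congr rfl fun σ hσ => ?_
      by_cases h : (sB P σ).card = n
      · rw [if_pos h, sum_eq_single_of_mem (sB P σ) (mem_filter.2 ⟨mem_image_of_mem _ hσ, h⟩)]
        · rw [single_eq_smul, map_smul, map_smul, sliceC, lift_single, if_pos rfl, glueC,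
            lift_single, sA_union_sB]
        · intro τ _ hne
          rw [single_eq_smul, map_smul, sliceC, lift_single, if_neg (Ne.symm hne), smul_zero,
            map_zero]
      · rw [if_neg h, sum_eq_zero]
        intro τ hτ
        rw [single_eq_smul, map_smul, sliceC, lift_single, if_neg, smul_zero, map_zero]
        rintro rfl
        exact h (mem_filter.1 hτ).2
    · rw [sum_sigma' Tn (fun τ => τ),
        ← sum_fiberwise_of_maps_to (g := fun p : (_ : Finset V) × V => p.1.erase p.2)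
          (t := Tn.biUnion fun τ => τ.image τ.erase) (by
            rintro ⟨τ, x⟩ h
            simp only [mem_sigma] at h
            exact mem_biUnion.2 ⟨τ, h.1, mem_image_of_mem _ h.2⟩)]
      refine sum_congr rfl fun τ' hτ' => ?_
      rw [sum_congr rfl (g := fun p : (_ : Finset V) × V => glueC τ' (L (sliceC P p.1 z))) (fun p hp => by
        rw [(mem_filter.1 hp).2]), ← map_sum, ← map_sum]
      congr 2
      rw [sum_filter, sum_sigma]
      refine hupEq τ' ?_
      obtain ⟨τ, hτ, hm⟩ := mem_biUnion.1 hτ'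
      obtain ⟨x, hx, rfl⟩ := mem_image.1 hm
      rw [card_erase_add_one hx, (hTKB τ hτ).2.1]
  intro σ hσ
  have hzbw : z + bdC w = z.filter (fun σ => ¬ (sB P σ).card = n)
      + ∑ τ' ∈ Tn.biUnion (fun τ => τ.image τ.erase), glueC τ' (L (upC P τ' z)) := by
    rw [hbw, ← add_assoc]
    congr 1
    conv_lhs => arg 1; rw [← Finsupp.filter_add_filter_not z fun σ => (sB P σ).card = n]
    rw [add_comm (z.filter _), add_assoc, ch_add_self, add_zero]
  rw [hzbw] at hσ
  rcases mem_union.1 (Finsupp.support_add hσ) with hσ | hσ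
  · rw [Finsupp.support_filter, mem_filter] at hσ
    exact ⟨lt_of_le_of_ne (hle σ hσ.1) hσ.2, fun m hm => hm σ hσ.1⟩
  obtain ⟨τ', hτ', hσ'⟩ := mem_biUnion.1 (Finsupp.support_finsetSum hσ)
  obtain ⟨τ, hτ, hm⟩ := mem_biUnion.1 hτ'
  obtain ⟨x, hx, hτx⟩ := mem_image.1 hm
  obtain ⟨hB, hcn, hnP⟩ := hTKB τ hτ
  have hc' : τ'.card + 1 = n := by rw [← hτx, card_erase_add_one hx, hcn]
  have hLK : L (upC P τ' z) ∈ chains KA (k - n + 1) := by
    rw [← hupEq τ' hc', map_sum]
    refine Submodule.sum_mem _ fun τ₀ hτ₀ => ?_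
    rw [map_sum]
    refine Submodule.sum_mem _ fun x _ => ?_
    split_ifs
    · exact (hL' τ₀ hτ₀).1
    · rw [map_zero]; exact zero_mem _
  have hne : ∃ σ₀ ∈ z.support, sB P σ₀ = τ' := by
    by_contra hcon
    push Not at hcon
    have h0 : sliceC P τ' z = 0 := by
      rw [sliceC, lift, Finsupp.linearCombination_apply]
      refine sum_eq_zero fun σ hσ => ?_
      dsimp only
      rw [if_neg (hcon σ hσ), smul_zero]
    have := slice_bd P τ' z
    rw [hb, map_zero, h0, map_zero, zero_add] at this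
    rw [← this, map_zero, map_zero] at hσ'
    simp at hσ'
  obtain ⟨σ₀, hσ₀, e₀⟩ := hne
  have hnP' : ∀ y ∈ τ', ¬ P y := fun y hy => hnP y (mem_of_mem_erase (hτx ▸ hy))
  have hglue : glueC τ' (L (upC P τ' z)) ∈
      chains (fun σ => sB P σ = τ') (k - n + 1 + τ'.card) := by
    refine lift_mem (fun ρ hc hρ => ?_) hLK
    have hd : Disjoint ρ τ' := disjoint_left.2 fun y hy hy' => hnP' y hy' (hKA ρ hρ y hy)
    have := single_mem (K := fun σ => sB P σ = τ')
      (joinK_union P (hKA ρ hρ) hnP').2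
    rwa [card_union_of_disjoint hd, hc] at this
  have e := (mem_chains.1 hglue σ hσ').2
  exact ⟨by rw [e]; omega, fun m hm => by rw [e, ← e₀]; exact hm σ₀ hσ₀⟩

/-- Repeated pushes: the second part is brought below `lo`. -/
lemma pushes (M : ℕ) {Φ : ℕ → ℕ} (hΦ : Monotone Φ) : ∀ j : ℕ, ∃ Θ Ω : ℕ → ℕ,
    Monotone Θ ∧ Monotone Ω ∧
    ∀ {V : Type} [DecidableEq V] (P : V → Prop) [DecidablePred P] {KA KB : Finset V → Prop}
      {a k lo : ℕ}, (∀ ρ, KA ρ → ∀ x ∈ ρ, P x) →
      (∀ σ, JoinK P KA KB σ → ∀ x, JoinK P KA KB (σ.erase x)) → Fill KA a Φ → k + 1 ≤ M →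
      (∀ n, lo ≤ n → n ≤ k → k - n < a) → lo + j ≤ k + 1 →
      ∀ z ∈ chains (JoinK P KA KB) k, bdC z = 0 →
        (∀ σ ∈ z.support, (sB P σ).card < lo + j) →
        ∃ w ∈ chains (JoinK P KA KB) (k + 1),
          size w ≤ Θ (size z) ∧ size (z + bdC w) ≤ Ω (size z) ∧
          ∀ σ ∈ (z + bdC w).support, (sB P σ).card < lo ∧
            ∀ m₀, (∀ σ ∈ z.support, m₀ ≤ (sB P σ).card) → m₀ ≤ (sB P σ).card := by
  intro j
  induction j with
  | zero =>
    refine ⟨fun _ => 0, id, monotone_const, monotone_id, ?_⟩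
    intro V _ P _ KA KB a k lo _ _ _ _ _ _ z _ _ hlt
    refine ⟨0, zero_mem _, le_of_eq rfl, ?_, ?_⟩
    · simp [size]
    · intro σ hσ
      rw [map_zero, add_zero] at hσ
      exact ⟨hlt σ hσ, fun m hm => hm σ hσ⟩
  | succ j ih =>
    obtain ⟨Θ, Ω, hΘ, hΩ, h⟩ := ih
    have hp : Monotone (pushBound M Φ) := fun x y hxy =>
      Nat.add_le_add hxy (Nat.mul_le_mul_left _ (Nat.mul_le_mul hxy (Nat.mul_le_mul hxy (hΦ hxy))))
    refine ⟨fun c => c * (c * Φ c) + Θ (pushBound M Φ c), fun c => Ω (pushBound M Φ c),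
      fun x y hxy => Nat.add_le_add (Nat.mul_le_mul hxy (Nat.mul_le_mul hxy (hΦ hxy)))
        (hΘ (hp hxy)), hΩ.comp hp, ?_⟩
    intro V _ P _ KA KB a k lo hKA hdown hA hkM hlevels hlok z hz hb hlt
    obtain ⟨w₁, hw₁, hs₁, hs₁', h₁⟩ := push P hΦ hKA hA hkM (n := lo + j) (by omega)
      (hlevels _ (by omega) (by omega)) hz hb (fun σ hσ => by have := hlt σ hσ; omega)
    have hz₁ : z + bdC w₁ ∈ chains (JoinK P KA KB) k → bdC (z + bdC w₁) = 0 := fun _ => by
      rw [map_add, hb, bdC_bdC, add_zero]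
    have hmem : z + bdC w₁ ∈ chains (JoinK P KA KB) k := by
      refine add_mem hz (lift_mem (fun σ hc hσ => Submodule.sum_mem _ fun x hx => ?_) hw₁)
      have h' := single_mem (K := JoinK P KA KB) (σ := σ.erase x) (hdown σ hσ x)
      rwa [card_erase_of_mem hx, hc] at h'
    obtain ⟨w₂, hw₂, hs₂, hs₂', h₂⟩ := h P hKA hdown hA hkM hlevels (by omega) _ hmem (hz₁ hmem)
      (fun σ hσ => (h₁ σ hσ).1)
    refine ⟨w₁ + w₂, add_mem hw₁ hw₂, ?_, ?_, ?_⟩
    · exact (size_add _ _).trans (Nat.add_le_add hs₁ (hs₂.trans (hΘ hs₁')))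
    · rw [map_add, ← add_assoc]; exact hs₂'.trans (hΩ hs₁')
    · intro σ hσ
      rw [map_add, ← add_assoc] at hσ
      exact ⟨(h₂ σ hσ).1, fun m hm => (h₂ σ hσ).2 m fun τ hτ => (h₁ τ hτ).2 m hm⟩

end split

lemma not_filter (P : V → Prop) [DecidablePred P] (σ : Finset V) :
    sA (fun x => ¬ P x) σ = sB P σ ∧ sB (fun x => ¬ P x) σ = sA P σ := by
  refine ⟨rfl, filter_congr fun x _ => not_not⟩

/-- **Join lemma**, with bounds. -/
theorem fill_join (a b : ℕ) {Φ Ψ : ℕ → ℕ} (hΦ : Monotone Φ) (hΨ : Monotone Ψ) :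
    ∃ Θ : ℕ → ℕ, Monotone Θ ∧
      ∀ {V : Type} [DecidableEq V] (P : V → Prop) [DecidablePred P] {KA KB : Finset V → Prop},
        (∀ ρ, KA ρ → ∀ x ∈ ρ, P x) → (∀ τ, KB τ → ∀ x ∈ τ, ¬ P x) →
        (∀ ρ τ, KA ρ → τ ⊆ ρ → KA τ) → (∀ ρ τ, KB ρ → τ ⊆ ρ → KB τ) →
        Fill KA a Φ → Fill KB b Ψ → Fill (JoinK P KA KB) (a + b) Θ := by
  choose Θ₁ Ω₁ hΘ₁ hΩ₁ h₁ using pushes (a + b + 1) hΨ
  choose Θ₂ Ω₂ hΘ₂ hΩ₂ h₂ using pushes (a + b + 1) hΦ
  refine ⟨fun c => ∑ j ∈ range (a + b + 1), ∑ j' ∈ range (a + b + 1),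
    (Θ₁ j c + Θ₂ j' (Ω₁ j c)), fun x y hxy => sum_le_sum fun j _ => sum_le_sum fun j' _ =>
      Nat.add_le_add (hΘ₁ j hxy) (hΘ₂ j' (hΩ₁ j hxy)), ?_⟩
  intro V _ P _ KA KB hKA hKB hdA hdB hA hB k hk z hz hb
  have hdown : ∀ σ, JoinK P KA KB σ → ∀ x, JoinK P KA KB (σ.erase x) := fun σ hσ x =>
    ⟨hdA _ _ hσ.1 (filter_subset_filter _ (erase_subset _ _)),
      hdB _ _ hσ.2 (filter_subset_filter _ (erase_subset _ _))⟩
  have hswap : ∀ σ, JoinK (fun x => ¬ P x) KB KA σ ↔ JoinK P KA KB σ := fun σ => by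
    rw [JoinK, JoinK, (not_filter P σ).1, (not_filter P σ).2, and_comm]
  obtain ⟨w₁, hw₁, hs₁, hs₁', h1⟩ := h₁ (k + 1 - min a (k + 1)) (fun x => ¬ P x)
    (KA := KB) (KB := KA) (a := b) (k := k) (lo := min a (k + 1)) hKB
    (fun σ hσ x => (hswap _).2 (hdown σ ((hswap σ).1 hσ) x)) hB (by omega)
    (fun n hn hn' => by omega) (by omega) z (chains_mono (fun σ => (hswap σ).2) hz) hb
    (fun σ hσ => by
      rw [(not_filter P σ).2]
      have := card_sA_add_sB P σ
      have := (mem_chains.1 hz σ hσ).1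
      omega)
  have hw₁' := chains_mono (fun σ => (hswap σ).1) hw₁
  have hz₁ : z + bdC w₁ ∈ chains (JoinK P KA KB) k := by
    refine add_mem hz (lift_mem (fun σ hc hσ => Submodule.sum_mem _ fun x hx => ?_) hw₁')
    have h' := single_mem (K := JoinK P KA KB) (σ := σ.erase x) (hdown σ hσ x)
    rwa [card_erase_of_mem hx, hc] at h'
  have hcard : ∀ σ ∈ (z + bdC w₁).support, k + 1 - a ≤ (sB P σ).card ∧ (sB P σ).card ≤ k := by
    intro σ hσ
    have := (h1 σ hσ).1
    rw [(not_filter P σ).2] at this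
    have := card_sA_add_sB P σ
    have := (mem_chains.1 hz₁ σ hσ).1
    omega
  obtain ⟨w₂, hw₂, hs₂, -, h2⟩ := h₂ (k + 1 - (k + 1 - a)) P (KA := KA) (KB := KB) (a := a)
    (k := k) (lo := k + 1 - a) hKA hdown hA (by omega) (fun n hn hn' => by omega) (by omega) _
    hz₁ (by rw [map_add, hb, bdC_bdC, add_zero]) (fun σ hσ => by have := hcard σ hσ; omega)
  have hzero : z + bdC w₁ + bdC w₂ = 0 := by
    rw [← Finsupp.support_eq_empty, eq_empty_iff_forall_notMem]
    intro σ hσ
    have := (h2 σ hσ).2 _ fun τ hτ => (hcard τ hτ).1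
    have := (h2 σ hσ).1
    omega
  refine ⟨w₁ + w₂, add_mem hw₁' hw₂, ?_, ?_⟩
  · rw [map_add]
    exact (ch_eq_of_add (by rwa [← add_assoc])).symm
  · refine (size_add _ _).trans ((Nat.add_le_add hs₁ (hs₂.trans (hΘ₂ _ hs₁'))).trans ?_)
    set j₁ := k + 1 - min a (k + 1)
    set j₂ := k + 1 - (k + 1 - a)
    exact le_trans
      (single_le_sum (f := fun j' => Θ₁ j₁ (size z) + Θ₂ j' (Ω₁ j₁ (size z)))
        (fun _ _ => Nat.zero_le _) (mem_range.2 (by omega : j₂ < a + b + 1)))
      (single_le_sum (f := fun j => ∑ j' ∈ range (a + b + 1), (Θ₁ j (size z) + Θ₂ j' (Ω₁ j (size z))))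
        (fun _ _ => Nat.zero_le _) (mem_range.2 (by omega : j₁ < a + b + 1)))

end Vale.P067.Link
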