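import Vale.Agent.P067.Link.Assemble
import Vale.Agent.P067.Link.GapFill
import Vale.Agent.P067.Top.StepA
import Vale.Agent.P067.Top.Dual
import Vale.Agent.P067.Top.BuildingAcyclic

/-!
# Vanishing cohomology of the quotients of the opposition complex

If the deck group acts freely and has no homology in degree `i`, cocycles of degree `i` on the
quotient are coboundaries.
-/

namespace Vale.P067.Link

open Finset
open Vale.Agent.P067.Top Vale.Agent.P067.Top.Lat

/-- `X~` is exact below the dimension, for a large field. -/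
theorem exact_good_field (n : ℕ) [NeZero n] (F : Type) [Field F] [Fintype F]
    (hq : 2 ^ n ≤ Fintype.card F) (k : ℕ) (hk : k + 1 < n) :
    Exact (posModel F n).good k :=
  Model.good_exact (posModel F n) (fun c c' h h' j hj => exact_gap n F hq c c' h h' j hj)
    (Lat.simp_exact (F := F) (n := n)) hk

/-- **Vanishing on the quotient.** -/
theorem vanish_of_cover {F : Type} [Field F] [Fintype F] {n : ℕ} [NeZero n]
    (hq : 2 ^ n ≤ Fintype.card F) {U : Type} [Group U] [MulAction U (posModel F n).Vert]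
    [dV : DecidableEq (posModel F n).Vert] (C : Cover (posModel F n).Vert U n) [dO : DecidableEq C.Orb]
    (hX : C.X = (posModel F n).good)
    (hind : ∀ (g : U) (v : (posModel F n).Vert), (posModel F n).ind (g • v).1 = (posModel F n).ind v.1)
    (hfree : ∀ γ ∈ C.Γ, ∀ v : (posModel F n).Vert, {v} ∈ (posModel F n).good → γ • v = v → γ = 1)
    {i : ℕ} (hi : i + 2 < n) (hG : 1 ≤ i → (Vale.Agent.P067.GH C.Γ).Exact i) :
    ∀ f : Finset C.Orb → ZMod 2, IsCocycle C.tops i f → IsCobound C.tops i f := by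
  obtain rfl : dV = fun a b => Classical.propDecidable (a = b) := Subsingleton.elim _ _
  obtain rfl : dO = fun a b => Classical.propDecidable (a = b) := Subsingleton.elim _ _
  classical
  letI : DecidableEq C.Orb := fun a b => Classical.propDecidable (a = b)
  have hP : (posModel F n).Preserves C.Γ :=
    ⟨fun g σ hσ => by
      exact hX ▸ C.inv g.1 σ (hX.symm ▸ hσ), fun g v => hind g.1 v⟩
  have hK : ∀ σ, σ ∈ (posModel F n).goodR.K → σ ∈ C.X := fun σ h => hX.symm ▸ (h : σ ∈ (posModel F n).good)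
  have hex : ∀ k, k + 1 < n → Exact (posModel F n).good k := exact_good_field n F hq
  obtain ⟨t₀, ht₀, hc₀⟩ := C.base
  have hS := Model.quot_exact_of_free hP hex ⟨t₀, hX ▸ ht₀, hc₀⟩
    (fun g v hv h => Subtype.ext (hfree g.1 g.2 v hv h)) hi hG
  have R := (posModel F n).goodR.realisesQuot hP.good (fun g v => by
      show ((posModel F n).ind (g • v).1).toNat = ((posModel F n).ind v.1).toNat
      rw [hP.ind]) C.tops (i + 1) C.proj
    (fun g v => C.proj_eq.2 ⟨g.1, g.2, rfl⟩)
    (fun σ hσ => C.injOn (hK σ hσ))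
    (fun σ hσ _ _ => by
      exact C.mem_faces_proj (hK σ hσ))
    (fun k _ _ τ hτ => by
      obtain ⟨σ, hσ, hc, rfl⟩ := C.exists_lift hτ
      exact ⟨σ, (show σ ∈ (posModel F n).good from hX ▸ hσ), hc, rfl⟩)
    ?_
  · intro f hf
    exact R.isCobound_of_exact le_rfl hS f hf
  · intro σ hσ σ' hσ' e
    have hσ : σ ∈ C.X := hK σ hσ
    have hσ' : σ' ∈ C.X := hK σ' hσ'
    have e' : σ.image C.proj = σ'.image C.proj := e
    rcases σ.eq_empty_or_nonempty with rfl | hne
    · rw [image_empty, eq_comm, image_eq_empty] at e'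
      exact ⟨1, by simp [e']⟩
    obtain ⟨u, hu⟩ := hne
    obtain ⟨u', hu', hu''⟩ := mem_image.1 (e' ▸ mem_image_of_mem C.proj hu)
    obtain ⟨γ, hγ, rfl⟩ := C.proj_eq.1 hu''.symm
    have hsub : σ ⊆ σ'.image (γ • ·) := by
      intro v hv
      obtain ⟨w, hw, hwv⟩ := mem_image.1 (e' ▸ mem_image_of_mem C.proj hv)
      obtain ⟨δ, hδ, rfl⟩ := C.proj_eq.1 hwv.symm
      refine mem_image.2 ⟨w, hw, ?_⟩
      have h1 : ({γ • u', γ • w} : Finset _) ∈ C.X := C.down _ (C.inv γ σ' hσ') _
        (by simp [insert_subset_iff, mem_image_of_mem _ hu', mem_image_of_mem _ hw])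
      have h2 : ({γ • u', (δ * γ⁻¹) • (γ • w)} : Finset _) ∈ C.X := C.down _ hσ _
        (by simp [insert_subset_iff, hu, hv, mul_smul])
      have := C.star (δ * γ⁻¹) (C.Γ.mul_mem hδ (C.Γ.inv_mem hγ)) _ _ h1 h2
      rw [mul_smul, inv_smul_smul] at this
      exact this.symm
    have heq : σ = σ'.image (γ • ·) := eq_of_subset_of_card_le hsub (by
      rw [card_image_of_injective _ (MulAction.injective γ), ← card_image_of_injOn (C.injOn hσ'),
        ← e', card_image_of_injOn (C.injOn hσ)])
    refine ⟨⟨γ⁻¹, C.Γ.inv_mem hγ⟩, ?_⟩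
    have : σ.image (fun v => γ⁻¹ • v) = σ' := by
      rw [heq, image_image]
      simp [Function.comp_def]
    exact this

end Vale.P067.Link
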