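import Vale.Agent.P067.Link.Quot
import Vale.Agent.P067.Top.Chamber
import Vale.Agent.P067.Top.StepAFinal

/-!
# The covers of the congruence subgroups

For `s ≥ 3` the congruence subgroup of level `t^s` makes `X~` a cover of a finite complex; these
complexes grow with the index of the subgroup, as vertex stabilisers are of bounded order.
-/

namespace Vale.P067.Link

open Finset
open Vale.Agent.P067.Top Vale.Agent.P067.Top.Lat
open scoped Classical

variable {F : Type} [Field F] {n : ℕ} [NeZero n]

/-- The cover of level `t^s`. -/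
noncomputable def coverUp (s : ℕ) (hs : 3 ≤ s) (hfin : Finite (Up F n ⧸ GamU F n s)) :
    Cover (posModel F n).Vert (Up F n) n where
  X := (posModel F n).good
  col := (posModel F n).rankV
  Γ := GamU F n s
  normal := inferInstance
  finiteIndex := hfin
  down σ hσ τ hτ := (posModel F n).down_good σ hσ τ hτ
  inv g σ hσ := by convert good_smul (g := g) hσ
  col_inv g v := congrArg Int.toNat (ind_smul g v)
  col_inj σ hσ := (posModel F n).rankV_inj hσ.1
  pure σ hσ := good_extend hσ
  trans t ht t' ht' hc hc' := by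
    obtain ⟨g, hg⟩ := good_transitive ht hc ht' hc'
    exact ⟨g, by convert hg⟩
  star γ hγ v w h1 h2 := by
    rw [good_star hs hγ (by convert h1) (by convert h2), one_smul]
  base := exists_good_card n

/-- A freely acting normal subgroup of finite index bounds the stabilisers. -/
lemma finite_stabilizer (h2 : Finite (Up F n ⧸ GamU F n 3)) {v : (posModel F n).Vert}
    (hv : {v} ∈ (posModel F n).good) :
    Finite (MulAction.stabilizer (Up F n) v) ∧
      Nat.card (MulAction.stabilizer (Up F n) v) ≤ Nat.card (Up F n ⧸ GamU F n 3) := by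
  have hinj : Function.Injective
      fun g : MulAction.stabilizer (Up F n) v => (g.1 : Up F n ⧸ GamU F n 3) := by
    intro g h e
    have hm : g.1⁻¹ * h.1 ∈ GamU F n 3 := QuotientGroup.eq.1 e
    have hfix : (g.1⁻¹ * h.1) • v = v :=
      MulAction.mem_stabilizer_iff.1 (Subgroup.mul_mem _ (Subgroup.inv_mem _ g.2) h.2)
    have := good_free (by norm_num) hm hv hfix
    exact Subtype.ext (inv_mul_eq_one.1 this)
  exact ⟨Finite.of_injective _ hinj, Nat.card_le_card_of_injective _ hinj⟩

/-- The quotients grow. -/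
theorem exists_large_cover (hfin : ∀ s, 1 ≤ s → Finite (Up F n ⧸ GamU F n s))
    (hgrow : ∀ m : ℕ, ∃ s, 3 ≤ s ∧ m ≤ Nat.card (Up F n ⧸ GamU F n s)) (m : ℕ) :
    ∃ (s : ℕ) (hs : 3 ≤ s),
      m ≤ (faces (coverUp s hs (hfin s (by omega))).tops 1).card := by
  obtain ⟨τ, hτ, hc⟩ := exists_good_card (F := F) n
  obtain ⟨v, hv⟩ := card_pos.1 (by rw [hc]; exact NeZero.pos n : 0 < τ.card)
  have hv' : {v} ∈ (posModel F n).good :=
    (posModel F n).down_good τ hτ _ (singleton_subset_iff.2 hv)
  obtain ⟨hsfin, hB⟩ := finite_stabilizer (hfin 3 (by norm_num)) hv'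
  set B := Nat.card (Up F n ⧸ GamU F n 3)
  have := hfin 3 (by norm_num)
  have hBpos : 0 < B := Nat.card_pos
  obtain ⟨s, hs, hm⟩ := hgrow (B * m)
  refine ⟨s, hs, Nat.le_of_mul_le_mul_left ?_ hBpos⟩
  have := (coverUp s hs (hfin s (by omega))).card_vertices (v₀ := v) hv' hB
  exact hm.trans this

end Vale.P067.Link
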