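import Vale.Agent.P067.Link.Assemble
import Vale.Agent.P067.Link.Tower

/-!
# Bounded-degree coboundary expanders in every dimension

The final assembly, from the index of the congruence subgroups in `U+`.
-/

namespace Vale.P067.Link

open Finset
open Vale.Agent.P067.Top Vale.Agent.P067.Top.Lat
open scoped Classical

/-- Vertex stabilisers are locally odd, once the index of a free congruence subgroup is odd. -/
lemma locOdd_stabilizer {F : Type} [Field F] {m : ℕ} [NeZero m]
    (hfin : Finite (Up F m ⧸ GamU F m 3)) (hodd : Odd (Nat.card (Up F m ⧸ GamU F m 3)))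
    (v : (posModel F m).Vert) (hv : {v} ∈ (posModel F m).good) :
    Vale.Agent.P067.LocOdd (MulAction.stabilizer (Up F m) v) := by
  set φ := (QuotientGroup.mk' (GamU F m 3)).comp (MulAction.stabilizer (Up F m) v).subtype with hφ
  have hinj : Function.Injective φ := by
    rw [← MonoidHom.ker_eq_bot_iff, Subgroup.eq_bot_iff_forall]
    intro g hg
    have hm : g.1 ∈ GamU F m 3 := (QuotientGroup.eq_one_iff g.1).1 hg
    exact Subtype.ext (good_free (by norm_num) hm hv g.2)
  have : Finite (MulAction.stabilizer (Up F m) v) := (finite_stabilizer hfin hv).1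
  exact Vale.Agent.P067.LocOdd.of_finite (hodd.of_dvd_nat (Subgroup.card_dvd_of_injective φ hinj))

/-- **Bounded-degree coboundary expanders**, from the facts on the congruence index. -/
theorem expanders_of_index
    (hfin : ∀ (p : ℕ) [Fact p.Prime] (m s : ℕ) [NeZero m], 1 ≤ s →
      Finite (Up (ZMod p) m ⧸ GamU (ZMod p) m s))
    (hodd : ∀ (p : ℕ) [Fact p.Prime] (m s : ℕ) [NeZero m], Odd p → 1 ≤ s →
      Odd (Nat.card (Up (ZMod p) m ⧸ GamU (ZMod p) m s)))
    (hgrow : ∀ (p : ℕ) [Fact p.Prime] (n : ℕ) [NeZero n], 2 ≤ n → ∀ m : ℕ,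
      ∃ s, 3 ≤ s ∧ m ≤ Nat.card (Up (ZMod p) n ⧸ GamU (ZMod p) n s))
    (d : ℕ) (hd : 1 ≤ d) :
    ∃ D : ℕ, ∃ ε : ℝ, 0 < ε ∧ ∀ m : ℕ, ∃ (V : Type) (_ : DecidableEq V) (T : Finset (Finset V)),
      T.Nonempty ∧ (∀ t ∈ T, t.card = d + 1) ∧ m ≤ (faces T 1).card ∧
      (∀ v, (Vale.P067.star T {v}).card ≤ D) ∧
      (∀ u v : V, {u} ∈ faces T 1 → {v} ∈ faces T 1 →
        Relation.ReflTransGen (fun a b => ∃ t ∈ T, a ∈ t ∧ b ∈ t) u v) ∧
      IsCoboundaryExpander T d ε := by
  set n := 2 * d + 2 with hn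
  have : NeZero n := ⟨by omega⟩
  obtain ⟨q₀, hq₀⟩ := expanders_of_covers d n hd (by omega)
  obtain ⟨p, hp, hpp⟩ := Nat.exists_infinite_primes (max q₀ (max (2 ^ n) 3))
  have : Fact p.Prime := ⟨hpp⟩
  have hp3 : 3 ≤ p := le_trans (le_max_of_le_right (le_max_right _ _)) hp
  have hpodd : Odd p := hpp.odd_of_ne_two (by omega)
  have hcard : Fintype.card (ZMod p) = p := ZMod.card p
  obtain ⟨D, ε, hε, h⟩ := hq₀ (ZMod p) (by rw [hcard]; exact le_trans (le_max_left _ _) hp)
  refine ⟨D, ε, hε, fun m => ?_⟩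
  obtain ⟨s, hs, hm⟩ := exists_large_cover (F := ZMod p) (n := n) (fun s => hfin p n s)
    (hgrow p n (by omega)) m
  set C := coverUp (F := ZMod p) (n := n) s hs (hfin p n s (by omega))
  have hvan := vanishing (F := ZMod p) (s := s) (p := p) (by omega) hpp hpodd (n := n) (d := d)
    (by rw [hcard]; exact le_trans (le_max_of_le_right (le_max_left _ _)) hp)
    (by omega) (by omega) (fun k _ => hfin p k s (by omega))
    (fun k _ => hodd p k s hpodd (by omega))
    (fun k _ v hv => locOdd_stabilizer (hfin p k 3 (by omega)) (hodd p k 3 hpodd (by omega)) v hv)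
    C rfl rfl
  obtain ⟨h1, h2, h3, h4, h5, h6⟩ := h (Up (ZMod p) n) C rfl hvan
  refine ⟨C.Orb, inferInstance, Local.skeleton C.tops d, h1, h2, h3 ▸ hm, h4, ?_, h6⟩
  intro u v hu hv
  obtain ⟨s₁, hs₁, hus, -⟩ := Local.mem_faces.1 hu
  obtain ⟨s₂, hs₂, hvs, -⟩ := Local.mem_faces.1 hv
  exact h5 s₁ hs₁ s₂ hs₂ u (singleton_subset_iff.1 hus) v (singleton_subset_iff.1 hvs)

end Vale.P067.Link
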